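import Crest.Agent.R168.Proc

/-! T2 auxiliary: law of finitely many observations. -/

set_option autoImplicit false

namespace Crest.Agent.R168.BayesAux

open MeasureTheory ProbabilityTheory Filter Topology
open scoped ENNReal

noncomputable section

/-- product of densities. -/
lemma pi_withDensity {J α : Type*} [Fintype J] [MeasurableSpace α] (μ : Measure α)
    [IsProbabilityMeasure μ] (f : J → α → ℝ≥0∞) (hf : ∀ j, Measurable (f j))
    [∀ j, IsProbabilityMeasure (μ.withDensity (f j))] :
    Measure.pi (fun j => μ.withDensity (f j)) =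
      (Measure.pi (fun _ : J => μ)).withDensity (fun y => ∏ j, f j (y j)) := by
  refine Measure.pi_eq fun s hs => ?_
  rw [withDensity_apply _ (MeasurableSet.univ_pi hs), ← lintegral_indicator
    (MeasurableSet.univ_pi hs)]
  have h1 : ∀ y : J → α, (Set.pi Set.univ s).indicator (fun y => ∏ j, f j (y j)) y =
      ∏ j ∈ Finset.univ, (s j).indicator (f j) (y j) := by
    intro y
    by_cases hy : y ∈ Set.pi Set.univ s
    · rw [Set.indicator_of_mem hy]
      refine Finset.prod_congr rfl fun j _ => ?_
      rw [Set.indicator_of_mem (hy j (Set.mem_univ j))]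
    · rw [Set.indicator_of_notMem hy]
      simp only [Set.mem_pi, Set.mem_univ, forall_const, not_forall] at hy
      obtain ⟨j, hj⟩ := hy
      symm
      apply Finset.prod_eq_zero (Finset.mem_univ j)
      exact Set.indicator_of_notMem hj _
  simp_rw [h1]
  have hind : iIndepFun (fun (j : J) (y : J → α) => (s j).indicator (f j) (y j))
      (Measure.pi (fun _ : J => μ)) :=
    iIndepFun_pi (X := fun j => (s j).indicator (f j))
      (fun j => ((hf j).indicator (hs j)).aemeasurable)
  rw [lintegral_prod_eq_prod_lintegral_of_indepFun Finset.univ _ hind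
    (fun j => ((hf j).indicator (hs j)).comp (measurable_pi_apply j))]
  refine Finset.prod_congr rfl fun j _ => ?_
  rw [withDensity_apply _ (hs j), ← lintegral_indicator (hs j)]
  have hmp := measurePreserving_eval (fun _ : J => μ) j
  rw [← hmp.lintegral_comp ((hf j).indicator (hs j))]

/-- density factor of one observation, given occupation `b`. -/
def dfac (b : Bool) (y : ℝ) : ℝ := 1 + (if b = true then (2 * y - 1) / 4 else 0)

lemma measurable_dfac (b : Bool) : Measurable (dfac b) := by
  unfold dfac
  split_ifs <;> fun_prop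

lemma dfac_pos {b : Bool} {y : ℝ} (hy : 0 ≤ y) : 0 < dfac b y := by
  unfold dfac; split_ifs <;> linarith

lemma isProb_U01' : IsProbabilityMeasure U01' := inferInstance

lemma isProb_dfac (b : Bool) :
    IsProbabilityMeasure (U01.withDensity fun y => ENNReal.ofReal (dfac b y)) := by
  cases b
  · simp only [dfac, Bool.false_eq_true, if_false, add_zero, ENNReal.ofReal_one]
    have : (U01.withDensity fun _ => (1 : ℝ≥0∞)) = U01 := withDensity_one
    rw [this]; infer_instance
  · simp only [dfac, if_true]
    exact isProb_U01'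

lemma map_sel (b : Bool) :
    (U01'.prod U01).map (fun q : ℝ × ℝ => if b = true then q.1 else q.2) =
      U01.withDensity fun y => ENNReal.ofReal (dfac b y) := by
  cases b
  · simp only [dfac, Bool.false_eq_true, if_false, add_zero, ENNReal.ofReal_one]
    have h1 : (U01.withDensity fun _ => (1 : ℝ≥0∞)) = U01 := withDensity_one
    rw [h1]
    show (U01'.prod U01).map Prod.snd = U01
    rw [Measure.map_snd_prod]; simp
  · simp only [dfac, if_true]
    show (U01'.prod U01).map Prod.fst = U01'
    rw [Measure.map_fst_prod]; simp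

variable {V : Type*}

/-- The observations in a finite window `J`. -/
def YJ (J : Finset (V × ℕ)) (ω : Om V) : J → ℝ := fun b => Yo ω b.1.1 b.1.2

lemma measurable_Yo (i : V) (k : ℕ) : Measurable (fun ω : Om V => Yo ω i k) := by
  unfold Yo
  refine Measurable.ite ?_ ?_ ?_
  · exact (measurableSet_singleton true).preimage
      ((measurable_pi_apply i).comp measurable_fst)
  · exact measurable_fst.comp ((measurable_pi_apply (i, k)).comp measurable_snd)
  · exact measurable_snd.comp ((measurable_pi_apply (i, k)).comp measurable_snd)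

lemma measurable_YJ (J : Finset (V × ℕ)) : Measurable (YJ J : Om V → J → ℝ) :=
  measurable_pi_lambda _ fun b => measurable_Yo b.1.1 b.1.2

/-- joint density of the observations in `J` given the configuration. -/
def dJ (J : Finset (V × ℕ)) (x : V → Bool) (y : J → ℝ) : ℝ≥0∞ :=
  ∏ b : J, ENNReal.ofReal (dfac (x b.1.1) (y b))

lemma infinitePi_congr {ι : Type*} {X : ι → Type*} [∀ i, MeasurableSpace (X i)]
    (μ μ' : (i : ι) → Measure (X i)) (_ : ∀ b, IsProbabilityMeasure (μ b))
    (_ : ∀ b, IsProbabilityMeasure (μ' b)) (h : μ = μ') :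
    Measure.infinitePi μ = Measure.infinitePi μ' := by
  subst h; rfl

lemma map_YJ_fixed (J : Finset (V × ℕ)) (x : V → Bool) :
    (Measure.infinitePi fun _ : V × ℕ => U01'.prod U01).map
        (fun η (b : J) => if x b.1.1 = true then (η b.1).1 else (η b.1).2) =
      (Measure.pi fun _ : J => U01).withDensity (dJ J x) := by
  have hpd := isProb_dfac
  let sel : V × ℕ → ℝ × ℝ → ℝ := fun b q => if x b.1 = true then q.1 else q.2
  have hsel : ∀ b : V × ℕ, Measurable (sel b) := by
    intro b
    simp only [sel]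
    split_ifs <;> fun_prop
  let g : (V × ℕ → ℝ × ℝ) → (V × ℕ → ℝ) := fun η b => sel b (η b)
  have hg : Measurable g := measurable_pi_lambda _ fun b => (hsel b).comp (measurable_pi_apply b)
  have h1 : (fun (η : V × ℕ → ℝ × ℝ) (b : J) => if x b.1.1 = true then (η b.1).1 else (η b.1).2) =
      J.restrict ∘ g := by
    funext η b; rfl
  have hmap : (Measure.infinitePi fun _ : V × ℕ => U01'.prod U01).map g =
      Measure.infinitePi (fun b : V × ℕ => (U01'.prod U01).map (sel b)) :=
    Measure.infinitePi_map_pi (fun _ : V × ℕ => U01'.prod U01) hsel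
  have h2 : (fun b : V × ℕ => (U01'.prod U01).map (sel b)) =
      fun b : V × ℕ => U01.withDensity fun y => ENNReal.ofReal (dfac (x b.1) y) := by
    funext b
    exact map_sel (x b.1)
  have hm : ∀ b : V × ℕ, IsProbabilityMeasure ((U01'.prod U01).map (sel b)) := fun b =>
    Measure.isProbabilityMeasure_map (hsel b).aemeasurable
  rw [h1, ← Measure.map_map (Finset.measurable_restrict J) hg, hmap,
    infinitePi_congr _ _ hm (fun b => isProb_dfac _) h2]
  have h4 := Measure.infinitePi_map_restrict
    (fun b : V × ℕ => U01.withDensity fun y => ENNReal.ofReal (dfac (x b.1) y)) (I := J)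
  rw [h4]
  exact pi_withDensity U01 (fun (b : J) y => ENNReal.ofReal (dfac (x b.1.1) y))
    (fun b => ENNReal.measurable_ofReal.comp (measurable_dfac _))

lemma measurable_dJ (J : Finset (V × ℕ)) :
    Measurable (fun q : (V → Bool) × (J → ℝ) => dJ J q.1 q.2) := by
  unfold dJ
  refine Finset.measurable_prod _ fun b _ => ENNReal.measurable_ofReal.comp ?_
  unfold dfac
  refine measurable_const.add (Measurable.ite ?_ ?_ measurable_const)
  · exact (measurableSet_singleton true).preimage
      ((measurable_pi_apply b.1.1).comp measurable_fst)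
  · have : Measurable fun a : (V → Bool) × (J → ℝ) => a.2 b :=
      (measurable_pi_apply b).comp measurable_snd
    exact ((this.const_mul 2).sub_const 1).div_const 4

/-- Change of measure: expectation of a function of the configuration and of the observations
in `J`. -/
lemma lintegral_YJ (ν : Measure (V → Bool)) [IsProbabilityMeasure ν] (J : Finset (V × ℕ))
    (Φ : (V → Bool) × (J → ℝ) → ℝ≥0∞) (hΦ : Measurable Φ) :
    ∫⁻ ω, Φ (ω.1, YJ J ω) ∂(PP ν) =
      ∫⁻ y, ∫⁻ x, Φ (x, y) * dJ J x y ∂ν ∂(Measure.pi fun _ : J => U01) := by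
  unfold PP
  have hprob : IsProbabilityMeasure (U01'.prod U01) := inferInstance
  have hc : Measurable (fun ω : Om V => Φ (ω.1, YJ J ω)) :=
    hΦ.comp (measurable_fst.prodMk (measurable_YJ J))
  rw [lintegral_prod _ hc.aemeasurable]
  have h1 : ∀ x : V → Bool, ∫⁻ η, Φ (x, YJ J (x, η))
      ∂(Measure.infinitePi fun _ : V × ℕ => U01'.prod U01) =
      ∫⁻ y, Φ (x, y) * dJ J x y ∂(Measure.pi fun _ : J => U01) := by
    intro x
    have hsec : Measurable fun y : J → ℝ => Φ (x, y) := hΦ.comp measurable_prodMk_left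
    have hmeas : Measurable (fun (η : V × ℕ → ℝ × ℝ) (b : J) =>
        if x b.1.1 = true then (η b.1).1 else (η b.1).2) := by
      refine measurable_pi_lambda _ fun b => ?_
      split_ifs
      · exact measurable_fst.comp (measurable_pi_apply _)
      · exact measurable_snd.comp (measurable_pi_apply _)
    have h2 := lintegral_map (μ := Measure.infinitePi fun _ : V × ℕ => U01'.prod U01) hsec hmeas
    rw [map_YJ_fixed] at h2
    have h3 : Measurable (dJ J x) := (measurable_dJ J).comp measurable_prodMk_left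
    rw [lintegral_withDensity_eq_lintegral_mul _ h3 hsec] at h2
    rw [show (fun η => Φ (x, YJ J (x, η))) = fun η => Φ (x, (fun b : J =>
      if x b.1.1 = true then (η b.1).1 else (η b.1).2)) from rfl, ← h2]
    refine lintegral_congr fun y => ?_
    simp only [Pi.mul_apply]
    rw [mul_comm]
  simp_rw [h1]
  rw [lintegral_lintegral_swap]
  exact (hΦ.mul (measurable_dJ J)).aemeasurable

/-! ### cylinder expansion -/

/-- cylinder set. -/
def cylS (F S : Finset V) : Set (V → Bool) := {ω | ∀ i ∈ F, (ω i = true ↔ i ∈ S)}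

lemma measurableSet_cylS (F S : Finset V) : MeasurableSet (cylS F S) := by
  have : cylS F S = ⋂ i ∈ F, {ω : V → Bool | ω i = true ↔ i ∈ S} := by
    ext ω; simp [cylS]
  rw [this]
  refine Finset.measurableSet_biInter _ fun i _ => ?_
  by_cases hi : i ∈ S
  · have : {ω : V → Bool | ω i = true ↔ i ∈ S} = (fun ω => ω i) ⁻¹' {true} := by
      ext ω; simp [hi]
    rw [this]; exact (measurable_pi_apply i) (measurableSet_singleton _)
  · have : {ω : V → Bool | ω i = true ↔ i ∈ S} = (fun ω => ω i) ⁻¹' {false} := by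
      ext ω; simp [hi]
    rw [this]; exact (measurable_pi_apply i) (measurableSet_singleton _)

/-- trace of a configuration on `F`. -/
def tr (F : Finset V) (x : V → Bool) : Finset V := F.filter (fun j => x j = true)

lemma mem_cylS_iff {F S : Finset V} (hS : S ⊆ F) (x : V → Bool) :
    x ∈ cylS F S ↔ tr F x = S := by
  constructor
  · intro hx
    ext j
    simp only [tr, Finset.mem_filter]
    constructor
    · rintro ⟨hj, hxj⟩; exact (hx j hj).1 hxj
    · intro hj; exact ⟨hS hj, (hx j (hS hj)).2 hj⟩
  · intro h j hj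
    rw [← h]
    simp [tr, hj]

open scoped Classical in
lemma psi_expand (F : Finset V) (ψ : Finset V → ℝ) (x : V → Bool) :
    ψ (tr F x) = ∑ S ∈ F.powerset, (cylS F S).indicator (fun _ => ψ S) x := by
  rw [Finset.sum_eq_single_of_mem (tr F x) (by simp [tr])]
  · rw [Set.indicator_of_mem]
    rw [mem_cylS_iff (by simp [tr])]
  · intro S hS hne
    rw [Set.indicator_of_notMem]
    rw [mem_cylS_iff (Finset.mem_powerset.1 hS)]
    exact fun h => hne h.symm

lemma measurable_psi (F : Finset V) (ψ : Finset V → ℝ) :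
    Measurable (fun x : V → Bool => ψ (tr F x)) := by
  simp_rw [psi_expand F ψ]
  exact Finset.measurable_sum _ fun S _ =>
    Measurable.indicator measurable_const (measurableSet_cylS F S)

lemma integrable_psi (ν : Measure (V → Bool)) [IsProbabilityMeasure ν] (F : Finset V)
    (ψ : Finset V → ℝ) : Integrable (fun x : V → Bool => ψ (tr F x)) ν := by
  simp_rw [psi_expand F ψ]
  exact integrable_finsetSum _ fun S _ =>
    (integrable_const _).indicator (measurableSet_cylS F S)

lemma integral_psi (ν : Measure (V → Bool)) [IsProbabilityMeasure ν] (F : Finset V)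
    (ψ : Finset V → ℝ) : ∫ x, ψ (tr F x) ∂ν = ∑ S ∈ F.powerset, cyl ν F S * ψ S := by
  simp_rw [psi_expand F ψ]
  rw [integral_finsetSum _ fun S _ => (integrable_const _).indicator (measurableSet_cylS F S)]
  refine Finset.sum_congr rfl fun S _ => ?_
  rw [integral_indicator (measurableSet_cylS F S), setIntegral_const]
  rfl

lemma lintegral_psi (ν : Measure (V → Bool)) [IsProbabilityMeasure ν] (F : Finset V)
    (ψ : Finset V → ℝ) (hψ : ∀ S, 0 ≤ ψ S) :
    ∫⁻ x, ENNReal.ofReal (ψ (tr F x)) ∂ν =
      ENNReal.ofReal (∑ S ∈ F.powerset, cyl ν F S * ψ S) := by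
  rw [← ofReal_integral_eq_lintegral_ofReal (integrable_psi ν F ψ)
    (ae_of_all _ fun x => hψ _), integral_psi]

/-! ### the field of a finite window -/

open scoped Classical in
/-- field generated by the observations in `J`. -/
def hJ (J : Finset (V × ℕ)) (y : J → ℝ) (j : V) : ℝ :=
  ∑ b : J, if b.1.1 = j then gfun (y b) else 0

lemma dfac_eq_exp (b : Bool) {y : ℝ} (hy : 0 ≤ y) :
    dfac b y = Real.exp (if b = true then gfun y else 0) := by
  unfold dfac gfun
  split_ifs
  · rw [Real.exp_log (by linarith)]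
  · simp

lemma dJ_eq (J : Finset (V × ℕ)) (F : Finset V) (hJF : ∀ b ∈ J, b.1 ∈ F) (x : V → Bool)
    (y : J → ℝ) (hy : ∀ b, 0 ≤ y b) :
    dJ J x y = ENNReal.ofReal (Real.exp (∑ j ∈ tr F x, hJ J y j)) := by
  classical
  unfold dJ
  rw [← ENNReal.ofReal_prod_of_nonneg (fun b _ => (dfac_pos (hy b)).le)]
  congr 1
  simp_rw [fun b : J => dfac_eq_exp (x b.1.1) (hy b)]
  rw [← Real.exp_sum]
  congr 1
  unfold hJ
  rw [Finset.sum_comm]
  refine Finset.sum_congr rfl fun b _ => ?_
  rw [Finset.sum_ite_eq]
  have : b.1.1 ∈ tr F x ↔ x b.1.1 = true := by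
    simp [tr, hJF b.1 b.2]
  simp only [this]

lemma lintegral_dJ (ν : Measure (V → Bool)) [IsProbabilityMeasure ν] (J : Finset (V × ℕ))
    (F : Finset V) (hJF : ∀ b ∈ J, b.1 ∈ F) (y : J → ℝ) (hy : ∀ b, 0 ≤ y b) :
    ∫⁻ x, dJ J x y ∂ν = ENNReal.ofReal (Zw (cyl ν) F (hJ J y)) := by
  simp_rw [fun x => dJ_eq J F hJF x y hy]
  exact lintegral_psi ν F (fun S => Real.exp (∑ j ∈ S, hJ J y j)) fun S => (Real.exp_pos _).le

lemma lintegral_dJ_occ (ν : Measure (V → Bool)) [IsProbabilityMeasure ν] (J : Finset (V × ℕ))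
    (F : Finset V) (hJF : ∀ b ∈ J, b.1 ∈ F) (i : V) (hi : i ∈ F) (y : J → ℝ)
    (hy : ∀ b, 0 ≤ y b) :
    ∫⁻ x, ENNReal.ofReal (if x i = true then 1 else 0) * dJ J x y ∂ν =
      ENNReal.ofReal (Zo (cyl ν) F i (hJ J y)) := by
  classical
  have h1 : ∀ x : V → Bool, ENNReal.ofReal (if x i = true then 1 else 0) * dJ J x y =
      ENNReal.ofReal ((fun S : Finset V => if i ∈ S then Real.exp (∑ j ∈ S, hJ J y j) else 0)
        (tr F x)) := by
    intro x
    rw [dJ_eq J F hJF x y hy]
    have : i ∈ tr F x ↔ x i = true := by simp [tr, hi]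
    simp only [this]
    split_ifs <;> simp
  rw [lintegral_congr h1, lintegral_psi ν F
    (fun S : Finset V => if i ∈ S then Real.exp (∑ j ∈ S, hJ J y j) else 0)
    (fun S => by split_ifs; exacts [(Real.exp_pos _).le, le_rfl])]
  congr 1
  unfold Zo
  refine Finset.sum_congr rfl fun S _ => ?_
  split_ifs <;> simp

lemma Zw_pos (ν : Measure (V → Bool)) [IsProbabilityMeasure ν] (F : Finset V) (h : V → ℝ) :
    0 < Zw (cyl ν) F h := by
  have h1 := integral_psi ν F (fun S => Real.exp (∑ j ∈ S, h j))
  unfold Zw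
  rw [← h1]
  have hint := integrable_psi ν F (fun S => Real.exp (∑ j ∈ S, h j))
  exact integral_exp_pos hint

lemma Zo_nonneg (ν : Measure (V → Bool)) (F : Finset V) (i : V) (h : V → ℝ) :
    0 ≤ Zo (cyl ν) F i h := by
  classical
  unfold Zo
  refine Finset.sum_nonneg fun S _ => ?_
  split_ifs
  · exact mul_nonneg ENNReal.toReal_nonneg (Real.exp_pos _).le
  · exact le_rfl

lemma Zo_le_Zw (ν : Measure (V → Bool)) (F : Finset V) (i : V) (h : V → ℝ) :
    Zo (cyl ν) F i h ≤ Zw (cyl ν) F h := by
  classical
  unfold Zo Zw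
  refine Finset.sum_le_sum fun S _ => ?_
  split_ifs
  · exact le_rfl
  · exact mul_nonneg ENNReal.toReal_nonneg (Real.exp_pos _).le

lemma occ_mem (ν : Measure (V → Bool)) [IsProbabilityMeasure ν] (F : Finset V) (i : V)
    (h : V → ℝ) : 0 ≤ occ (cyl ν) F i h ∧ occ (cyl ν) F i h ≤ 1 := by
  unfold occ
  refine ⟨div_nonneg (Zo_nonneg ν F i h) (Zw_pos ν F h).le, ?_⟩
  rw [div_le_one (Zw_pos ν F h)]
  exact Zo_le_Zw ν F i h

end

end Crest.Agent.R168.BayesAux
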