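import Crest.Agent.R168.Proc
import Crest.Agent.R168.BayesAux

/-! T2: Bayes formula for finite sets + Lévy's upward theorem. -/

set_option autoImplicit false

namespace Crest.Agent.R168.BayesAux

open MeasureTheory ProbabilityTheory Filter Topology
open scoped ENNReal

section aux

variable {V : Type*}

lemma measurable_gfun : Measurable gfun := by
  unfold gfun; fun_prop

lemma measurable_Zw (c : Finset V → Finset V → ℝ) (F : Finset V) :
    Measurable (fun h : V → ℝ => Zw c F h) := by
  unfold Zw
  exact Finset.measurable_sum _ fun S _ => (Real.measurable_exp.comp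
    (Finset.measurable_sum _ fun j _ => measurable_pi_apply j)).const_mul _

lemma measurable_Zo (c : Finset V → Finset V → ℝ) (F : Finset V) (i : V) :
    Measurable (fun h : V → ℝ => Zo c F i h) := by
  classical
  unfold Zo
  refine Finset.measurable_sum _ fun S _ => ?_
  split_ifs
  · exact (Real.measurable_exp.comp
      (Finset.measurable_sum _ fun j _ => measurable_pi_apply j)).const_mul _
  · exact measurable_const

lemma measurable_occ (c : Finset V → Finset V → ℝ) (F : Finset V) (i : V) :
    Measurable (fun h : V → ℝ => occ c F i h) :=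
  (measurable_Zo c F i).div (measurable_Zw c F)

lemma Zw_congr (c : Finset V → Finset V → ℝ) (F : Finset V) {h h' : V → ℝ}
    (hh : ∀ j ∈ F, h j = h' j) : Zw c F h = Zw c F h' := by
  unfold Zw
  refine Finset.sum_congr rfl fun S hS => ?_
  rw [Finset.sum_congr rfl fun j hj => hh j (Finset.mem_powerset.1 hS hj)]

lemma Zo_congr (c : Finset V → Finset V → ℝ) (F : Finset V) (i : V) {h h' : V → ℝ}
    (hh : ∀ j ∈ F, h j = h' j) : Zo c F i h = Zo c F i h' := by
  unfold Zo
  refine Finset.sum_congr rfl fun S hS => ?_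
  rw [Finset.sum_congr rfl fun j hj => hh j (Finset.mem_powerset.1 hS hj)]

lemma occ_congr (c : Finset V → Finset V → ℝ) (F : Finset V) (i : V) {h h' : V → ℝ}
    (hh : ∀ j ∈ F, h j = h' j) : occ c F i h = occ c F i h' := by
  unfold occ
  rw [Zw_congr c F hh, Zo_congr c F i hh]

lemma measurable_hJ (J : Finset (V × ℕ)) : Measurable (hJ J : (J → ℝ) → V → ℝ) := by
  classical
  refine measurable_pi_lambda _ fun j => ?_
  unfold hJ
  refine Finset.measurable_sum _ fun b _ => ?_
  split_ifs
  · exact measurable_gfun.comp (measurable_pi_apply b)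
  · exact measurable_const

lemma measurable_occInd (i : V) : Measurable (occInd i : Om V → ℝ) := by
  unfold occInd
  exact Measurable.ite ((measurableSet_singleton true).preimage
      ((measurable_pi_apply i).comp measurable_fst)) measurable_const measurable_const

lemma occInd_nonneg (i : V) (ω : Om V) : 0 ≤ occInd i ω := by
  unfold occInd; split_ifs <;> norm_num

lemma occInd_le_one (i : V) (ω : Om V) : occInd i ω ≤ 1 := by
  unfold occInd; split_ifs <;> norm_num

instance isProb_PP (ν : Measure (V → Bool)) [IsProbabilityMeasure ν] :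
    IsProbabilityMeasure (PP ν) := by
  unfold PP; infer_instance

lemma integrable_occInd (ν : Measure (V → Bool)) [IsProbabilityMeasure ν] (i : V) :
    Integrable (occInd i : Om V → ℝ) (PP ν) :=
  Integrable.of_bound (measurable_occInd i).aestronglyMeasurable 1 (ae_of_all _ fun ω => by
    rw [Real.norm_eq_abs, abs_of_nonneg (occInd_nonneg i ω)]; exact occInd_le_one i ω)

lemma ae_pi_nonneg (J : Finset (V × ℕ)) :
    ∀ᵐ y ∂(Measure.pi fun _ : J => U01), ∀ b, 0 ≤ y b := by
  rw [ae_all_iff]
  intro b
  have h1 : ∀ᵐ t ∂U01, 0 ≤ t := by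
    unfold U01
    exact (ae_restrict_iff' measurableSet_Icc).2 (ae_of_all _ fun t ht => ht.1)
  exact (measurePreserving_eval (fun _ : J => U01) b).quasiMeasurePreserving.ae h1

/-- Finite Bayes formula. -/
lemma condExp_window (ν : Measure (V → Bool)) [IsProbabilityMeasure ν] (J : Finset (V × ℕ))
    (F : Finset V) (hJF : ∀ b ∈ J, b.1 ∈ F) (i : V) (hi : i ∈ F) :
    (fun ω => occ (cyl ν) F i (hJ J (YJ J ω))) =ᵐ[PP ν]
      (PP ν)[occInd i | MeasurableSpace.comap (YJ J) MeasurableSpace.pi] := by
  have hm : MeasurableSpace.comap (YJ J) MeasurableSpace.pi ≤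
      (inferInstance : MeasurableSpace (Om V)) := (measurable_YJ J).comap_le
  set G : (J → ℝ) → ℝ := fun y => occ (cyl ν) F i (hJ J y) with hG
  have hGm : Measurable G := (measurable_occ _ F i).comp (measurable_hJ J)
  have hG01 : ∀ y, 0 ≤ G y ∧ G y ≤ 1 := fun y => occ_mem ν F i _
  have hGi : Integrable (fun ω => G (YJ J ω)) (PP ν) :=
    Integrable.of_bound (hGm.comp (measurable_YJ J)).aestronglyMeasurable 1
      (ae_of_all _ fun ω => by
        rw [Real.norm_eq_abs, abs_of_nonneg (hG01 _).1]; exact (hG01 _).2)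
  refine ae_eq_condExp_of_forall_setIntegral_eq hm (integrable_occInd ν i)
    (fun s _ _ => hGi.integrableOn) ?_ ?_
  · intro s hs _
    obtain ⟨B, hB, rfl⟩ := hs
    have hs' : MeasurableSet (YJ J ⁻¹' B : Set (Om V)) := measurable_YJ J hB
    rw [integral_eq_lintegral_of_nonneg_ae (ae_of_all _ fun ω => (hG01 _).1)
      (hGm.comp (measurable_YJ J)).aestronglyMeasurable,
      integral_eq_lintegral_of_nonneg_ae (ae_of_all _ fun ω => occInd_nonneg i ω)
      (measurable_occInd i).aestronglyMeasurable]
    congr 1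
    rw [← lintegral_indicator hs', ← lintegral_indicator hs']
    -- left side
    have hBi : Measurable (B.indicator (fun _ => (1 : ℝ≥0∞)) : (J → ℝ) → ℝ≥0∞) :=
      measurable_const.indicator hB
    have e1 : ∀ ω : Om V, (YJ J ⁻¹' B).indicator (fun ω => ENNReal.ofReal (G (YJ J ω))) ω =
        (fun q : (V → Bool) × (J → ℝ) =>
          B.indicator (fun _ => (1 : ℝ≥0∞)) q.2 * ENNReal.ofReal (G q.2)) (ω.1, YJ J ω) := by
      intro ω
      by_cases h : YJ J ω ∈ B
      · rw [Set.indicator_of_mem (show ω ∈ YJ J ⁻¹' B from h)]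
        simp [h]
      · rw [Set.indicator_of_notMem (show ω ∉ YJ J ⁻¹' B from h)]
        simp [h]
    have e2 : ∀ ω : Om V, (YJ J ⁻¹' B).indicator (fun ω => ENNReal.ofReal (occInd i ω)) ω =
        (fun q : (V → Bool) × (J → ℝ) =>
          B.indicator (fun _ => (1 : ℝ≥0∞)) q.2 *
            ENNReal.ofReal (if q.1 i = true then 1 else 0)) (ω.1, YJ J ω) := by
      intro ω
      by_cases h : YJ J ω ∈ B
      · rw [Set.indicator_of_mem (show ω ∈ YJ J ⁻¹' B from h)]
        simp [h, occInd]
      · rw [Set.indicator_of_notMem (show ω ∉ YJ J ⁻¹' B from h)]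
        simp [h]
    have m1 : Measurable (fun q : (V → Bool) × (J → ℝ) =>
          B.indicator (fun _ => (1 : ℝ≥0∞)) q.2 * ENNReal.ofReal (G q.2)) :=
      (hBi.comp measurable_snd).mul (ENNReal.measurable_ofReal.comp (hGm.comp measurable_snd))
    have mi : Measurable (fun q : (V → Bool) × (J → ℝ) => ENNReal.ofReal
        (if q.1 i = true then 1 else 0)) :=
      ENNReal.measurable_ofReal.comp (Measurable.ite ((measurableSet_singleton true).preimage
        ((measurable_pi_apply i).comp measurable_fst)) measurable_const measurable_const)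
    have m2 : Measurable (fun q : (V → Bool) × (J → ℝ) =>
          B.indicator (fun _ => (1 : ℝ≥0∞)) q.2 *
            ENNReal.ofReal (if q.1 i = true then 1 else 0)) :=
      (hBi.comp measurable_snd).mul mi
    rw [lintegral_congr e1, lintegral_congr e2, lintegral_YJ ν J _ m1, lintegral_YJ ν J _ m2]
    refine lintegral_congr_ae ?_
    filter_upwards [ae_pi_nonneg J] with y hy
    simp only [mul_assoc]
    have hd : Measurable (fun x => dJ J x y) := (measurable_dJ J).comp measurable_prodMk_right
    have hmx : Measurable (fun x : V → Bool =>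
        ENNReal.ofReal (if x i = true then 1 else 0) * dJ J x y) :=
      (mi.comp (measurable_prodMk_right (y := y))).mul hd
    rw [lintegral_const_mul _ (hd.const_mul _), lintegral_const_mul _ hd,
      lintegral_const_mul _ hmx,
      lintegral_dJ ν J F hJF y hy, lintegral_dJ_occ ν J F hJF i hi y hy,
      ← ENNReal.ofReal_mul (hG01 y).1]
    congr 2
    simp only [hG]
    unfold occ
    rw [div_mul_cancel₀ _ (Zw_pos ν F _).ne']
  · have : StronglyMeasurable[MeasurableSpace.comap (YJ J) MeasurableSpace.pi]
        (fun ω : Om V => G (YJ J ω)) :=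
      (hGm.comp (comap_measurable (YJ J))).stronglyMeasurable
    exact this.aestronglyMeasurable

open scoped Classical in
/-- window of past updates. -/
noncomputable def win (T : V → ℝ) (i : V) (k : ℕ) (F : Finset V) : Finset (V × ℕ) :=
  (F ×ˢ Finset.range (k + 1)).filter (fun b => b ∈ past T i k)

lemma mem_win {T : V → ℝ} {i : V} {k : ℕ} {F : Finset V} {b : V × ℕ} :
    b ∈ win T i k F ↔ b.1 ∈ F ∧ b ∈ past T i k := by
  classical
  unfold win
  rw [Finset.mem_filter, Finset.mem_product, Finset.mem_range]
  constructor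
  · rintro ⟨⟨h1, _⟩, h3⟩; exact ⟨h1, h3⟩
  · rintro ⟨h1, h3⟩
    refine ⟨⟨h1, ?_⟩, h3⟩
    rcases h3 with h | ⟨h, _⟩
    · omega
    · omega

lemma field_eq_hJ (T : V → ℝ) (i : V) (k : ℕ) (F : Finset V) (ω : Om V) (j : V) (hj : j ∈ F) :
    field T (Yo ω) i k j = hJ (win T i k F) (YJ (win T i k F) ω) j := by
  classical
  unfold hJ YJ
  have h1 : ∑ b : win T i k F, (if b.1.1 = j then gfun (Yo ω b.1.1 b.1.2) else 0) =
      ∑ b ∈ win T i k F, (if b.1 = j then gfun (Yo ω b.1 b.2) else 0) :=
    Finset.sum_coe_sort (win T i k F) (fun b => if b.1 = j then gfun (Yo ω b.1 b.2) else 0)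
  rw [h1]
  unfold win
  rw [Finset.sum_filter, Finset.sum_product, Finset.sum_eq_single_of_mem j hj]
  · simp only [if_true]
    rw [Finset.sum_range_succ]
    unfold field
    congr 1
    · refine Finset.sum_congr rfl fun l hl => ?_
      rw [if_pos]
      left; exact Finset.mem_range.1 hl
    · simp [past]
  · intro a _ hne
    refine Finset.sum_eq_zero fun l _ => ?_
    simp [hne]

end aux

end Crest.Agent.R168.BayesAux

namespace Crest.Agent.R168

open MeasureTheory ProbabilityTheory Filter Topology
open BayesAux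

/-- Predicted probabilities computed in the finite windows `E n` converge a.s. to the conditional
probability given all past observations. -/
theorem tendsto_occ {V : Type*} [Countable V] (ν : Measure (V → Bool)) [IsProbabilityMeasure ν]
    (T : V → ℝ) (E : ℕ → Finset V) (hmono : Monotone E) (i : V) (hself : ∀ n, i ∈ E n)
    (hcov : ∀ j, ∃ n, j ∈ E n) (k : ℕ) :
    ∀ᵐ ω ∂(PP ν), Tendsto (fun n => occ (cyl ν) (E n) i (field T (Yo ω) i k)) atTop
      (𝓝 (((PP ν)[occInd i | Gs T i k]) ω)) := by
  let J : ℕ → Finset (V × ℕ) := fun n => win T i k (E n)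
  have hJmono : ∀ {m n}, m ≤ n → J m ⊆ J n := by
    intro m n hmn b hb
    rw [mem_win] at hb ⊢
    exact ⟨hmono hmn hb.1, hb.2⟩
  -- filtration
  let 𝓕 : Filtration ℕ (inferInstance : MeasurableSpace (Om V)) :=
    { seq := fun n => MeasurableSpace.comap (YJ (J n)) MeasurableSpace.pi
      mono' := by
        intro m n hmn
        have : (YJ (J m) : Om V → _) = (fun (y : J n → ℝ) (b : J m) => y ⟨b.1, hJmono hmn b.2⟩) ∘
            YJ (J n) := rfl
        show MeasurableSpace.comap (YJ (J m)) MeasurableSpace.pi ≤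
          MeasurableSpace.comap (YJ (J n)) MeasurableSpace.pi
        rw [this, ← MeasurableSpace.comap_comp]
        apply MeasurableSpace.comap_mono
        exact (measurable_pi_lambda _ fun b => measurable_pi_apply _).comap_le
      le' := fun n => (measurable_YJ (J n)).comap_le }
  have hsup : ⨆ n, 𝓕 n = Gs T i k := by
    apply le_antisymm
    · refine iSup_le fun n => ?_
      show MeasurableSpace.comap (YJ (J n)) MeasurableSpace.pi ≤ Gs T i k
      unfold Gs
      have : (YJ (J n) : Om V → _) = (fun (y : past T i k → ℝ) (b : J n) =>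
          y ⟨b.1, (mem_win.1 b.2).2⟩) ∘
          (fun (ω : Om V) (b : past T i k) => Yo ω b.1.1 b.1.2) := rfl
      rw [this, ← MeasurableSpace.comap_comp]
      apply MeasurableSpace.comap_mono
      exact (measurable_pi_lambda _ fun b => measurable_pi_apply _).comap_le
    · unfold Gs
      have hme : Measurable[⨆ n, 𝓕 n] (fun (ω : Om V) (b : past T i k) => Yo ω b.1.1 b.1.2) := by
        refine @measurable_pi_lambda _ _ _ (⨆ n, 𝓕 n) _ _ fun b => ?_
        obtain ⟨n, hn⟩ := hcov b.1.1
        have hb : b.1 ∈ J n := mem_win.2 ⟨hn, b.2⟩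
        have h1 : Measurable[𝓕 n] (fun ω : Om V => YJ (J n) ω ⟨b.1, hb⟩) :=
          (measurable_pi_apply (⟨b.1, hb⟩ : J n)).comp (comap_measurable (YJ (J n)))
        exact h1.mono (le_iSup (fun n => (𝓕 n : MeasurableSpace (Om V))) n) le_rfl
      exact hme.comap_le
  have hlevy := tendsto_ae_condExp (μ := PP ν) (ℱ := 𝓕) (occInd i)
  have hwin : ∀ᵐ ω ∂(PP ν), ∀ n, occ (cyl ν) (E n) i (hJ (J n) (YJ (J n) ω)) =
      ((PP ν)[occInd i | 𝓕 n]) ω := by
    rw [ae_all_iff]
    intro n
    exact condExp_window ν (J n) (E n) (fun b hb => (mem_win.1 hb).1) i (hself n)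
  filter_upwards [hlevy, hwin] with ω h1 h2
  rw [hsup] at h1
  refine h1.congr fun n => ?_
  rw [← h2 n]
  exact occ_congr _ _ _ fun j hj => (field_eq_hJ T i k (E n) ω j hj).symm

end Crest.Agent.R168
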