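import Mathlib

/-!
Rank-one Cauchy-Binet expansion: the determinant of a weighted sum of rank-one matrices
`z e • b e (b e)ᵀ` expanded as a sum over finite sets of indices of size `card N`.
-/

set_option autoImplicit false

namespace Crest.Agent.R168

open Matrix Finset

variable {N ι R : Type*} [Fintype N] [DecidableEq N] [DecidableEq ι] [CommRing R]

/-- the Gram-type matrix `∑ e ∈ E, z e • b e (b e)ᵀ`. -/
def gramSum (E : Finset ι) (b : ι → N → R) (z : ι → R) : Matrix N N R :=
  Matrix.of fun i j => ∑ e ∈ E, z e * b e i * b e j

lemma det_gramSum_eq (E : Finset ι) (b : ι → N → R) (z : ι → R) :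
    (gramSum E b z).det =
      ∑ p ∈ Fintype.piFinset (fun _ : N => E),
        (∏ i, z (p i)) * ((∏ i, b (p i) i) * (Matrix.of fun i j => b (p j) i).det) := by
  calc (gramSum E b z).det
      = ∑ p ∈ Fintype.piFinset (fun _ : N => E), ∑ σ : Equiv.Perm N,
          (Equiv.Perm.sign σ : ℤ) * ∏ i, (z (p i) * b (p i) (σ i) * b (p i) i) := by
        simp only [det_apply', gramSum, of_apply, Finset.prod_univ_sum, Finset.mul_sum]
        rw [Finset.sum_comm]
    _ = _ := by
        refine Finset.sum_congr rfl fun p _ => ?_
        rw [det_apply', Finset.mul_sum, Finset.mul_sum]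
        refine Finset.sum_congr rfl fun σ _ => ?_
        simp only [Finset.prod_mul_distrib, of_apply]
        ring

lemma det_gramSum_fiber (E : Finset ι) (b : ι → N → R) (z : ι → R) :
    (gramSum E b z).det =
      ∑ A ∈ E.powersetCard (Fintype.card N), (∏ e ∈ A, z e) *
        ∑ p ∈ (Fintype.piFinset (fun _ : N => E)).filter
            (fun p => Finset.univ.image p = A),
          ((∏ i, b (p i) i) * (Matrix.of fun i j => b (p j) i).det) := by
  rw [det_gramSum_eq]
  have hzero : ∀ p ∈ Fintype.piFinset (fun _ : N => E),
      ¬ Function.Injective p →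
      (∏ i, z (p i)) * ((∏ i, b (p i) i) * (Matrix.of fun i j => b (p j) i).det) = 0 := by
    intro p _ hp
    rw [Function.Injective] at hp
    push Not at hp
    obtain ⟨i, j, hij, hne⟩ := hp
    have : (Matrix.of fun i j => b (p j) i : Matrix N N R).det = 0 := by
      apply Matrix.det_zero_of_column_eq hne
      intro k
      simp [hij]
    rw [this]; ring
  rw [← Finset.sum_filter_of_ne (p := fun p => Function.Injective p)
    (by
      intro p hp hne
      by_contra hinj
      exact hne (hzero p hp hinj))]
  have hmap : ∀ p ∈ (Fintype.piFinset (fun _ : N => E)).filter (fun p => Function.Injective p),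
      Finset.univ.image p ∈ E.powersetCard (Fintype.card N) := by
    intro p hp
    rw [Finset.mem_filter, Fintype.mem_piFinset] at hp
    rw [Finset.mem_powersetCard]
    refine ⟨?_, ?_⟩
    · intro e he
      rw [Finset.mem_image] at he
      obtain ⟨i, _, rfl⟩ := he
      exact hp.1 i
    · rw [Finset.card_image_of_injective _ hp.2, Finset.card_univ]
  rw [← Finset.sum_fiberwise_of_maps_to hmap]
  refine Finset.sum_congr rfl fun A hA => ?_
  rw [Finset.mul_sum]
  rw [Finset.filter_filter]
  have hset : (Fintype.piFinset (fun _ : N => E)).filter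
        (fun p => Function.Injective p ∧ Finset.univ.image p = A) =
      (Fintype.piFinset (fun _ : N => E)).filter (fun p => Finset.univ.image p = A) := by
    apply Finset.filter_congr
    intro p _
    refine ⟨fun h => h.2, fun h => ⟨?_, h⟩⟩
    have hc : (Finset.univ.image p).card = (Finset.univ : Finset N).card := by
      rw [h, (Finset.mem_powersetCard.mp hA).2, Finset.card_univ]
    have := Finset.card_image_iff.mp hc
    intro x y hxy
    exact this (Finset.mem_coe.mpr (Finset.mem_univ x)) (Finset.mem_coe.mpr (Finset.mem_univ y)) hxy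
  rw [hset]
  refine Finset.sum_congr rfl fun p hp => ?_
  rw [Finset.mem_filter] at hp
  congr 1
  have hinj : Function.Injective p := by
    have hc : (Finset.univ.image p).card = (Finset.univ : Finset N).card := by
      rw [hp.2, (Finset.mem_powersetCard.mp hA).2, Finset.card_univ]
    have := Finset.card_image_iff.mp hc
    intro x y hxy
    exact this (Finset.mem_coe.mpr (Finset.mem_univ x)) (Finset.mem_coe.mpr (Finset.mem_univ y)) hxy
  rw [← hp.2, Finset.prod_image (fun x _ y _ h => hinj h)]

/-- **Rank-one Cauchy-Binet**. -/
theorem det_gramSum (E : Finset ι) (b : ι → N → R) (z : ι → R) :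
    (gramSum E b z).det =
      ∑ A ∈ E.powersetCard (Fintype.card N), (∏ e ∈ A, z e) *
        (gramSum A b (fun _ => 1)).det := by
  rw [det_gramSum_fiber]
  refine Finset.sum_congr rfl fun A hA => ?_
  congr 1
  rw [det_gramSum_fiber A b (fun _ => 1)]
  have hA' := Finset.mem_powersetCard.mp hA
  have hself : A.powersetCard (Fintype.card N) = {A} := by
    rw [← hA'.2]; exact Finset.powersetCard_self A
  rw [hself, Finset.sum_singleton]
  simp only [Finset.prod_const_one, one_mul]
  apply Finset.sum_congr _ (fun _ _ => rfl)
  ext p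
  simp only [Finset.mem_filter, Fintype.mem_piFinset]
  constructor
  · rintro ⟨_, h2⟩
    refine ⟨fun i => ?_, h2⟩
    rw [← h2]
    exact Finset.mem_image_of_mem _ (Finset.mem_univ i)
  · rintro ⟨h1, h2⟩
    exact ⟨fun i => hA'.1 (h1 i), h2⟩

end Crest.Agent.R168
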