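import Mathlib
import Crest.Prelude.Def_Labels
import Crest.Prelude.Def_StronglyRayleigh
import Crest.Prelude.Def_SpanningTrees
import Crest.Prelude.Def_GraphTables

/-!
# Row 168 : shared definitions (captain helper168)

Discrete exact revealing scheme with `ε = 1/4`.
-/

set_option autoImplicit false

namespace Crest.Agent.R168

open MeasureTheory ProbabilityTheory Filter Topology

noncomputable section

/-- Mass of the cylinder `ω ∩ F = S`. (Same expression as in `genPoly`.) -/
def cyl {V : Type*} (ν : Measure (V → Bool)) (F S : Finset V) : ℝ :=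
  (ν {ω | ∀ i ∈ F, (ω i = true ↔ i ∈ S)}).toReal

/-- Unnormalised total weight under the external field `h`. -/
def Zw {V : Type*} (c : Finset V → Finset V → ℝ) (F : Finset V) (h : V → ℝ) : ℝ :=
  ∑ S ∈ F.powerset, c F S * Real.exp (∑ j ∈ S, h j)

open scoped Classical in
/-- Unnormalised weight of `i ∈ ω` under the external field `h`. -/
def Zo {V : Type*} (c : Finset V → Finset V → ℝ) (F : Finset V) (i : V) (h : V → ℝ) : ℝ :=
  ∑ S ∈ F.powerset, if i ∈ S then c F S * Real.exp (∑ j ∈ S, h j) else 0

/-- Occupation probability of `i` for the marginal on `F` tilted by the field `h`. -/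
def occ {V : Type*} (c : Finset V → Finset V → ℝ) (F : Finset V) (i : V) (h : V → ℝ) : ℝ :=
  Zo c F i h / Zw c F h

/-- Property (L): occupation probabilities of all tilted finite marginals are `C`-Lipschitz in the
external field for the sup norm. -/
def LipOcc {V : Type*} (ν : Measure (V → Bool)) (C : ℝ) : Prop :=
  ∀ (F : Finset V) (i : V), i ∈ F → ∀ (h h' : V → ℝ) (s : ℝ), (∀ j ∈ F, |h j - h' j| ≤ s) →
    |occ (cyl ν) F i h - occ (cyl ν) F i h'| ≤ C * s

/-- log-likelihood ratio of one observation: `g y = log (1 + (2 y - 1)/4)`. -/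
def gfun (y : ℝ) : ℝ := Real.log (1 + (2 * y - 1) / 4)

open scoped Classical in
/-- External field at `j` seen by the update `(i,k)`, given observations `y` and order `T`. -/
def field {V : Type*} (T : V → ℝ) (y : V → ℕ → ℝ) (i : V) (k : ℕ) (j : V) : ℝ :=
  (∑ l ∈ Finset.range k, gfun (y j l)) + (if T j < T i then gfun (y j k) else 0)

/-- Limiting predicted occupation probability. -/
def pbar {V : Type*} (P : V → ℕ → (V → ℝ) → ℝ) (T : V → ℝ) (y : V → ℕ → ℝ) (i : V) (k : ℕ) : ℝ :=
  limsup (fun n => P i n (field T y i k)) atTop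

/-- One Picard step (clamped to `[0,1]`). -/
def step {V : Type*} (P : V → ℕ → (V → ℝ) → ℝ) (T : V → ℝ) (u y : V → ℕ → ℝ) : V → ℕ → ℝ :=
  fun i k => max 0 (min 1 (u i k + 1 / 4 * pbar P T y i k * (y i k * (1 - y i k))))

/-- Picard iterates. -/
def iter {V : Type*} (P : V → ℕ → (V → ℝ) → ℝ) (T : V → ℝ) (u : V → ℕ → ℝ) : ℕ → V → ℕ → ℝ
  | 0 => fun _ _ => 0
  | r + 1 => step P T u (iter P T u r)

/-- The limit of the Picard iterates. -/
def Theta {V : Type*} (P : V → ℕ → (V → ℝ) → ℝ) (T : V → ℝ) (u : V → ℕ → ℝ) : V → ℕ → ℝ :=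
  fun i k => limsup (fun r => iter P T u r i k) atTop

open scoped Classical in
/-- Read the configuration off the observations (their mean is `1/2` if the site is empty and
`1/2 + 1/24` if it is occupied). -/
def recov {V : Type*} (y : V → ℕ → ℝ) : V → Bool :=
  fun i => decide ((1 : ℝ) / 2 + 1 / 48 < limsup (fun n : ℕ => (∑ l ∈ Finset.range n, y i l) / n) atTop)

/-- The output configuration from per-site labels `w i = (T_i, (U_{i,k})_k)`. -/
def Xi {V : Type*} (P : V → ℕ → (V → ℝ) → ℝ) (w : V → ℝ × (ℕ → ℝ)) : V → Bool :=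
  recov (Theta P (fun i => (w i).1) (fun i k => (w i).2 k))

/-- Uniform law on `[0,1]` as a measure on `ℝ`. -/
def U01 : Measure ℝ := volume.restrict (Set.Icc 0 1)

/-- Law of a label of one site. -/
def lab : Measure (ℝ × (ℕ → ℝ)) := U01.prod (Measure.infinitePi fun _ : ℕ => U01)

instance : IsProbabilityMeasure U01 := ⟨by simp [U01]⟩

instance : IsProbabilityMeasure lab := by unfold lab; infer_instance

/-- Law of an observation of an occupied site: density `1 + (2y-1)/4` on `[0,1]`. -/
def U01' : Measure ℝ := U01.withDensity fun y => ENNReal.ofReal (1 + (2 * y - 1) / 4)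

end

end Crest.Agent.R168
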