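import Crest.Agent.R168.Defs

/-! T1: deterministic part: uniqueness of the fixed point, measurability, naturality. -/

set_option autoImplicit false

namespace Crest.Agent.R168

open MeasureTheory ProbabilityTheory Filter Topology

/-! ### auxiliary facts on `gfun`, `field`, `pbar` -/

theorem gfun_lip {a b : ℝ} (ha : 0 ≤ a ∧ a ≤ 1) (hb : 0 ≤ b ∧ b ≤ 1) :
    |gfun a - gfun b| ≤ 2 / 3 * |a - b| := by
  wlog hab : b ≤ a generalizing a b with H
  · rw [abs_sub_comm, abs_sub_comm a b]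
    exact H hb ha (le_of_lt (not_le.mp hab))
  have hb3 : (3 : ℝ) / 4 ≤ 1 + (2 * b - 1) / 4 := by linarith [hb.1]
  have ha3 : (3 : ℝ) / 4 ≤ 1 + (2 * a - 1) / 4 := by linarith [ha.1]
  have hbpos : 0 < 1 + (2 * b - 1) / 4 := by linarith
  have hapos : 0 < 1 + (2 * a - 1) / 4 := by linarith
  have hle : gfun b ≤ gfun a := by
    unfold gfun
    exact Real.log_le_log hbpos (by linarith)
  rw [abs_of_nonneg (sub_nonneg.mpr hle), abs_of_nonneg (sub_nonneg.mpr hab)]
  unfold gfun
  rw [← Real.log_div hapos.ne' hbpos.ne']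
  have h1 := Real.log_le_sub_one_of_pos (div_pos hapos hbpos)
  have h2 : (1 + (2 * a - 1) / 4) / (1 + (2 * b - 1) / 4) - 1 ≤ 2 / 3 * (a - b) := by
    rw [div_sub_one hbpos.ne', div_le_iff₀ hbpos]
    nlinarith [hb.1]
  linarith

theorem field_lip {V : Type*} (T : V → ℝ) {y y' : V → ℕ → ℝ}
    (hy : ∀ i k, 0 ≤ y i k ∧ y i k ≤ 1) (hy' : ∀ i k, 0 ≤ y' i k ∧ y' i k ≤ 1)
    {δ : ℝ} (hδ : 0 ≤ δ) (h : ∀ i k, |y i k - y' i k| ≤ 2 ^ k * δ) (i : V) (k : ℕ) (j : V) :
    |field T y i k j - field T y' i k j| ≤ 2 / 3 * (2 ^ (k + 1) * δ) := by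
  have hsum : |(∑ l ∈ Finset.range k, gfun (y j l)) - ∑ l ∈ Finset.range k, gfun (y' j l)| ≤
      2 / 3 * ((2 ^ k - 1) * δ) := by
    rw [← Finset.sum_sub_distrib]
    refine (Finset.abs_sum_le_sum_abs _ _).trans ?_
    have h1 : ∀ l ∈ Finset.range k, |gfun (y j l) - gfun (y' j l)| ≤ 2 / 3 * (2 ^ l * δ) := by
      intro l _
      refine (gfun_lip (hy j l) (hy' j l)).trans ?_
      have := h j l
      linarith
    refine (Finset.sum_le_sum h1).trans ?_
    rw [← Finset.mul_sum, ← Finset.sum_mul]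
    have h2 : ∑ l ∈ Finset.range k, (2 : ℝ) ^ l = 2 ^ k - 1 := by
      rw [geom_sum_eq (by norm_num)]; norm_num
    rw [h2]
  have hlast : |(if T j < T i then gfun (y j k) else 0) -
      (if T j < T i then gfun (y' j k) else 0)| ≤ 2 / 3 * (2 ^ k * δ) := by
    split_ifs with hT
    · refine (gfun_lip (hy j k) (hy' j k)).trans ?_
      have := h j k
      linarith
    · rw [sub_self, abs_zero]; positivity
  unfold field
  have : (∑ l ∈ Finset.range k, gfun (y j l)) + (if T j < T i then gfun (y j k) else 0) -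
      ((∑ l ∈ Finset.range k, gfun (y' j l)) + (if T j < T i then gfun (y' j k) else 0)) =
      ((∑ l ∈ Finset.range k, gfun (y j l)) - ∑ l ∈ Finset.range k, gfun (y' j l)) +
      ((if T j < T i then gfun (y j k) else 0) - (if T j < T i then gfun (y' j k) else 0)) := by
    ring
  rw [this]
  refine (abs_add_le _ _).trans ?_
  have hp : (2 : ℝ) ^ (k + 1) * δ = 2 * (2 ^ k * δ) := by ring
  rw [hp]
  have h3 : 2 / 3 * (((2:ℝ) ^ k - 1) * δ) ≤ 2 / 3 * (2 ^ k * δ) := by nlinarith
  linarith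

/-- `limsup` along `atTop` of bounded sequences is stable under uniform perturbations. -/
theorem limsup_le_limsup_add {a b : ℕ → ℝ} {s : ℝ}
    (ha : ∀ n, 0 ≤ a n ∧ a n ≤ 1) (hb : ∀ n, 0 ≤ b n ∧ b n ≤ 1)
    (h : ∀ n, a n ≤ b n + s) : limsup a atTop ≤ limsup b atTop + s := by
  have hbb : IsBoundedUnder (· ≤ ·) atTop b := isBoundedUnder_of ⟨1, fun n => (hb n).2⟩
  have hbc : IsCoboundedUnder (· ≤ ·) atTop b :=
    IsBoundedUnder.isCoboundedUnder_le (isBoundedUnder_of ⟨0, fun n => (hb n).1⟩)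
  have hac : IsCoboundedUnder (· ≤ ·) atTop a :=
    IsBoundedUnder.isCoboundedUnder_le (isBoundedUnder_of ⟨0, fun n => (ha n).1⟩)
  have hbs : IsBoundedUnder (· ≤ ·) atTop (fun n => b n + s) :=
    isBoundedUnder_of ⟨1 + s, fun n => by have := (hb n).2; linarith⟩
  have h1 : limsup a atTop ≤ limsup (fun n => b n + s) atTop :=
    limsup_le_limsup (Eventually.of_forall h) hac hbs
  have h2 : limsup (fun n => b n + s) atTop ≤ limsup b atTop + s := by
    refine le_of_forall_pos_le_add fun ε hε => ?_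
    have hev : ∀ᶠ n in atTop, b n < limsup b atTop + ε :=
      eventually_lt_of_limsup_lt (by linarith) hbb
    refine limsup_le_of_le (IsBoundedUnder.isCoboundedUnder_le
      (isBoundedUnder_of ⟨s, fun n => by have := (hb n).1; show s ≤ b n + s; linarith⟩)) ?_
    filter_upwards [hev] with n hn
    linarith
  exact h1.trans h2

theorem abs_limsup_sub_le {a b : ℕ → ℝ} {s : ℝ}
    (ha : ∀ n, 0 ≤ a n ∧ a n ≤ 1) (hb : ∀ n, 0 ≤ b n ∧ b n ≤ 1)
    (h : ∀ n, |a n - b n| ≤ s) : |limsup a atTop - limsup b atTop| ≤ s := by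
  rw [abs_le]
  constructor
  · have := limsup_le_limsup_add (s := s) hb ha (fun n => by
      have := (abs_le.mp (h n)).1; linarith)
    linarith
  · have := limsup_le_limsup_add (s := s) ha hb (fun n => by
      have := (abs_le.mp (h n)).2; linarith)
    linarith

theorem pbar_mem {V : Type*} {P : V → ℕ → (V → ℝ) → ℝ}
    (hP01 : ∀ i n h, 0 ≤ P i n h ∧ P i n h ≤ 1) (T : V → ℝ) (y : V → ℕ → ℝ) (i : V) (k : ℕ) :
    0 ≤ pbar P T y i k ∧ pbar P T y i k ≤ 1 := by
  unfold pbar
  have hbb : IsBoundedUnder (· ≤ ·) atTop (fun n => P i n (field T y i k)) :=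
    isBoundedUnder_of ⟨1, fun n => (hP01 i n _).2⟩
  have hbc : IsCoboundedUnder (· ≤ ·) atTop (fun n => P i n (field T y i k)) :=
    IsBoundedUnder.isCoboundedUnder_le (isBoundedUnder_of ⟨0, fun n => (hP01 i n _).1⟩)
  constructor
  · exact le_limsup_of_frequently_le (Frequently.of_forall fun n => (hP01 i n _).1) hbb
  · exact limsup_le_of_le hbc (Eventually.of_forall fun n => (hP01 i n _).2)

/-- Clamping to `[0,1]` is a contraction. -/
theorem clamp_lip (a b : ℝ) : |max 0 (min 1 a) - max 0 (min 1 b)| ≤ |a - b| := by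
  refine (abs_max_sub_max_le_max 0 (min 1 a) 0 (min 1 b)).trans ?_
  rw [sub_self, abs_zero]
  refine max_le (abs_nonneg _) ?_
  refine (abs_min_sub_min_le_max 1 a 1 b).trans ?_
  rw [sub_self, abs_zero]
  exact max_le (abs_nonneg _) le_rfl

theorem iter_mem {V : Type*} (P : V → ℕ → (V → ℝ) → ℝ) (T : V → ℝ) (u : V → ℕ → ℝ) (r : ℕ)
    (i : V) (k : ℕ) : 0 ≤ iter P T u r i k ∧ iter P T u r i k ≤ 1 := by
  cases r with
  | zero => simp [iter]
  | succ r =>
    simp only [iter, step]
    exact ⟨le_max_left _ _, max_le zero_le_one (min_le_left _ _)⟩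

/-- key contraction estimate -/
theorem iter_close {V : Type*} (P : V → ℕ → (V → ℝ) → ℝ)
    (hP01 : ∀ i n h, 0 ≤ P i n h ∧ P i n h ≤ 1)
    (hPL : ∀ i n (h h' : V → ℝ) (s : ℝ), (∀ j, |h j - h' j| ≤ s) →
      |P i n h - P i n h'| ≤ 2 * s)
    (T : V → ℝ) (u y : V → ℕ → ℝ) (hy01 : ∀ i k, 0 ≤ y i k ∧ y i k ≤ 1)
    (hy : ∀ i k, y i k = u i k + 1 / 4 * pbar P T y i k * (y i k * (1 - y i k)))
    (r : ℕ) : ∀ i k, |iter P T u r i k - y i k| ≤ 2 ^ k * (5 / 12) ^ r := by
  induction r with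
  | zero =>
    intro i k
    have h1 := hy01 i k
    simp only [iter, zero_sub, abs_neg, pow_zero, mul_one]
    rw [abs_of_nonneg h1.1]
    exact h1.2.trans (one_le_pow₀ (by norm_num))
  | succ r ih =>
    intro i k
    set δ : ℝ := (5 / 12) ^ r with hδdef
    have hδ : 0 ≤ δ := by positivity
    set z := iter P T u r with hz
    have hz01 : ∀ i k, 0 ≤ z i k ∧ z i k ≤ 1 := fun i k => iter_mem P T u r i k
    have hp1 := pbar_mem hP01 T z i k
    have hp2 := pbar_mem hP01 T y i k
    have hpp : |pbar P T z i k - pbar P T y i k| ≤ 2 * (2 / 3 * (2 ^ (k + 1) * δ)) := by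
      unfold pbar
      refine abs_limsup_sub_le (fun n => hP01 _ _ _) (fun n => hP01 _ _ _) fun n => ?_
      exact hPL _ _ _ _ _ (fun j => field_lip T hz01 hy01 hδ ih i k j)
    have hyclamp : y i k = max 0 (min 1 (u i k + 1 / 4 * pbar P T y i k *
        (y i k * (1 - y i k)))) := by
      rw [← hy i k, min_eq_right (hy01 i k).2, max_eq_right (hy01 i k).1]
    have hstep : iter P T u (r + 1) i k =
        max 0 (min 1 (u i k + 1 / 4 * pbar P T z i k * (z i k * (1 - z i k)))) := rfl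
    rw [hstep]
    conv_lhs => rw [hyclamp]
    refine (clamp_lip _ _).trans ?_
    have hzy : |z i k - y i k| ≤ 2 ^ k * δ := ih i k
    have hq : |z i k * (1 - z i k) - y i k * (1 - y i k)| ≤ 2 ^ k * δ := by
      have e : z i k * (1 - z i k) - y i k * (1 - y i k) =
          (z i k - y i k) * (1 - z i k - y i k) := by ring
      rw [e, abs_mul]
      have h1 : |1 - z i k - y i k| ≤ 1 := by
        rw [abs_le]; constructor <;> linarith [(hz01 i k).1, (hz01 i k).2, (hy01 i k).1, (hy01 i k).2]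
      calc |z i k - y i k| * |1 - z i k - y i k| ≤ |z i k - y i k| * 1 :=
            mul_le_mul_of_nonneg_left h1 (abs_nonneg _)
        _ ≤ 2 ^ k * δ := by rw [mul_one]; exact hzy
    have hq0 : 0 ≤ y i k * (1 - y i k) := mul_nonneg (hy01 i k).1 (by linarith [(hy01 i k).2])
    have hq1 : y i k * (1 - y i k) ≤ 1 / 4 := by nlinarith [sq_nonneg (y i k - 1 / 2)]
    have e : u i k + 1 / 4 * pbar P T z i k * (z i k * (1 - z i k)) -
        (u i k + 1 / 4 * pbar P T y i k * (y i k * (1 - y i k))) =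
        1 / 4 * (pbar P T z i k * (z i k * (1 - z i k) - y i k * (1 - y i k))) +
        1 / 4 * ((pbar P T z i k - pbar P T y i k) * (y i k * (1 - y i k))) := by ring
    rw [e]
    refine (abs_add_le _ _).trans ?_
    have t1 : |1 / 4 * (pbar P T z i k * (z i k * (1 - z i k) - y i k * (1 - y i k)))| ≤
        1 / 4 * (2 ^ k * δ) := by
      rw [abs_mul, abs_mul, abs_of_nonneg (by norm_num : (0:ℝ) ≤ 1 / 4), abs_of_nonneg hp1.1]
      refine mul_le_mul_of_nonneg_left ?_ (by norm_num)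
      calc _ ≤ 1 * |z i k * (1 - z i k) - y i k * (1 - y i k)| :=
            mul_le_mul_of_nonneg_right hp1.2 (abs_nonneg _)
        _ ≤ _ := by rw [one_mul]; exact hq
    have t2 : |1 / 4 * ((pbar P T z i k - pbar P T y i k) * (y i k * (1 - y i k)))| ≤
        1 / 4 * (2 * (2 / 3 * (2 ^ (k + 1) * δ)) * (1 / 4)) := by
      rw [abs_mul, abs_mul, abs_of_nonneg (by norm_num : (0:ℝ) ≤ 1 / 4), abs_of_nonneg hq0]
      refine mul_le_mul_of_nonneg_left ?_ (by norm_num)
      exact mul_le_mul hpp hq1 hq0 (by positivity)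
    have hpow : (2 : ℝ) ^ (k + 1) = 2 * 2 ^ k := by ring
    have hfin : 1 / 4 * (2 ^ k * δ) + 1 / 4 * (2 * (2 / 3 * (2 ^ (k + 1) * δ)) * (1 / 4)) =
        2 ^ k * (5 / 12) ^ (r + 1) := by
      rw [hpow, pow_succ (5 / 12 : ℝ) r, ← hδdef]; ring
    linarith

/-- Any fixed point is the limit of the Picard iterates.
Proof: with `N r = sup_{i,k} 2^{-k} |iter r i k - y i k|` one has `N 0 ≤ 1`, `N (r+1) ≤ 5/12 N r`;
i.e. show by induction `∀ r i k, |iter P T u r i k - y i k| ≤ 2^k * (5/12)^r`. -/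
theorem Theta_eq_of_fixed {V : Type*} (P : V → ℕ → (V → ℝ) → ℝ)
    (hP01 : ∀ i n h, 0 ≤ P i n h ∧ P i n h ≤ 1)
    (hPL : ∀ i n (h h' : V → ℝ) (s : ℝ), (∀ j, |h j - h' j| ≤ s) →
      |P i n h - P i n h'| ≤ 2 * s)
    (T : V → ℝ) (u y : V → ℕ → ℝ) (hy01 : ∀ i k, 0 ≤ y i k ∧ y i k ≤ 1)
    (hy : ∀ i k, y i k = u i k + 1 / 4 * pbar P T y i k * (y i k * (1 - y i k))) :
    Theta P T u = y := by
  funext i k
  have hlim : Tendsto (fun r => iter P T u r i k) atTop (𝓝 (y i k)) := by
    rw [tendsto_iff_norm_sub_tendsto_zero]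
    refine squeeze_zero (fun _ => norm_nonneg _)
      (fun r => iter_close P hP01 hPL T u y hy01 hy r i k) ?_
    have : Tendsto (fun r : ℕ => (2 : ℝ) ^ k * (5 / 12) ^ r) atTop (𝓝 (2 ^ k * 0)) :=
      (tendsto_pow_atTop_nhds_zero_of_lt_one (by norm_num) (by norm_num)).const_mul _
    simpa using this
  exact hlim.limsup_eq

/-! ### measurability -/

theorem measurable_gfun : Measurable gfun := by
  unfold gfun
  exact Real.measurable_log.comp (by fun_prop)

theorem measurable_iter {V α : Type*} [Countable V] [MeasurableSpace α]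
    (P : α → V → ℕ → (V → ℝ) → ℝ)
    (hP : ∀ i n, Measurable (fun q : α × (V → ℝ) => P q.1 i n q.2)) (r : ℕ) :
    Measurable (fun q : α × (V → ℝ) × (V → ℕ → ℝ) => iter (P q.1) q.2.1 q.2.2 r) := by
  induction r with
  | zero => exact measurable_const
  | succ r ih =>
    refine measurable_pi_lambda _ fun i => measurable_pi_lambda _ fun k => ?_
    simp only [iter, step]
    have hT : ∀ j, Measurable (fun q : α × (V → ℝ) × (V → ℕ → ℝ) => q.2.1 j) := fun j =>
      (measurable_pi_apply j).comp (measurable_fst.comp measurable_snd)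
    have hu : Measurable (fun q : α × (V → ℝ) × (V → ℕ → ℝ) => q.2.2 i k) :=
      (measurable_pi_apply k).comp ((measurable_pi_apply i).comp (measurable_snd.comp measurable_snd))
    have hit : ∀ j l, Measurable (fun q : α × (V → ℝ) × (V → ℕ → ℝ) =>
        iter (P q.1) q.2.1 q.2.2 r j l) := fun j l =>
      (measurable_pi_apply l).comp ((measurable_pi_apply j).comp ih)
    have hfield : Measurable (fun q : α × (V → ℝ) × (V → ℕ → ℝ) =>
        field q.2.1 (iter (P q.1) q.2.1 q.2.2 r) i k) := by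
      refine measurable_pi_lambda _ fun j => ?_
      unfold field
      refine Measurable.add ?_ ?_
      · exact Finset.measurable_sum _ fun l _ => measurable_gfun.comp (hit j l)
      · exact Measurable.ite (measurableSet_lt (hT j) (hT i)) (measurable_gfun.comp (hit j k))
          measurable_const
    have hpbar : Measurable (fun q : α × (V → ℝ) × (V → ℕ → ℝ) =>
        pbar (P q.1) q.2.1 (iter (P q.1) q.2.1 q.2.2 r) i k) := by
      unfold pbar
      refine Measurable.limsup fun n => ?_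
      exact (hP i n).comp (measurable_fst.prodMk hfield)
    refine Measurable.max measurable_const (Measurable.min measurable_const ?_)
    refine hu.add (Measurable.mul (hpbar.const_mul _) ?_)
    exact (hit i k).mul (measurable_const.sub (hit i k))

theorem measurable_Theta {V α : Type*} [Countable V] [MeasurableSpace α]
    (P : α → V → ℕ → (V → ℝ) → ℝ)
    (hP : ∀ i n, Measurable (fun q : α × (V → ℝ) => P q.1 i n q.2)) :
    Measurable (fun q : α × (V → ℝ) × (V → ℕ → ℝ) => Theta (P q.1) q.2.1 q.2.2) := by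
  refine measurable_pi_lambda _ fun i => measurable_pi_lambda _ fun k => ?_
  unfold Theta
  exact Measurable.limsup fun r =>
    (measurable_pi_apply k).comp ((measurable_pi_apply i).comp (measurable_iter P hP r))

theorem measurable_recov {V : Type*} [Countable V] :
    Measurable (recov : (V → ℕ → ℝ) → V → Bool) := by
  refine measurable_pi_lambda _ fun i => ?_
  have h1 : Measurable fun y : V → ℕ → ℝ =>
      limsup (fun n : ℕ => (∑ l ∈ Finset.range n, y i l) / (n : ℝ)) atTop := by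
    refine Measurable.limsup fun n => Measurable.div_const ?_ _
    exact Finset.measurable_sum _ fun l _ =>
      (measurable_pi_apply l).comp (measurable_pi_apply i)
  unfold recov
  refine measurable_to_bool ?_
  have : ((fun y : V → ℕ → ℝ => decide ((1 : ℝ) / 2 + 1 / 48 < limsup (fun n : ℕ =>
      (∑ l ∈ Finset.range n, y i l) / (n : ℝ)) atTop)) ⁻¹' {true}) =
      {y | (1 : ℝ) / 2 + 1 / 48 < limsup (fun n : ℕ =>
        (∑ l ∈ Finset.range n, y i l) / (n : ℝ)) atTop} := by
    ext a; simp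
  rw [this]
  exact measurableSet_lt measurable_const h1

theorem measurable_Xi {V α : Type*} [Countable V] [MeasurableSpace α]
    (P : α → V → ℕ → (V → ℝ) → ℝ)
    (hP : ∀ i n, Measurable (fun q : α × (V → ℝ) => P q.1 i n q.2)) :
    Measurable (fun q : α × (V → ℝ × (ℕ → ℝ)) => Xi (P q.1) q.2) := by
  have hq : ∀ i, Measurable (fun q : α × (V → ℝ × (ℕ → ℝ)) => q.2 i) := fun i =>
    (measurable_pi_apply i).comp measurable_snd
  have ha : Measurable (fun q : α × (V → ℝ × (ℕ → ℝ)) => fun i => (q.2 i).1) :=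
    measurable_pi_iff.mpr fun i => (hq i).fst
  have hb : Measurable (fun q : α × (V → ℝ × (ℕ → ℝ)) => fun i k => (q.2 i).2 k) :=
    measurable_pi_iff.mpr fun i => (hq i).snd
  have h1 : Measurable (fun q : α × (V → ℝ × (ℕ → ℝ)) =>
      ((q.1, (fun i => (q.2 i).1), fun i k => (q.2 i).2 k) : α × (V → ℝ) × (V → ℕ → ℝ))) :=
    measurable_fst.prodMk (ha.prodMk hb)
  have h2 := Measurable.comp (measurable_Theta P hP) h1
  rw [Function.comp_def] at h2
  have h3 := Measurable.comp (measurable_recov (V := V)) h2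
  rw [Function.comp_def] at h3
  exact h3

/-! ### naturality -/

theorem field_comp {V V' : Type*} (ι : V' → V) (T : V → ℝ) (y : V → ℕ → ℝ) (i : V') (k : ℕ) :
    field T y (ι i) k ∘ ι = field (T ∘ ι) (y ∘ ι) i k := by
  funext j
  simp only [field, Function.comp_apply]

theorem pbar_comp {V V' : Type*} (ι : V' → V) (P : V → ℕ → (V → ℝ) → ℝ)
    (P' : V' → ℕ → (V' → ℝ) → ℝ)
    (h : ∀ i n f, P (ι i) n f = P' i n (f ∘ ι)) (T : V → ℝ) (y : V → ℕ → ℝ) (i : V') (k : ℕ) :
    pbar P T y (ι i) k = pbar P' (T ∘ ι) (y ∘ ι) i k := by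
  unfold pbar
  congr 1
  funext n
  rw [h, field_comp]

theorem iter_comp {V V' : Type*} (ι : V' → V) (P : V → ℕ → (V → ℝ) → ℝ)
    (P' : V' → ℕ → (V' → ℝ) → ℝ)
    (h : ∀ i n f, P (ι i) n f = P' i n (f ∘ ι)) (T : V → ℝ) (u : V → ℕ → ℝ) (r : ℕ) :
    iter P T u r ∘ ι = iter P' (T ∘ ι) (u ∘ ι) r := by
  induction r with
  | zero => rfl
  | succ r ih =>
    funext i k
    have h1 := congrFun (congrFun ih i) k
    simp only [Function.comp_apply] at h1
    simp only [Function.comp_apply, iter, step]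
    rw [pbar_comp ι P P' h, ih, h1]

theorem Theta_comp {V V' : Type*} (ι : V' → V) (P : V → ℕ → (V → ℝ) → ℝ)
    (P' : V' → ℕ → (V' → ℝ) → ℝ)
    (h : ∀ i n f, P (ι i) n f = P' i n (f ∘ ι)) (T : V → ℝ) (u : V → ℕ → ℝ) :
    Theta P T u ∘ ι = Theta P' (T ∘ ι) (u ∘ ι) := by
  funext i k
  simp only [Function.comp_apply, Theta]
  congr 1
  funext r
  exact congrFun (congrFun (iter_comp ι P P' h T u r) i) k

/-- Naturality / locality (used with `ι` a bijection for equivariance and with `ι` a subtype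
inclusion for "irrelevant sites"). -/
theorem Xi_comp {V V' : Type*} (ι : V' → V) (P : V → ℕ → (V → ℝ) → ℝ)
    (P' : V' → ℕ → (V' → ℝ) → ℝ)
    (h : ∀ i n f, P (ι i) n f = P' i n (f ∘ ι)) (w : V → ℝ × (ℕ → ℝ)) :
    Xi P w ∘ ι = Xi P' (w ∘ ι) := by
  unfold Xi
  have h1 := Theta_comp ι P P' h (fun i => (w i).1) (fun i k => (w i).2 k)
  have h2 : recov (Theta P (fun i => (w i).1) (fun i k => (w i).2 k)) ∘ ι =
      recov (Theta P (fun i => (w i).1) (fun i k => (w i).2 k) ∘ ι) := by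
    funext i
    simp only [recov, Function.comp_apply]
  rw [h2, h1]
  rfl

end Crest.Agent.R168
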