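import Mathlib

/-! Zipping two infinite product probability measures. -/

set_option autoImplicit false

namespace Crest.Agent.R168

open MeasureTheory

/-- The product of two infinite product measures over the same index set is the infinite product
of the products. -/
theorem infinitePi_zip {ι α β : Type*} [MeasurableSpace α] [MeasurableSpace β]
    (μ : ι → Measure α) (ν : ι → Measure β) [∀ i, IsProbabilityMeasure (μ i)]
    [∀ i, IsProbabilityMeasure (ν i)] :
    ((Measure.infinitePi μ).prod (Measure.infinitePi ν)).map (fun p (i : ι) => (p.1 i, p.2 i)) =
      Measure.infinitePi (fun i => (μ i).prod (ν i)) := by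
  refine ((Measure.isProjectiveLimit_infinitePi (fun i => (μ i).prod (ν i))).unique ?_).symm
  intro I
  have hzip : Measurable (fun (p : (ι → α) × (ι → β)) (i : ι) => (p.1 i, p.2 i)) := by fun_prop
  rw [Measure.map_map (by fun_prop) hzip]
  have h1 : (I.restrict ∘ fun (p : (ι → α) × (ι → β)) (i : ι) => (p.1 i, p.2 i)) =
      (MeasurableEquiv.arrowProdEquivProdArrow α β I).symm ∘
        Prod.map (I.restrict (π := fun _ => α)) (I.restrict (π := fun _ => β)) := by
    ext p i <;> rfl
  rw [h1, ← Measure.map_map (by fun_prop) (by fun_prop),
    ← Measure.map_prod_map _ _ (by fun_prop) (by fun_prop), Measure.infinitePi_map_restrict,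
    Measure.infinitePi_map_restrict]
  exact (measurePreserving_arrowProdEquivProdArrow α β I (fun i => μ i) (fun i => ν i)).symm.map_eq

end Crest.Agent.R168
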