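import Crest.Agent.R168.Defs
import Crest.Agent.R168.Zip

/-! T9: i.i.d. edge labels from i.i.d. vertex labels, equivariantly. -/

set_option autoImplicit false

namespace Crest.Agent.R168

open MeasureTheory ProbabilityTheory Filter Topology
open Crest.ProbabilityR.GraphTables

noncomputable section

/-- decoded vertex label: an own uniform and a list of edge labels. -/
abbrev VLab := ℝ × (ℕ → ℝ × (ℕ → ℝ))

/-- law of a decoded vertex label. -/
def vlab : Measure VLab := U01.prod (Measure.infinitePi fun _ : ℕ => lab)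

instance : IsProbabilityMeasure vlab := by unfold vlab; infer_instance

/-- rank of `v` among the neighbours of `u` for the order given by `s`. -/
def rank (G : SimpleGraph ℕ) (s : ℕ → ℝ) (u v : ℕ) : ℕ := {w | G.Adj u w ∧ s w < s v}.ncard

open scoped Classical in
/-- label of the pair `{u,v}`: taken from the endpoint with the smaller own uniform. -/
def elab0 (G : SimpleGraph ℕ) (x : ℕ → VLab) (u v : ℕ) : ℝ × (ℕ → ℝ) :=
  if (x u).1 < (x v).1 then (x u).2 (rank G (fun w => (x w).1) u v)
  else if (x v).1 < (x u).1 then (x v).2 (rank G (fun w => (x w).1) v u)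
  else (0, fun _ => 0)

theorem elab0_symm (G : SimpleGraph ℕ) (x : ℕ → VLab) (u v : ℕ) :
    elab0 G x u v = elab0 G x v u := by
  unfold elab0
  split_ifs with h1 h2 h3
  · exact absurd h2 (lt_asymm h1)
  all_goals rfl

/-- labels of unordered pairs. -/
def edgeLab (G : SimpleGraph ℕ) (x : ℕ → VLab) : Sym2 ℕ → ℝ × (ℕ → ℝ) :=
  Sym2.lift ⟨elab0 G x, elab0_symm G x⟩

theorem rank_comap (σ : Equiv.Perm ℕ) (G : SimpleGraph ℕ) (s : ℕ → ℝ) (u v : ℕ) :
    rank (G.comap ⇑σ) (fun w => s (σ w)) u v = rank G s (σ u) (σ v) := by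
  unfold rank
  have : {w | G.Adj (σ u) w ∧ s w < s (σ v)} = σ '' {w | (G.comap ⇑σ).Adj u w ∧ s (σ w) < s (σ v)} := by
    ext w
    simp only [Set.mem_ofPred_eq, Set.mem_image, SimpleGraph.comap_adj]
    constructor
    · intro h
      exact ⟨σ.symm w, by simpa using h, by simp⟩
    · rintro ⟨w', h, rfl⟩
      exact h
  rw [this, Set.ncard_image_of_injective _ σ.injective]

theorem edgeLab_comap (σ : Equiv.Perm ℕ) (G : SimpleGraph ℕ) (x : ℕ → VLab) :
    edgeLab (G.comap ⇑σ) (x ∘ ⇑σ) = edgeLab G x ∘ Sym2.map ⇑σ := by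
  funext e
  induction e using Sym2.ind with
  | _ u v =>
    simp only [edgeLab, Sym2.lift_mk, Function.comp_apply, Sym2.map_mk]
    have h1 := rank_comap σ G (fun w => (x w).1) u v
    have h2 := rank_comap σ G (fun w => (x w).1) v u
    simp only [elab0, Function.comp_apply, h1, h2]

theorem measurable_ncard {Ω : Type*} [MeasurableSpace Ω] (S : Ω → Set ℕ)
    (hS : ∀ w, MeasurableSet {p | w ∈ S p}) : Measurable fun p => (S p).ncard := by
  -- the event that `S p` equals a given finite set
  have hF : ∀ F : Finset ℕ, MeasurableSet {p | S p = (F : Set ℕ)} := by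
    intro F
    have : {p | S p = (F : Set ℕ)} = ⋂ w, {p | w ∈ S p ↔ w ∈ F} := by
      ext p
      simp [Set.ext_iff]
    rw [this]
    refine MeasurableSet.iInter fun w => ?_
    by_cases hw : w ∈ F
    · have : {p | w ∈ S p ↔ w ∈ F} = {p | w ∈ S p} := by ext p; simp [hw]
      rw [this]
      exact hS w
    · have : {p | w ∈ S p ↔ w ∈ F} = {p | w ∈ S p}ᶜ := by ext p; simp [hw]
      rw [this]
      exact (hS w).compl
  have hpos : ∀ n : ℕ, n ≠ 0 → MeasurableSet {p | (S p).ncard = n} := by
    intro n hn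
    have : {p | (S p).ncard = n} = ⋃ F : {F : Finset ℕ // F.card = n}, {p | S p = (F.1 : Set ℕ)} := by
      ext p
      simp only [Set.mem_ofPred_eq, Set.mem_iUnion]
      constructor
      · intro h
        have hfin : (S p).Finite := Set.finite_of_ncard_ne_zero (by rw [h]; exact hn)
        refine ⟨⟨hfin.toFinset, ?_⟩, by simp⟩
        rw [← h, Set.ncard_eq_toFinset_card _ hfin]
      · rintro ⟨⟨F, hF⟩, h⟩
        rw [h, Set.ncard_coe_finset, hF]
    rw [this]
    exact MeasurableSet.iUnion fun F => hF F.1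
  refine measurable_to_countable' fun n => ?_
  by_cases hn : n = 0
  · have : (fun p => (S p).ncard) ⁻¹' {n} =
        (⋃ m : {m : ℕ // m ≠ 0}, {p | (S p).ncard = m.1})ᶜ := by
      ext p
      simp only [Set.mem_preimage, Set.mem_singleton_iff, Set.mem_compl_iff, Set.mem_iUnion,
        Set.mem_ofPred_eq, not_exists, hn]
      constructor
      · intro h m hm
        exact m.2 (hm.symm.trans h)
      · intro h
        by_contra h0
        exact h ⟨_, h0⟩ rfl
    rw [this]
    exact (MeasurableSet.iUnion fun m : {m : ℕ // m ≠ 0} => hpos m.1 m.2).compl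
  · exact hpos n hn

theorem measurable_edgeLab :
    Measurable (fun p : (ℕ → ℕ → Bool) × (ℕ → VLab) => edgeLab (graphOfTable p.1) p.2) := by
  refine measurable_pi_iff.2 fun e => ?_
  induction e using Sym2.ind with
  | _ u v =>
    simp only [edgeLab, Sym2.lift_mk]
    have hlt : ∀ a b : ℕ, MeasurableSet {p : (ℕ → ℕ → Bool) × (ℕ → VLab) | (p.2 a).1 < (p.2 b).1} := by
      intro a b
      exact measurableSet_lt (by fun_prop) (by fun_prop)
    have hadj : ∀ a b : ℕ, MeasurableSet {p : (ℕ → ℕ → Bool) × (ℕ → VLab) |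
        (graphOfTable p.1).Adj a b} := by
      intro a b
      have : {p : (ℕ → ℕ → Bool) × (ℕ → VLab) | (graphOfTable p.1).Adj a b} =
          {p | a ≠ b ∧ (p.1 a b = true ∨ p.1 b a = true)} := by
        ext p
        simp [graphOfTable, SimpleGraph.fromRel_adj]
      rw [this]
      have h1 : ∀ a b : ℕ, Measurable (fun p : (ℕ → ℕ → Bool) × (ℕ → VLab) => p.1 a b) := by
        intro a b
        fun_prop
      exact (MeasurableSet.const _).inter ((h1 a b (measurableSet_singleton true)).union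
        (h1 b a (measurableSet_singleton true)))
    have hrank : ∀ a b : ℕ, Measurable (fun p : (ℕ → ℕ → Bool) × (ℕ → VLab) =>
        rank (graphOfTable p.1) (fun w => (p.2 w).1) a b) := by
      intro a b
      exact measurable_ncard _ fun w => (hadj a w).inter (hlt w b)
    have hsel : ∀ a b : ℕ, Measurable (fun p : (ℕ → ℕ → Bool) × (ℕ → VLab) =>
        (p.2 a).2 (rank (graphOfTable p.1) (fun w => (p.2 w).1) a b)) := by
      intro a b
      have h1 : Measurable (fun q : ((ℕ → ℕ → Bool) × (ℕ → VLab)) × ℕ => (q.1.2 a).2 q.2) := by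
        refine measurable_from_prod_countable_left fun n => ?_
        change Measurable fun x : (ℕ → ℕ → Bool) × (ℕ → VLab) => (x.2 a).2 n
        fun_prop
      exact h1.comp (measurable_id.prodMk (hrank a b))
    exact Measurable.ite (hlt u v) (hsel u v) (Measurable.ite (hlt v u) (hsel v u) measurable_const)

theorem U01_prod_diag : (U01.prod U01) {p : ℝ × ℝ | p.1 = p.2} = 0 := by
  have hm : MeasurableSet {p : ℝ × ℝ | p.1 = p.2} := measurableSet_eq_fun measurable_fst measurable_snd
  rw [Measure.prod_apply hm]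
  have : ∀ x : ℝ, U01 (Prod.mk x ⁻¹' {p : ℝ × ℝ | p.1 = p.2}) = 0 := by
    intro x
    have h1 : (Prod.mk x ⁻¹' {p : ℝ × ℝ | p.1 = p.2}) = {x} := by
      ext y
      simp [eq_comm]
    rw [h1]
    exact Measure.absolutelyContinuous_of_le Measure.restrict_le_self (Real.volume_singleton)
  rw [lintegral_congr this, lintegral_zero]

/-- independent uniform labels are almost surely distinct. -/
theorem ae_injective_nat :
    ∀ᵐ a ∂(Measure.infinitePi fun _ : ℕ => U01), Function.Injective a := by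
  have h : ∀ i j : ℕ, i ≠ j → ∀ᵐ a ∂(Measure.infinitePi fun _ : ℕ => U01), a i ≠ a j := by
    intro i j hij
    have h1 := Measure.infinitePi_map_eval_prod (P := fun _ : ℕ => U01) hij
    have h2 : MeasurableSet {p : ℝ × ℝ | p.1 = p.2} :=
      measurableSet_eq_fun measurable_fst measurable_snd
    rw [ae_iff]
    have h3 : {a : ℕ → ℝ | ¬ a i ≠ a j} = (fun ω : ℕ → ℝ => (ω i, ω j)) ⁻¹' {p | p.1 = p.2} := by
      ext a
      simp
    rw [h3, ← Measure.map_apply (by fun_prop) h2, h1]
    exact U01_prod_diag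
  have h' : ∀ᵐ a ∂(Measure.infinitePi fun _ : ℕ => U01), ∀ i j : ℕ, i ≠ j → a i ≠ a j := by
    rw [ae_all_iff]
    intro i
    rw [ae_all_iff]
    intro j
    by_cases hij : i = j
    · simp [hij]
    · exact (h i j hij).mono fun a ha _ => ha
  refine h'.mono fun a ha i j hij => ?_
  by_contra hne
  exact ha i j hne hij

open scoped Classical in
/-- position of the label of a pair. -/
def key0 (G : SimpleGraph ℕ) (a : ℕ → ℝ) (u v : ℕ) : ℕ × ℕ :=
  if a u < a v then (u, rank G a u v) else if a v < a u then (v, rank G a v u) else (0, 0)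

theorem key0_symm (G : SimpleGraph ℕ) (a : ℕ → ℝ) (u v : ℕ) : key0 G a u v = key0 G a v u := by
  unfold key0
  split_ifs with h1 h2 h3
  · exact absurd h2 (lt_asymm h1)
  all_goals rfl

/-- position of the label of an unordered pair. -/
def key (G : SimpleGraph ℕ) (a : ℕ → ℝ) : Sym2 ℕ → ℕ × ℕ := Sym2.lift ⟨key0 G a, key0_symm G a⟩

theorem key_of_lt (G : SimpleGraph ℕ) (a : ℕ → ℝ) (u v : ℕ) (h : a u < a v) :
    key G a s(u, v) = (u, rank G a u v) := by
  simp [key, key0, h]

/-- choose the endpoint with the smaller label first. -/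
theorem exists_ordered (G : SimpleGraph ℕ) (a : ℕ → ℝ) (ha : Function.Injective a) (e : Sym2 ℕ)
    (he : e ∈ G.edgeSet) : ∃ u v, e = s(u, v) ∧ G.Adj u v ∧ a u < a v := by
  induction e using Sym2.ind with
  | _ u v =>
    rw [SimpleGraph.mem_edgeSet] at he
    rcases lt_trichotomy (a u) (a v) with h | h | h
    · exact ⟨u, v, rfl, he, h⟩
    · exact absurd (ha h) he.ne
    · exact ⟨v, u, Sym2.eq_swap, he.symm, h⟩

theorem rank_lt (G : SimpleGraph ℕ) (hlf : ∀ v : ℕ, (G.neighborSet v).Finite) (a : ℕ → ℝ)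
    (u v v' : ℕ) (hv : G.Adj u v) (h : a v < a v') : rank G a u v < rank G a u v' := by
  unfold rank
  refine Set.ncard_lt_ncard ?_ ((hlf u).subset fun w hw => hw.1)
  refine ⟨fun w hw => ⟨hw.1, hw.2.trans h⟩, fun hsub => ?_⟩
  exact lt_irrefl _ (hsub (show v ∈ {w | G.Adj u w ∧ a w < a v'} from ⟨hv, h⟩)).2

theorem key_injective (G : SimpleGraph ℕ) (hlf : ∀ v : ℕ, (G.neighborSet v).Finite) (a : ℕ → ℝ)
    (ha : Function.Injective a) : Function.Injective fun e : G.edgeSet => key G a e := by
  rintro ⟨e, he⟩ ⟨e', he'⟩ h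
  obtain ⟨u, v, rfl, huv, hlt⟩ := exists_ordered G a ha e he
  obtain ⟨u', v', rfl, huv', hlt'⟩ := exists_ordered G a ha e' he'
  simp only [key_of_lt G a u v hlt, key_of_lt G a u' v' hlt', Prod.mk.injEq] at h
  obtain ⟨rfl, hr⟩ := h
  have : v = v' := by
    rcases lt_trichotomy (a v) (a v') with h | h | h
    · exact absurd hr (rank_lt G hlf a u v v' huv h).ne
    · exact ha h
    · exact absurd hr (rank_lt G hlf a u v' v huv' h).ne'
  subst this
  rfl

theorem edgeLab_eq_key (G : SimpleGraph ℕ) (a : ℕ → ℝ) (ha : Function.Injective a)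
    (L : ℕ → ℕ → ℝ × (ℕ → ℝ)) (e : Sym2 ℕ) (he : e ∈ G.edgeSet) :
    edgeLab G (fun i => (a i, L i)) e = L (key G a e).1 (key G a e).2 := by
  obtain ⟨u, v, rfl, huv, hlt⟩ := exists_ordered G a ha e he
  rw [key_of_lt G a u v hlt]
  simp [edgeLab, elab0, hlt]

theorem graphOfTable_tableOf (G : SimpleGraph ℕ) : graphOfTable (tableOf G) = G := by
  ext i j
  simp only [graphOfTable, SimpleGraph.fromRel_adj, tableOf, decide_eq_true_eq]
  constructor
  · rintro ⟨-, h | h⟩
    · exact h
    · exact h.symm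
  · intro h
    exact ⟨h.ne, Or.inl h⟩

theorem measurable_edgeLab_fixed (G : SimpleGraph ℕ) :
    Measurable (fun x : ℕ → VLab => edgeLab G x) := by
  have h := measurable_edgeLab.comp
    (measurable_prodMk_left (x := tableOf G) : Measurable (Prod.mk (tableOf G) : (ℕ → VLab) → _))
  have h2 : (fun p : (ℕ → ℕ → Bool) × (ℕ → VLab) => edgeLab (graphOfTable p.1) p.2) ∘
      Prod.mk (tableOf G) = fun x : ℕ → VLab => edgeLab G x := by
    funext x
    simp [graphOfTable_tableOf]
  rwa [h2] at h

theorem edgeLab_law (G : SimpleGraph ℕ) (hlf : ∀ v : ℕ, (G.neighborSet v).Finite) :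
    (Measure.infinitePi fun _ : ℕ => vlab).map (fun x (e : G.edgeSet) => edgeLab G x e) =
      Measure.infinitePi (fun _ : G.edgeSet => lab) := by
  have hF : Measurable (fun (x : ℕ → VLab) (e : G.edgeSet) => edgeLab G x e) := by
    refine measurable_pi_iff.2 fun e => ?_
    exact (measurable_pi_iff.1 (measurable_edgeLab_fixed G)) e
  have hzip : Measurable (fun (p : (ℕ → ℝ) × (ℕ → ℕ → ℝ × (ℕ → ℝ))) (i : ℕ) =>
      (p.1 i, p.2 i)) := by fun_prop
  have h1 : (Measure.infinitePi fun _ : ℕ => vlab) =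
      ((Measure.infinitePi fun _ : ℕ => U01).prod
        (Measure.infinitePi fun _ : ℕ => Measure.infinitePi fun _ : ℕ => lab)).map
          (fun p (i : ℕ) => (p.1 i, p.2 i)) :=
    (infinitePi_zip (fun _ : ℕ => U01) (fun _ : ℕ => Measure.infinitePi fun _ : ℕ => lab)).symm
  rw [h1, Measure.map_map hF hzip]
  ext S hS
  rw [Measure.map_apply (hF.comp hzip) hS, Measure.prod_apply ((hF.comp hzip) hS)]
  have h2 : ∀ᵐ a ∂(Measure.infinitePi fun _ : ℕ => U01),
      (Measure.infinitePi fun _ : ℕ => Measure.infinitePi fun _ : ℕ => lab)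
        (Prod.mk a ⁻¹' (((fun (x : ℕ → VLab) (e : G.edgeSet) => edgeLab G x e) ∘
          fun (p : (ℕ → ℝ) × (ℕ → ℕ → ℝ × (ℕ → ℝ))) (i : ℕ) => (p.1 i, p.2 i)) ⁻¹' S)) =
      Measure.infinitePi (fun _ : G.edgeSet => lab) S := by
    refine ae_injective_nat.mono fun a ha => ?_
    have h3 : (Prod.mk a ⁻¹' (((fun (x : ℕ → VLab) (e : G.edgeSet) => edgeLab G x e) ∘
          fun (p : (ℕ → ℝ) × (ℕ → ℕ → ℝ × (ℕ → ℝ))) (i : ℕ) => (p.1 i, p.2 i)) ⁻¹' S)) =
        (fun (L : ℕ → ℕ → ℝ × (ℕ → ℝ)) (e : G.edgeSet) => L (key G a e).1 (key G a e).2) ⁻¹' S := by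
      ext L
      simp only [Set.mem_preimage, Function.comp_apply]
      have : (fun e : G.edgeSet => edgeLab G (fun i => (a i, L i)) e) =
          fun e : G.edgeSet => L (key G a e).1 (key G a e).2 := by
        funext e
        exact edgeLab_eq_key G a ha L e e.2
      rw [this]
    have hk : Measurable (fun (L : ℕ → ℕ → ℝ × (ℕ → ℝ)) (e : G.edgeSet) =>
        L (key G a e).1 (key G a e).2) := by fun_prop
    rw [h3, ← Measure.map_apply hk hS, ← Measure.infinitePi_map_curry (fun _ _ : ℕ => lab),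
      Measure.map_map hk (by fun_prop)]
    have h4 := Measure.map_infinitePi_infinitePi_of_inj (P := fun _ : ℕ × ℕ => lab)
      (key_injective G hlf a ha)
    rw [← h4]
    rfl
  rw [lintegral_congr_ae h2]
  simp

end

end Crest.Agent.R168
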