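import Mathlib

set_option autoImplicit false

/-!
Negative correlation for weighted finite set families.
`W 𝒜 z F` = sum over members `A` of `𝒜` containing `F` of the weight `∏ a ∈ A, z a`.
`NC 𝒜` : pairwise negative correlation for all positive weights.
-/

namespace Crest.Agent.R168.UST

open Finset Filter Topology

variable {α : Type*} [DecidableEq α]

/-- weighted sum of the members of `𝒜` containing `F` -/
noncomputable def W (𝒜 : Finset (Finset α)) (z : α → ℝ) (F : Finset α) : ℝ :=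
  ∑ A ∈ 𝒜.filter (fun A => F ⊆ A), ∏ a ∈ A, z a

/-- pairwise negative correlation for all positive weights -/
def NC (𝒜 : Finset (Finset α)) : Prop :=
  ∀ z : α → ℝ, (∀ a, 0 < z a) → ∀ e g : α, e ≠ g →
    W 𝒜 z {e, g} * W 𝒜 z ∅ ≤ W 𝒜 z {e} * W 𝒜 z {g}

theorem W_nonneg (𝒜 : Finset (Finset α)) {z : α → ℝ} (hz : ∀ a, 0 ≤ z a) (F : Finset α) :
    0 ≤ W 𝒜 z F :=
  Finset.sum_nonneg fun _ _ => Finset.prod_nonneg fun a _ => hz a

theorem W_anti (𝒜 : Finset (Finset α)) {z : α → ℝ} (hz : ∀ a, 0 ≤ z a) {F F' : Finset α}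
    (h : F ⊆ F') : W 𝒜 z F' ≤ W 𝒜 z F := by
  unfold W
  apply Finset.sum_le_sum_of_subset_of_nonneg
  · intro A hA
    simp only [mem_filter] at hA ⊢
    exact ⟨hA.1, h.trans hA.2⟩
  · intro A _ _
    exact Finset.prod_nonneg fun a _ => hz a

/-- weights with the elements of `F` multiplied by `t` -/
theorem W_scale_tendsto (𝒜 : Finset (Finset α)) (z : α → ℝ) (F F' : Finset α) :
    Tendsto (fun t : ℝ => t⁻¹ ^ F.card * W 𝒜 (fun a => if a ∈ F then t * z a else z a) F')
      atTop (𝓝 (W 𝒜 z (F ∪ F'))) := by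
  have h1 : ∀ t : ℝ, t⁻¹ ^ F.card * W 𝒜 (fun a => if a ∈ F then t * z a else z a) F' =
      ∑ A ∈ 𝒜.filter (fun A => F' ⊆ A),
        (t⁻¹ ^ F.card * t ^ (A ∩ F).card) * ∏ a ∈ A, z a := by
    intro t
    unfold W
    rw [Finset.mul_sum]
    refine Finset.sum_congr rfl fun A _ => ?_
    rw [mul_assoc]
    congr 1
    have : ∀ a ∈ A, (if a ∈ F then t * z a else z a) = (if a ∈ F then t else 1) * z a := by
      intro a _; split_ifs <;> simp
    rw [Finset.prod_congr rfl this, Finset.prod_mul_distrib]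
    congr 1
    rw [Finset.prod_ite]
    simp [Finset.filter_mem_eq_inter]
  have h2 : W 𝒜 z (F ∪ F') =
      ∑ A ∈ 𝒜.filter (fun A => F' ⊆ A), (if F ⊆ A then (1 : ℝ) else 0) * ∏ a ∈ A, z a := by
    unfold W
    have : 𝒜.filter (fun A => F ∪ F' ⊆ A) = (𝒜.filter (fun A => F' ⊆ A)).filter (fun A => F ⊆ A) := by
      ext A
      simp only [mem_filter, Finset.union_subset_iff]
      tauto
    rw [this, Finset.sum_filter]
    refine Finset.sum_congr rfl fun A _ => ?_
    split_ifs <;> simp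
  simp_rw [h1]
  rw [h2]
  refine tendsto_finsetSum _ fun A _ => ?_
  refine Tendsto.mul_const _ ?_
  by_cases hA : F ⊆ A
  · simp only [hA, if_true]
    have hc : (A ∩ F).card = F.card := by
      rw [Finset.inter_eq_right.mpr hA]
    rw [hc]
    refine tendsto_const_nhds.congr' ?_
    filter_upwards [eventually_gt_atTop (0 : ℝ)] with t ht
    rw [← mul_pow, inv_mul_cancel₀ ht.ne', one_pow]
  · simp only [hA, if_false]
    have hc : (A ∩ F).card < F.card := by
      apply Finset.card_lt_card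
      rw [Finset.ssubset_iff_subset_ne]
      refine ⟨Finset.inter_subset_right, fun h => hA ?_⟩
      rw [← h]; exact Finset.inter_subset_left
    obtain ⟨k, hk⟩ : ∃ k, F.card = (A ∩ F).card + (k + 1) := ⟨F.card - (A ∩ F).card - 1, by omega⟩
    have : (fun t : ℝ => t⁻¹ ^ (k + 1)) =ᶠ[atTop] fun t : ℝ => t⁻¹ ^ F.card * t ^ (A ∩ F).card := by
      filter_upwards [eventually_gt_atTop (0 : ℝ)] with t ht
      rw [hk, pow_add t⁻¹ (A ∩ F).card (k + 1), mul_comm (t⁻¹ ^ (A ∩ F).card), mul_assoc, ← mul_pow,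
        inv_mul_cancel₀ ht.ne', one_pow, mul_one]
    refine Tendsto.congr' this ?_
    have h0 : Tendsto (fun t : ℝ => t⁻¹) atTop (𝓝 0) := tendsto_inv_atTop_zero
    simpa using h0.pow (k + 1)

/-- negative correlation in the links -/
theorem NC.link {𝒜 : Finset (Finset α)} (h : NC 𝒜) {z : α → ℝ} (hz : ∀ a, 0 < z a)
    {e g : α} (heg : e ≠ g) (F : Finset α) :
    W 𝒜 z (F ∪ {e, g}) * W 𝒜 z F ≤ W 𝒜 z (F ∪ {e}) * W 𝒜 z (F ∪ {g}) := by
  have h1 := (W_scale_tendsto 𝒜 z F {e, g}).mul (W_scale_tendsto 𝒜 z F ∅)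
  have h2 := (W_scale_tendsto 𝒜 z F {e}).mul (W_scale_tendsto 𝒜 z F {g})
  rw [Finset.union_empty] at h1
  refine le_of_tendsto_of_tendsto h1 h2 ?_
  filter_upwards [eventually_gt_atTop (0 : ℝ)] with t ht
  have hz' : ∀ a, 0 < (fun a => if a ∈ F then t * z a else z a) a := by
    intro a
    dsimp only
    split_ifs
    · exact mul_pos ht (hz a)
    · exact hz a
  have := h _ hz' e g heg
  have hp : 0 ≤ t⁻¹ ^ F.card := by positivity
  calc _ = (t⁻¹ ^ F.card * t⁻¹ ^ F.card) *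
        (W 𝒜 (fun a => if a ∈ F then t * z a else z a) {e, g} *
          W 𝒜 (fun a => if a ∈ F then t * z a else z a) ∅) := by ring
    _ ≤ (t⁻¹ ^ F.card * t⁻¹ ^ F.card) *
        (W 𝒜 (fun a => if a ∈ F then t * z a else z a) {e} *
          W 𝒜 (fun a => if a ∈ F then t * z a else z a) {g}) := by
        exact mul_le_mul_of_nonneg_left this (mul_nonneg hp hp)
    _ = _ := by ring

/-- negative correlation between an element and a set of elements -/
theorem NC.cond {𝒜 : Finset (Finset α)} (h : NC 𝒜) {z : α → ℝ} (hz : ∀ a, 0 < z a)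
    {e : α} (F : Finset α) (he : e ∉ F) :
    W 𝒜 z (F ∪ {e}) * W 𝒜 z ∅ ≤ W 𝒜 z F * W 𝒜 z {e} := by
  induction F using Finset.induction_on with
  | empty => simp [mul_comm]
  | insert g F hg ih =>
    have hz0 : ∀ a, 0 ≤ z a := fun a => (hz a).le
    have heF : e ∉ F := fun h' => he (Finset.mem_insert_of_mem h')
    have heg : e ≠ g := fun h' => he (by rw [h']; exact Finset.mem_insert_self _ _)
    have ih := ih heF
    have hl := h.link hz heg F
    have e1 : insert g F ∪ {e} = F ∪ {e, g} := by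
      ext a; simp only [mem_union, mem_insert, mem_singleton]; tauto
    have e2 : insert g F = F ∪ {g} := by
      ext a; simp only [mem_union, mem_insert, mem_singleton]; tauto
    rw [e1, e2]
    rcases (W_nonneg 𝒜 hz0 (F ∪ {e})).eq_or_lt with h0 | hpos
    · have : W 𝒜 z (F ∪ {e, g}) = 0 := by
        refine le_antisymm ?_ (W_nonneg 𝒜 hz0 _)
        rw [h0]
        apply W_anti 𝒜 hz0
        intro a; simp only [mem_union, mem_insert, mem_singleton]; tauto
      rw [this, zero_mul]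
      exact mul_nonneg (W_nonneg 𝒜 hz0 _) (W_nonneg 𝒜 hz0 _)
    · have hposF : 0 < W 𝒜 z F := lt_of_lt_of_le hpos (W_anti 𝒜 hz0 Finset.subset_union_left)
      have hprod : 0 < W 𝒜 z F * W 𝒜 z (F ∪ {e}) := mul_pos hposF hpos
      refine le_of_mul_le_mul_left ?_ hprod
      calc W 𝒜 z F * W 𝒜 z (F ∪ {e}) * (W 𝒜 z (F ∪ {e, g}) * W 𝒜 z ∅)
          = (W 𝒜 z (F ∪ {e, g}) * W 𝒜 z F) * (W 𝒜 z (F ∪ {e}) * W 𝒜 z ∅) := by ring
        _ ≤ (W 𝒜 z (F ∪ {e}) * W 𝒜 z (F ∪ {g})) * (W 𝒜 z F * W 𝒜 z {e}) := by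
            apply mul_le_mul hl ih
            · exact mul_nonneg (W_nonneg 𝒜 hz0 _) (W_nonneg 𝒜 hz0 _)
            · exact mul_nonneg (W_nonneg 𝒜 hz0 _) (W_nonneg 𝒜 hz0 _)
        _ = W 𝒜 z F * W 𝒜 z (F ∪ {e}) * (W 𝒜 z (F ∪ {g}) * W 𝒜 z {e}) := by ring

end Crest.Agent.R168.UST
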