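import Mathlib

/-! Sandwich lemma: monotonicity in the other coordinates, logistic dependence on the own
coordinate and a Lipschitz bound for diagonal shifts give a sup-norm Lipschitz bound.
Used both for strongly Rayleigh laws and for weighted spanning trees. -/

set_option autoImplicit false

namespace Crest.Agent.R168

open Finset

/-- logistic function is `1/4`-Lipschitz (one-sided form). -/
lemma logistic_le (p : ℝ) (hp0 : 0 ≤ p) (hp1 : p ≤ 1) (u : ℝ) (hu : 0 ≤ u) :
    p ≤ p * Real.exp u / (1 + (Real.exp u - 1) * p) ∧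
      p * Real.exp u / (1 + (Real.exp u - 1) * p) ≤ p + u / 4 := by
  have hden : ∀ v : ℝ, 0 < 1 + (Real.exp v - 1) * p := by
    intro v
    have hv := Real.exp_pos v
    rcases eq_or_lt_of_le hp0 with h | h
    · rw [← h]; simp
    · rcases eq_or_lt_of_le hp1 with h1 | h1
      · rw [h1]; simp [hv]
      · nlinarith
  let φ : ℝ → ℝ := fun v => p * Real.exp v / (1 + (Real.exp v - 1) * p)
  have hφd : ∀ v, HasDerivAt φ (φ v * (1 - φ v)) v := by
    intro v
    have h1 : HasDerivAt (fun v => p * Real.exp v) (p * Real.exp v) v :=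
      (Real.hasDerivAt_exp v).const_mul p
    have h2 : HasDerivAt (fun v => 1 + (Real.exp v - 1) * p) (Real.exp v * p) v := by
      have := (((Real.hasDerivAt_exp v).sub_const 1).mul_const p).const_add 1
      simpa using this
    have h3 := h1.div h2 (hden v).ne'
    have hne := (hden v).ne'
    have hval : φ v * (1 - φ v) =
        (p * Real.exp v * (1 + (Real.exp v - 1) * p) - p * Real.exp v * (Real.exp v * p)) /
          (1 + (Real.exp v - 1) * p) ^ 2 := by
      rw [eq_div_iff (pow_ne_zero 2 hne)]
      have hφv : φ v * (1 + (Real.exp v - 1) * p) = p * Real.exp v := div_mul_cancel₀ _ hne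
      linear_combination (1 + (Real.exp v - 1) * p - p * Real.exp v -
        φ v * (1 + (Real.exp v - 1) * p)) * hφv
    rw [hval]
    exact h3
  have hφ0 : φ 0 = p := by simp [φ]
  have hφnn : ∀ v, 0 ≤ φ v ∧ φ v ≤ 1 := by
    intro v
    have hv := Real.exp_pos v
    refine ⟨div_nonneg (mul_nonneg hp0 hv.le) (hden v).le, ?_⟩
    rw [div_le_one (hden v)]
    nlinarith
  constructor
  · have hmono : Monotone φ := by
      apply monotone_of_deriv_nonneg (fun v => (hφd v).differentiableAt)
      intro v
      rw [(hφd v).deriv]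
      exact mul_nonneg (hφnn v).1 (by linarith [(hφnn v).2])
    have := hmono hu
    rw [hφ0] at this
    exact this
  · have hmono : Monotone (fun v => v / 4 - φ v) := by
      apply monotone_of_deriv_nonneg
      · intro v
        exact ((differentiableAt_id).div_const 4).sub (hφd v).differentiableAt
      · intro v
        have h1 : HasDerivAt (fun v : ℝ => v / 4 - φ v) (1 / 4 - φ v * (1 - φ v)) v :=
          ((hasDerivAt_id v).div_const 4).sub (hφd v)
        rw [h1.deriv]
        nlinarith [sq_nonneg (φ v - 1 / 2)]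
    have := hmono hu
    simp only [hφ0, zero_div, zero_sub] at this
    have h2 : φ u ≤ p + u / 4 := by linarith
    exact h2

variable {V : Type*} [DecidableEq V]

lemma multi_mono (F : Finset V) (i : V) (p : (V → ℝ) → ℝ)
    (hdep : ∀ h h' : V → ℝ, (∀ j ∈ F, h j = h' j) → p h = p h')
    (hmon : ∀ (h : V → ℝ) (j : V), j ∈ F → j ≠ i → ∀ t, h j ≤ t →
      p (Function.update h j t) ≤ p h)
    (a b : V → ℝ) (hab : ∀ j ∈ F, j ≠ i → a j ≤ b j) (hi : a i = b i) : p b ≤ p a := by
  have key : ∀ D : Finset V, D ⊆ F.erase i → p (fun j => if j ∈ D then b j else a j) ≤ p a := by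
    intro D
    induction D using Finset.induction_on with
    | empty => intro _; simp
    | insert g D hg ih =>
      intro hD
      have hgF := Finset.mem_erase.mp (hD (Finset.mem_insert_self g D))
      have ih' := ih (fun x hx => hD (Finset.mem_insert_of_mem hx))
      refine le_trans ?_ ih'
      have := hmon (fun j => if j ∈ D then b j else a j) g hgF.2 hgF.1 (b g)
        (by simp only [hg, if_false]; exact hab g hgF.2 hgF.1)
      refine le_trans (le_of_eq ?_) this
      congr 1
      ext j
      by_cases hj : j = g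
      · subst hj; simp
      · simp [hj]
  refine le_trans (le_of_eq ?_) (key (F.erase i) (subset_refl _))
  apply hdep
  intro j hj
  by_cases hji : j = i
  · subst hji; simp [hi]
  · simp [hji, hj]

/-- **Sandwich lemma.** -/
theorem sandwich (F : Finset V) (i : V) (p : (V → ℝ) → ℝ) (C0 : ℝ)
    (hdep : ∀ h h' : V → ℝ, (∀ j ∈ F, h j = h' j) → p h = p h')
    (hmon : ∀ (h : V → ℝ) (j : V), j ∈ F → j ≠ i → ∀ t, h j ≤ t →
      p (Function.update h j t) ≤ p h)
    (hown : ∀ (h : V → ℝ) (t : ℝ), h i ≤ t →
      p h ≤ p (Function.update h i t) ∧ p (Function.update h i t) ≤ p h + (t - h i) / 4)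
    (hshift : ∀ (h : V → ℝ) (c : ℝ), |p (fun j => h j + c) - p h| ≤ C0 * |c|)
    (hiF : i ∈ F) (h h' : V → ℝ) (s : ℝ) (hs : ∀ j ∈ F, |h j - h' j| ≤ s) :
    |p h - p h'| ≤ (C0 + 1 / 2) * s := by
  have hs0 : 0 ≤ s := le_trans (abs_nonneg _) (hs i hiF)
  have key : ∀ h h' : V → ℝ, (∀ j ∈ F, |h j - h' j| ≤ s) → p h' ≤ p h + (C0 + 1 / 2) * s := by
    intro h h' hs
    set h1 : V → ℝ := fun j => h j + (-s) with hh1
    set h2 : V → ℝ := Function.update h1 i (h i + s) with hh2
    set h3 : V → ℝ := Function.update h' i (h i + s) with hh3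
    have e1 : p h1 ≤ p h + C0 * s := by
      have := (abs_le.mp (hshift h (-s))).2
      rw [abs_neg, abs_of_nonneg hs0] at this
      linarith
    have e2 : p h2 ≤ p h1 + (2 * s) / 4 := by
      have := (hown h1 (h i + s) (by simp only [hh1]; linarith)).2
      simp only [hh1] at this
      have h4 : (h i + s - (h i + -s)) = 2 * s := by ring
      rw [h4] at this
      exact this
    have e3 : p h' ≤ p h3 := (hown h' (h i + s) (by
      have := (abs_le.mp (hs i hiF)).1; linarith)).1
    have e4 : p h3 ≤ p h2 := by
      apply multi_mono F i p hdep hmon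
      · intro j hj hji
        simp only [hh2, hh3, Function.update_of_ne hji, hh1]
        have := (abs_le.mp (hs j hj)).2
        linarith
      · simp [hh2, hh3]
    linarith
  rw [abs_le]
  constructor
  · have := key h h' hs
    linarith
  · have := key h' h (fun j hj => by rw [abs_sub_comm]; exact hs j hj)
    linarith

end Crest.Agent.R168
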