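import Mathlib
import Crest.Agent.R168.NegCorr
import Crest.Agent.R168.Sandwich

/-! A finite uniform (constant cardinality) family with pairwise negative correlation has
`1/2`-Lipschitz tilted occupation probabilities for the sup norm. -/

set_option autoImplicit false

namespace Crest.Agent.R168.UST

open Finset

variable {α : Type*} [DecidableEq α]

/-- occupation probability of `e` for the family `𝒜` tilted by the field `h`. -/
noncomputable def Pf (𝒜 : Finset (Finset α)) (e : α) (h : α → ℝ) : ℝ :=
  W 𝒜 (fun a => Real.exp (h a)) {e} / W 𝒜 (fun a => Real.exp (h a)) ∅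

lemma W_pos {𝒜 : Finset (Finset α)} (hne : 𝒜.Nonempty) (h : α → ℝ) :
    0 < W 𝒜 (fun a => Real.exp (h a)) ∅ := by
  unfold W
  apply Finset.sum_pos
  · intro A _
    exact Finset.prod_pos fun a _ => Real.exp_pos _
  · obtain ⟨A, hA⟩ := hne
    exact ⟨A, by simp [hA]⟩

lemma W_update (𝒜 : Finset (Finset α)) (h : α → ℝ) (g : α) (t : ℝ) (F : Finset α) :
    W 𝒜 (fun a => Real.exp (Function.update h g t a)) F =
      W 𝒜 (fun a => Real.exp (h a)) F +
        (Real.exp (t - h g) - 1) * W 𝒜 (fun a => Real.exp (h a)) (F ∪ {g}) := by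
  unfold W
  have h2 : (𝒜.filter (fun A => F ∪ {g} ⊆ A)) =
      (𝒜.filter (fun A => F ⊆ A)).filter (fun A => g ∈ A) := by
    ext A
    simp only [mem_filter, Finset.union_subset_iff, Finset.singleton_subset_iff]
    tauto
  rw [h2, Finset.sum_filter (p := fun A => g ∈ A), Finset.mul_sum, ← Finset.sum_add_distrib]
  refine Finset.sum_congr rfl fun A _ => ?_
  by_cases hg : g ∈ A
  · rw [if_pos hg]
    have h3 : (∏ a ∈ A, Real.exp (Function.update h g t a)) =
        Real.exp t * ∏ a ∈ A.erase g, Real.exp (h a) := by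
      rw [← Finset.mul_prod_erase A _ hg]
      congr 1
      · simp
      · refine Finset.prod_congr rfl fun a ha => ?_
        rw [Function.update_of_ne (Finset.ne_of_mem_erase ha)]
    have h4 : (∏ a ∈ A, Real.exp (h a)) =
        Real.exp (h g) * ∏ a ∈ A.erase g, Real.exp (h a) :=
      (Finset.mul_prod_erase A _ hg).symm
    rw [h3, h4, Real.exp_sub]
    field_simp
    ring
  · rw [if_neg hg, mul_zero, add_zero]
    refine Finset.prod_congr rfl fun a ha => ?_
    have hag : a ≠ g := by rintro rfl; exact hg ha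
    simp only [Function.update_of_ne hag]

theorem Pf_lip {𝒜 : Finset (Finset α)} (hNC : NC 𝒜) (hne : 𝒜.Nonempty) (k : ℕ)
    (hk : ∀ A ∈ 𝒜, A.card = k) (e : α) (h h' : α → ℝ) (s : ℝ)
    (hs : ∀ j, |h j - h' j| ≤ s) :
    |Pf 𝒜 e h - Pf 𝒜 e h'| ≤ 1 / 2 * s := by
  have := sandwich (insert e (𝒜.biUnion id)) e (Pf 𝒜 e) 0 ?_ ?_ ?_ ?_
    (Finset.mem_insert_self _ _) h h' s (fun j _ => hs j)
  · simpa using this
  · -- dependence
    intro h h' hh
    have key : ∀ F, W 𝒜 (fun a => Real.exp (h a)) F = W 𝒜 (fun a => Real.exp (h' a)) F := by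
      intro F
      unfold W
      refine Finset.sum_congr rfl fun A hA => ?_
      refine Finset.prod_congr rfl fun a ha => ?_
      have hA' := (Finset.mem_filter.mp hA).1
      have hha := hh a (Finset.mem_insert_of_mem (Finset.mem_biUnion.mpr ⟨A, hA', ha⟩))
      simp only [hha]
    unfold Pf
    rw [key, key]
  · -- monotonicity
    intro h g _ hge t ht
    unfold Pf
    rw [W_update, W_update, Finset.empty_union]
    have hρ : 0 ≤ Real.exp (t - h g) - 1 := by
      have := Real.add_one_le_exp (t - h g)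
      linarith
    have hpos := W_pos hne h
    have hg0 : 0 ≤ W 𝒜 (fun a => Real.exp (h a)) {g} :=
      W_nonneg _ (fun a => (Real.exp_pos _).le) _
    have hnc := hNC (fun a => Real.exp (h a)) (fun a => Real.exp_pos _) e g (Ne.symm hge)
    have hden : 0 < W 𝒜 (fun a => Real.exp (h a)) ∅ +
        (Real.exp (t - h g) - 1) * W 𝒜 (fun a => Real.exp (h a)) {g} := by
      have := mul_nonneg hρ hg0
      linarith
    rw [div_le_div_iff₀ hden hpos]
    have heq : ({e} ∪ {g} : Finset α) = {e, g} := rfl
    rw [heq]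
    have := mul_le_mul_of_nonneg_left hnc hρ
    nlinarith [this]
  · -- own coordinate
    intro h t ht
    have hpos := W_pos hne h
    set p := Pf 𝒜 e h with hp
    have hnum : W 𝒜 (fun a => Real.exp (h a)) {e} = p * W 𝒜 (fun a => Real.exp (h a)) ∅ := by
      rw [hp, Pf, div_mul_cancel₀ _ hpos.ne']
    have he0 : 0 ≤ W 𝒜 (fun a => Real.exp (h a)) {e} :=
      W_nonneg _ (fun a => (Real.exp_pos _).le) _
    have hle : W 𝒜 (fun a => Real.exp (h a)) {e} ≤ W 𝒜 (fun a => Real.exp (h a)) ∅ :=
      W_anti _ (fun a => (Real.exp_pos _).le) (Finset.empty_subset _)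
    have hp0 : 0 ≤ p := div_nonneg he0 hpos.le
    have hp1 : p ≤ 1 := (div_le_one hpos).mpr hle
    have hval : Pf 𝒜 e (Function.update h e t) =
        p * Real.exp (t - h e) / (1 + (Real.exp (t - h e) - 1) * p) := by
      unfold Pf
      rw [W_update, W_update, Finset.empty_union, Finset.union_self, hnum]
      have : W 𝒜 (fun a => Real.exp (h a)) ∅ +
          (Real.exp (t - h e) - 1) * (p * W 𝒜 (fun a => Real.exp (h a)) ∅) =
          (1 + (Real.exp (t - h e) - 1) * p) * W 𝒜 (fun a => Real.exp (h a)) ∅ := by ring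
      rw [this]
      have h2 : p * W 𝒜 (fun a => Real.exp (h a)) ∅ +
          (Real.exp (t - h e) - 1) * (p * W 𝒜 (fun a => Real.exp (h a)) ∅) =
          p * Real.exp (t - h e) * W 𝒜 (fun a => Real.exp (h a)) ∅ := by ring
      rw [h2, mul_div_mul_right _ _ hpos.ne']
    rw [hval]
    exact logistic_le p hp0 hp1 (t - h e) (by linarith)
  · -- homogeneity
    intro h c
    have key : ∀ F, W 𝒜 (fun a => Real.exp (h a + c)) F =
        Real.exp c ^ k * W 𝒜 (fun a => Real.exp (h a)) F := by
      intro F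
      unfold W
      rw [Finset.mul_sum]
      refine Finset.sum_congr rfl fun A hA => ?_
      have hA' := (Finset.mem_filter.mp hA).1
      have : (∏ a ∈ A, Real.exp (h a + c)) = ∏ a ∈ A, (Real.exp c * Real.exp (h a)) :=
        Finset.prod_congr rfl fun a _ => by rw [Real.exp_add, mul_comm]
      rw [this, Finset.prod_mul_distrib, Finset.prod_const, hk A hA']
    unfold Pf
    rw [key, key, mul_div_mul_left _ _ (pow_pos (Real.exp_pos c) k).ne', sub_self]
    simp

end Crest.Agent.R168.UST
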