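import Crest.Agent.R168.Defs

/-! T5: strongly Rayleigh implies property (L). (helper941) -/

set_option autoImplicit false

namespace Crest.Agent.R168.SRaux
open MeasureTheory ProbabilityTheory Filter Topology Metric Complex ComplexConjugate

theorem slit_schwarz {Q : ℂ → ℂ} {R : ℝ} (hR : 0 < R) (hd : DifferentiableOn ℂ Q (ball 0 R))
    (hm : ∀ s ∈ ball (0:ℂ) R, Q s ∈ slitPlane) (q0 : ℝ) (hq : Q 0 = (q0:ℂ)) :
    ‖deriv Q 0‖ ≤ 4 / R * q0 := by
  have h0mem : (0:ℂ) ∈ ball (0:ℂ) R := mem_ball_self hR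
  have hq0 : 0 < q0 := by
    have := hm 0 h0mem
    rw [hq] at this
    rcases this with h | h
    · simpa using h
    · simp at h
  -- square root
  set H : ℂ → ℂ := fun s => Complex.exp (Complex.log (Q s) / 2) with hH
  have hHd : DifferentiableOn ℂ H (ball 0 R) := by
    intro s hs
    have h1 : DifferentiableWithinAt ℂ (fun s => Complex.log (Q s)) (ball 0 R) s :=
      (hd s hs).clog (hm s hs)
    exact (h1.div_const 2).cexp
  have hHsq : ∀ s ∈ ball (0:ℂ) R, H s * H s = Q s := by
    intro s hs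
    simp only [hH]
    rw [← Complex.exp_add]
    have : Complex.log (Q s) / 2 + Complex.log (Q s) / 2 = Complex.log (Q s) := by ring
    rw [this, Complex.exp_log (slitPlane_ne_zero (hm s hs))]
  have hHre : ∀ s ∈ ball (0:ℂ) R, 0 < (H s).re := by
    intro s hs
    simp only [hH]
    rw [Complex.exp_re]
    apply mul_pos (Real.exp_pos _)
    have harg := (Complex.mem_slitPlane_iff_arg.1 (hm s hs)).1
    have h1 : (Complex.log (Q s) / 2).im = (Q s).arg / 2 := by
      simp [Complex.log_im]
    rw [h1]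
    apply Real.cos_pos_of_mem_Ioo
    constructor
    · have := Complex.neg_pi_lt_arg (Q s); linarith
    · have := lt_of_le_of_ne (Complex.arg_le_pi (Q s)) harg; linarith
  set a : ℝ := Real.sqrt q0 with ha
  have ha0 : 0 < a := Real.sqrt_pos.2 hq0
  have hH0 : H 0 = (a:ℂ) := by
    simp only [hH]
    rw [hq, ← Complex.ofReal_log hq0.le]
    rw [ha, Real.sqrt_eq_rpow, Real.rpow_def_of_pos hq0]
    push_cast
    congr 1
    ring
  have haa : a * a = q0 := Real.mul_self_sqrt hq0.le
  -- Cayley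
  set φ : ℂ → ℂ := fun s => (H s - a) / (H s + a) with hφ
  have hden : ∀ s ∈ ball (0:ℂ) R, H s + a ≠ 0 := by
    intro s hs h
    have := congrArg Complex.re h
    simp at this
    linarith [hHre s hs]
  have hφd : DifferentiableOn ℂ φ (ball 0 R) := by
    apply DifferentiableOn.div
    · exact hHd.sub_const _
    · exact hHd.add_const _
    · exact hden
  have hφ0 : φ 0 = 0 := by simp [hφ, hH0]
  have hmaps : Set.MapsTo φ (ball 0 R) (closedBall (φ 0) 1) := by
    intro s hs
    rw [hφ0, mem_closedBall_zero_iff]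
    simp only [hφ]
    rw [norm_div, div_le_one (norm_pos_iff.2 (hden s hs))]
    rw [Complex.norm_def, Complex.norm_def]
    apply Real.sqrt_le_sqrt
    rw [Complex.normSq_apply, Complex.normSq_apply]
    simp
    have := mul_pos ha0 (hHre s hs)
    nlinarith
  have key := Complex.norm_deriv_le_div_of_mapsTo_ball hφd hmaps hR
  -- derivatives
  have hHat : HasDerivAt H (deriv H 0) 0 :=
    (hHd.differentiableAt (ball_mem_nhds 0 hR)).hasDerivAt
  have hQder : deriv Q 0 = 2 * a * deriv H 0 := by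
    have h1 : HasDerivAt (fun s => H s * H s) (deriv H 0 * H 0 + H 0 * deriv H 0) 0 := hHat.mul hHat
    have h2 : Q =ᶠ[𝓝 0] fun s => H s * H s := by
      filter_upwards [ball_mem_nhds (0:ℂ) hR] with s hs
      exact (hHsq s hs).symm
    rw [h2.deriv_eq, h1.deriv, hH0]
    ring
  have hφder : deriv φ 0 = deriv H 0 / (2 * a) := by
    have h1 : HasDerivAt φ ((deriv H 0 * (H 0 + a) - (H 0 - a) * deriv H 0) / (H 0 + a)^2) 0 := by
      apply HasDerivAt.fun_div
      · exact hHat.sub_const _
      · exact hHat.add_const _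
      · exact hden 0 h0mem
    rw [h1.deriv, hH0]
    have : (a:ℂ) ≠ 0 := by exact_mod_cast ha0.ne'
    field_simp
    ring
  rw [hφder, norm_div] at key
  rw [hQder]
  have h2a : ‖(2 * a : ℂ)‖ = 2 * a := by
    rw [norm_mul]; simp [abs_of_pos ha0]
  rw [h2a] at key
  rw [norm_mul, h2a, ← haa]
  rw [div_le_iff₀ (by positivity)] at key
  calc 2 * a * ‖deriv H 0‖ ≤ 2 * a * (1 / R * (2 * a)) := by gcongr
    _ = 4 / R * (a * a) := by ring

open scoped Classical in
/-- weight of configurations with parameter `l` in front of the occupied part, external field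
`h j + s * v j` -/
noncomputable def PP {V : Type*} (c : Finset V → ℝ) (F : Finset V) (i : V) (v h : V → ℝ) (l s : ℂ) : ℂ :=
  ∑ S ∈ F.powerset, (c S : ℂ) * (if i ∈ S then l else 1) * Complex.exp (∑ j ∈ S, ((h j : ℂ) + s * v j))

/-- half-plane property of the generating polynomial -/
def Stab {V : Type*} (c : Finset V → ℝ) (F : Finset V) : Prop :=
  ∀ z : V → ℂ, (∀ j ∈ F, 0 < (z j).im) → ∑ S ∈ F.powerset, (c S : ℂ) * ∏ j ∈ S, z j ≠ 0

variable {V : Type*} {c : Finset V → ℝ} {F : Finset V} {i : V}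

lemma PP_eq_gen (v h : V → ℝ) (l s : ℂ) (z : V → ℂ)
    (hz : ∀ j ∈ F, j ≠ i → z j = Complex.exp ((h j : ℂ) + s * v j))
    (hzi : z i = l * Complex.exp ((h i : ℂ) + s * v i)) :
    PP c F i v h l s = ∑ S ∈ F.powerset, (c S : ℂ) * ∏ j ∈ S, z j := by
  classical
  unfold PP
  apply Finset.sum_congr rfl
  intro S hS
  rw [mul_assoc]
  congr 1
  rw [Complex.exp_sum]
  have hSF := Finset.mem_powerset.1 hS
  by_cases hiS : i ∈ S
  · rw [if_pos hiS, ← Finset.mul_prod_erase S _ hiS, ← Finset.mul_prod_erase S z hiS, hzi]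
    rw [← mul_assoc]
    congr 1
    apply Finset.prod_congr rfl
    intro j hj
    rw [hz j (hSF (Finset.mem_of_mem_erase hj)) (Finset.ne_of_mem_erase hj)]
  · rw [if_neg hiS, one_mul]
    apply Finset.prod_congr rfl
    intro j hj
    rw [hz j (hSF hj) (fun h => hiS (h ▸ hj))]

lemma PP_conj (v h : V → ℝ) (l : ℝ) (s : ℂ) :
    PP c F i v h l (conj s) = conj (PP c F i v h l s) := by
  classical
  unfold PP
  rw [map_sum]
  apply Finset.sum_congr rfl
  intro S hS
  rw [map_mul, map_mul, Complex.conj_ofReal, ← Complex.exp_conj, map_sum]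
  congr 2
  · split_ifs <;> simp
  · apply Finset.sum_congr rfl
    intro j hj
    simp

/-- real version -/
lemma PP_real (v h : V → ℝ) (l s : ℝ) : (PP c F i v h l s).im = 0 := by
  have := PP_conj (c := c) (F := F) (i := i) v h l (s : ℂ)
  rw [Complex.conj_ofReal] at this
  exact Complex.conj_eq_iff_im.1 this.symm

lemma PP_ofReal_re (v h : V → ℝ) (l s : ℝ) :
    (((PP c F i v h l s).re : ℝ) : ℂ) = PP c F i v h l s := by
  apply Complex.ext
  · simp
  · rw [PP_real]; simp

lemma PP_shift (v h : V → ℝ) (l s : ℂ) (s0 : ℝ) :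
    PP c F i v (fun j => h j + s0 * v j) l s = PP c F i v h l (s0 + s) := by
  classical
  unfold PP
  apply Finset.sum_congr rfl
  intro S hS
  congr 2
  apply Finset.sum_congr rfl
  intro j hj
  push_cast
  ring

lemma PP_affine (v h : V → ℝ) (l s : ℂ) :
    PP c F i v h l s = PP c F i v h 0 s + l * (PP c F i v h 1 s - PP c F i v h 0 s) := by
  classical
  unfold PP
  rw [← Finset.sum_sub_distrib, Finset.mul_sum, ← Finset.sum_add_distrib]
  apply Finset.sum_congr rfl
  intro S hS
  split_ifs <;> ring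

lemma PP_differentiable (v h : V → ℝ) (l : ℂ) : Differentiable ℂ (fun s => PP c F i v h l s) := by
  classical
  unfold PP
  fun_prop

lemma PP_re_pos (hc : ∀ S, 0 ≤ c S) (hpos : ∃ S ∈ F.powerset, 0 < c S) (v h : V → ℝ) (l s : ℝ)
    (hl : 0 < l) : 0 < (PP c F i v h l s).re := by
  classical
  unfold PP
  rw [Complex.re_sum]
  obtain ⟨S, hS, hcS⟩ := hpos
  have key : ∀ T : Finset V, ((c T : ℂ) * (if i ∈ T then (l:ℂ) else 1) *
      Complex.exp (∑ j ∈ T, ((h j : ℂ) + (s:ℂ) * v j))).re
      = c T * (if i ∈ T then l else 1) * Real.exp (∑ j ∈ T, (h j + s * v j)) := by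
    intro T
    have : ((c T : ℂ) * (if i ∈ T then (l:ℂ) else 1) *
      Complex.exp (∑ j ∈ T, ((h j : ℂ) + (s:ℂ) * v j)))
      = ((c T * (if i ∈ T then l else 1) * Real.exp (∑ j ∈ T, (h j + s * v j)) : ℝ) : ℂ) := by
      push_cast
      congr 2
      split_ifs <;> simp
    rw [this, Complex.ofReal_re]
  simp_rw [key]
  apply Finset.sum_pos'
  · intro T hT
    have : (0:ℝ) ≤ (if i ∈ T then l else 1) := by split_ifs <;> linarith
    have := hc T
    positivity
  · refine ⟨S, hS, ?_⟩
    have : (0:ℝ) < (if i ∈ S then l else 1) := by split_ifs <;> linarith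
    positivity

lemma Stab.pos (hst : Stab c F) (hc : ∀ S, 0 ≤ c S) : ∃ S ∈ F.powerset, 0 < c S := by
  by_contra hcon
  push Not at hcon
  apply hst (fun _ => Complex.I) (fun j _ => by simp)
  apply Finset.sum_eq_zero
  intro S hS
  have : c S = 0 := le_antisymm (hcon S hS) (hc S)
  simp [this]

lemma im_exp_pos (x y : ℝ) (hy0 : 0 < y) (hy : y < Real.pi) (w : ℂ) (hw : w = ⟨x, y⟩) :
    0 < (Complex.exp w).im := by
  rw [hw, Complex.exp_im]
  exact mul_pos (Real.exp_pos _) (Real.sin_pos_of_pos_of_lt_pi hy0 hy)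

/-- zero-freeness in the strip, all directions equal to one -/
lemma PP_ne_zero_strip (hst : Stab c F) (hc : ∀ S, 0 ≤ c S) (h : V → ℝ) (l : ℝ) (hl : 0 < l)
    (s : ℂ) (hs : |s.im| < Real.pi) : PP c F i (fun _ => 1) h l s ≠ 0 := by
  classical
  have main : ∀ s : ℂ, 0 < s.im → s.im < Real.pi → PP c F i (fun _ => 1) h l s ≠ 0 := by
    intro s hs0 hs1
    rw [PP_eq_gen (fun _ => 1) h l s (fun j => (if j = i then (l:ℂ) else 1) *
      Complex.exp ((h j : ℂ) + s * (1:ℝ))) (fun j _ hj => by simp [hj]) (by simp)]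
    apply hst
    intro j hj
    have h1 : 0 < (Complex.exp ((h j : ℂ) + s * (1:ℝ))).im := by
      apply im_exp_pos (h j + s.re) s.im hs0 hs1
      apply Complex.ext <;> simp
    have h2 : ((if j = i then (l:ℂ) else 1) * Complex.exp ((h j : ℂ) + s * (1:ℝ))) =
      (((if j = i then l else 1 : ℝ)) : ℂ) * Complex.exp ((h j : ℂ) + s * (1:ℝ)) := by
      split_ifs <;> simp
    rw [h2, Complex.im_ofReal_mul]
    refine mul_pos ?_ h1
    split_ifs <;> linarith
  rcases lt_trichotomy s.im 0 with h1 | h1 | h1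
  · have h2 := main (conj s) (by simpa using h1) (by
      rw [abs_of_neg h1] at hs
      simpa using hs)
    rw [PP_conj] at h2
    intro h3
    exact h2 (by rw [h3, map_zero])
  · have h2 : s = ((s.re : ℝ) : ℂ) := by apply Complex.ext <;> simp [h1]
    have h3 := PP_re_pos (i := i) hc (hst.pos hc) (fun _ => 1) h l s.re hl
    intro h4
    rw [← h2, h4] at h3
    simp at h3
  · exact main s h1 (by rwa [abs_of_pos h1] at hs)

lemma ratio_mem_slit (hst : Stab c F) (hc : ∀ S, 0 ≤ c S) (h : V → ℝ) (l : ℝ) (hl : 0 < l)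
    (s : ℂ) (hs : |s.im| < Real.pi) :
    PP c F i (fun _ => 1) h l s / PP c F i (fun _ => 1) h (1:ℝ) s ∈ slitPlane := by
  by_contra hcon
  rw [Complex.mem_slitPlane_iff] at hcon
  push Not at hcon
  obtain ⟨hre, him⟩ := hcon
  set w := PP c F i (fun _ => 1) h l s / PP c F i (fun _ => 1) h (1:ℝ) s with hw
  have h1 : PP c F i (fun _ => 1) h (1:ℝ) s ≠ 0 := PP_ne_zero_strip hst hc h 1 one_pos s hs
  have h2 : PP c F i (fun _ => 1) h l s = w * PP c F i (fun _ => 1) h (1:ℝ) s := by
    rw [hw]; field_simp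
  set m : ℝ := - w.re with hm
  have hm0 : 0 ≤ m := by rw [hm]; linarith
  have h3 : w = -(m:ℂ) := by
    apply Complex.ext
    · simp [hm]
    · simp [him]
  have hpos : 0 < (l + m) / (1 + m) := by positivity
  have h4 := PP_ne_zero_strip (i := i) hst hc h ((l + m) / (1 + m)) hpos s hs
  apply h4
  have h1m : (1 + (m:ℂ)) ≠ 0 := by
    exact_mod_cast (by positivity : (1 + m) ≠ 0)
  rw [PP_affine] at h2 ⊢
  rw [h3, PP_affine (l := ((1:ℝ):ℂ))] at h2
  push_cast at h2 ⊢
  have h5 : (1 + (m:ℂ)) * (PP c F i (fun _ => 1) h 0 s + (l + m) / (1 + m) *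
      (PP c F i (fun _ => 1) h 1 s - PP c F i (fun _ => 1) h 0 s)) = 0 := by
    have : (1 + (m:ℂ)) * (PP c F i (fun _ => 1) h 0 s + (l + m) / (1 + m) *
      (PP c F i (fun _ => 1) h 1 s - PP c F i (fun _ => 1) h 0 s))
      = (1 + (m:ℂ)) * PP c F i (fun _ => 1) h 0 s + (l + m) *
      (PP c F i (fun _ => 1) h 1 s - PP c F i (fun _ => 1) h 0 s) := by
      field_simp
    rw [this]
    linear_combination h2
  rcases mul_eq_zero.1 h5 with h6 | h6
  · exact absurd h6 h1m
  · exact h6

/-- the real ratio -/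
noncomputable def qq (c : Finset V → ℝ) (F : Finset V) (i : V) (h : V → ℝ) (l s : ℝ) : ℝ :=
  (PP c F i (fun _ => 1) h l s / PP c F i (fun _ => 1) h (1:ℝ) s).re


lemma qc_differentiableAt (hst : Stab c F) (hc : ∀ S, 0 ≤ c S) (h : V → ℝ) (l : ℝ)
    (s : ℂ) (hs : |s.im| < Real.pi) :
    DifferentiableAt ℂ (fun s => PP c F i (fun _ => 1) h l s / PP c F i (fun _ => 1) h (1:ℝ) s) s := by
  apply DifferentiableAt.fun_div
  · exact (PP_differentiable (fun _ => 1) h l) s
  · exact (PP_differentiable (fun _ => 1) h ((1:ℝ):ℂ)) s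
  · exact PP_ne_zero_strip hst hc h 1 one_pos s hs

lemma qc_real (h : V → ℝ) (l s : ℝ) :
    PP c F i (fun _ => 1) h l s / PP c F i (fun _ => 1) h (1:ℝ) s = ((qq c F i h l s : ℝ) : ℂ) := by
  apply Complex.ext
  · simp [qq]
  · rw [Complex.div_im, PP_real, PP_real]
    simp

lemma qc_deriv_le (hst : Stab c F) (hc : ∀ S, 0 ≤ c S) (h : V → ℝ) (l : ℝ) (hl : 0 < l) (s0 : ℝ) :
    ‖deriv (fun s => PP c F i (fun _ => 1) h l s / PP c F i (fun _ => 1) h (1:ℝ) s) (s0:ℂ)‖
      ≤ 4 / 3 * qq c F i h l s0 := by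
  set Q : ℂ → ℂ := fun s => PP c F i (fun _ => 1) h l ((s0:ℂ) + s) /
    PP c F i (fun _ => 1) h (1:ℝ) ((s0:ℂ) + s) with hQ
  have him : ∀ s ∈ ball (0:ℂ) 3, |((s0:ℂ) + s).im| < Real.pi := by
    intro s hs
    have h1 : |s.im| ≤ ‖s‖ := Complex.abs_im_le_norm s
    have h2 : ‖s‖ < 3 := by simpa using hs
    have h3 := Real.pi_gt_three
    simp only [Complex.add_im, Complex.ofReal_im, zero_add]
    linarith
  have h1 : ‖deriv Q 0‖ ≤ 4 / 3 * qq c F i h l s0 := by
    apply slit_schwarz (by norm_num)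
    · intro s hs
      have := (qc_differentiableAt (i := i) hst hc h l ((s0:ℂ) + s) (him s hs))
      exact (this.comp s (by fun_prop : DifferentiableAt ℂ (fun s : ℂ => (s0:ℂ) + s) s)).differentiableWithinAt
    · intro s hs
      exact ratio_mem_slit hst hc h l hl _ (him s hs)
    · simp only [hQ, add_zero]
      exact qc_real h l s0
  have h2 : deriv Q 0 = deriv (fun s => PP c F i (fun _ => 1) h l s / PP c F i (fun _ => 1) h (1:ℝ) s) (s0:ℂ) := by
    have := deriv_comp_const_add (f := fun s => PP c F i (fun _ => 1) h l s / PP c F i (fun _ => 1) h (1:ℝ) s) (a := (s0:ℂ)) (x := 0)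
    rw [add_zero] at this
    rw [← this]
  rwa [h2] at h1

lemma qq_le_one (hc : ∀ S, 0 ≤ c S) (hpos : ∃ S ∈ F.powerset, 0 < c S) (h : V → ℝ) (l s : ℝ)
    (hl1 : l ≤ 1) : qq c F i h l s ≤ 1 := by
  classical
  have h1 := PP_re_pos (i := i) hc hpos (fun _ => 1) h 1 s one_pos
  have h3 : ((PP c F i (fun _ => 1) h l s).re : ℂ) = PP c F i (fun _ => 1) h l s := PP_ofReal_re _ _ _ _
  have h4 : ((PP c F i (fun _ => 1) h (1:ℝ) s).re : ℂ) = PP c F i (fun _ => 1) h (1:ℝ) s :=
    PP_ofReal_re _ _ _ _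
  have h5 : qq c F i h l s = (PP c F i (fun _ => 1) h l s).re / (PP c F i (fun _ => 1) h (1:ℝ) s).re := by
    unfold qq
    rw [← h3, ← h4, ← Complex.ofReal_div, Complex.ofReal_re]
    simp
  rw [h5, div_le_one h1]
  unfold PP
  rw [Complex.re_sum, Complex.re_sum]
  apply Finset.sum_le_sum
  intro T hT
  have key : ∀ l : ℝ, ((c T : ℂ) * (if i ∈ T then (l:ℂ) else 1) *
      Complex.exp (∑ j ∈ T, ((h j : ℂ) + (s:ℂ) * ((1:ℝ):ℂ)))).re
      = c T * (if i ∈ T then l else 1) * Real.exp (∑ j ∈ T, (h j + s * 1)) := by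
    intro l
    have : ((c T : ℂ) * (if i ∈ T then (l:ℂ) else 1) *
      Complex.exp (∑ j ∈ T, ((h j : ℂ) + (s:ℂ) * ((1:ℝ):ℂ))))
      = ((c T * (if i ∈ T then l else 1) * Real.exp (∑ j ∈ T, (h j + s * 1)) : ℝ) : ℂ) := by
      push_cast
      congr 2
      split_ifs <;> simp
    rw [this, Complex.ofReal_re]
  rw [key, key]
  have := hc T
  gcongr
  split_ifs <;> linarith

lemma qq_lip (hst : Stab c F) (hc : ∀ S, 0 ≤ c S) (h : V → ℝ) (l : ℝ) (hl : 0 < l) (hl1 : l ≤ 1)
    (s : ℝ) : |qq c F i h l s - qq c F i h l 0| ≤ 4 / 3 * |s| := by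
  have hd : ∀ x : ℝ, HasDerivAt (fun s : ℝ => qq c F i h l s)
      (deriv (fun s => PP c F i (fun _ => 1) h l s / PP c F i (fun _ => 1) h (1:ℝ) s) (x:ℂ)).re x := by
    intro x
    have h1 := (qc_differentiableAt (i := i) hst hc h l (x:ℂ) (by simp [Real.pi_pos])).hasDerivAt
    exact h1.real_of_complex
  have hb : ∀ x : ℝ, ‖(deriv (fun s => PP c F i (fun _ => 1) h l s / PP c F i (fun _ => 1) h (1:ℝ) s) (x:ℂ)).re‖ ≤ 4 / 3 := by
    intro x
    have h1 := qc_deriv_le (i := i) hst hc h l hl x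
    have h2 := qq_le_one (i := i) hc (hst.pos hc) h l x hl1
    calc _ ≤ _ := Complex.abs_re_le_norm _
      _ ≤ _ := h1
      _ ≤ _ := by nlinarith
  have := Convex.norm_image_sub_le_of_norm_hasDerivWithin_le (f := fun s : ℝ => qq c F i h l s)
    (s := Set.univ) (x := 0) (y := s) (C := 4 / 3)
    (fun x _ => (hd x).hasDerivWithinAt) (fun x _ => hb x) convex_univ (Set.mem_univ _) (Set.mem_univ _)
  simpa using this


/-! ### monotonicity -/

lemma re_deriv_nonneg {r : ℂ → ℂ} {r' : ℂ} {x : ℝ} (hr : HasDerivAt r r' (x:ℂ))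
    (h0 : (r x).im = 0)
    (him : ∀ᶠ e : ℝ in 𝓝[>] 0, 0 ≤ (r (x + e * I)).im) : 0 ≤ r'.re := by
  have h1 : HasDerivAt (fun e : ℂ => r ((x:ℂ) + e * I)) (r' * I) ((0:ℝ):ℂ) := by
    have h2 : HasDerivAt (fun e : ℂ => (x:ℂ) + e * I) (1 * I) ((0:ℝ):ℂ) :=
      ((hasDerivAt_id _).mul_const I).const_add (x:ℂ)
    have h3 : HasDerivAt r r' ((x:ℂ) + ((0:ℝ):ℂ) * I) := by simpa using hr
    have h3' := HasDerivAt.comp ((0:ℝ):ℂ) (h₂ := r) (h := fun e : ℂ => (x:ℂ) + e * I) h3 h2
    simpa [Function.comp_def] using h3'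
  have h4 : HasDerivAt (fun e : ℝ => (r ((x:ℂ) + e * I)).im) (r'.re) 0 := by
    have h5 : HasDerivAt (fun e : ℂ => -(I * r ((x:ℂ) + e * I))) (-(I * (r' * I))) ((0:ℝ):ℂ) :=
      (h1.const_mul I).neg
    have h6 := h5.real_of_complex
    convert h6 using 1
    · funext e; simp
    · simp
  have h7 := h4.tendsto_slope_zero_right
  simp only [zero_add] at h7
  apply ge_of_tendsto h7
  filter_upwards [him, self_mem_nhdsWithin] with e he he0
  have he0' : (0:ℝ) < e := he0
  rw [smul_eq_mul]
  apply mul_nonneg (by positivity)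
  simpa [h0] using he

/-- `A/B` where `P_l = A + l B` -/
lemma ratio_im_nonneg (hst : Stab c F) (hi : i ∈ F) (h v : V → ℝ) (hv : ∀ j ∈ F, j ≠ i → 0 < v j)
    (hvi : v i = 0) (s : ℂ) (hs : 0 < s.im) (hs1 : ∀ j ∈ F, j ≠ i → s.im * v j < Real.pi)
    (hB : PP c F i v h 1 s - PP c F i v h 0 s ≠ 0) :
    0 ≤ (PP c F i v h 0 s / (PP c F i v h 1 s - PP c F i v h 0 s)).im := by
  classical
  by_contra hcon
  push Not at hcon
  set B := PP c F i v h 1 s - PP c F i v h 0 s with hBdef
  set w := PP c F i v h 0 s / B with hw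
  have h1 : PP c F i v h (-w) s = 0 := by
    rw [PP_affine, ← hBdef, hw]
    field_simp
    ring
  rw [PP_eq_gen v h (-w) s (fun j => (if j = i then -w else 1) *
      Complex.exp ((h j : ℂ) + s * v j)) (fun j _ hj => by simp [hj]) (by simp)] at h1
  refine hst _ ?_ h1
  intro j hj
  by_cases hji : j = i
  · subst hji
    simp only [if_true, hvi]
    have : Complex.exp ((h j : ℂ) + s * ((0:ℝ):ℂ)) = ((Real.exp (h j) : ℝ) : ℂ) := by
      push_cast; simp
    rw [this, Complex.im_mul_ofReal]
    apply mul_pos _ (Real.exp_pos _)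
    simpa using hcon
  · simp only [hji, if_false, one_mul]
    apply im_exp_pos (h j + s.re * v j) (s.im * v j) (mul_pos hs (hv j hj hji)) (hs1 j hj hji)
    apply Complex.ext <;> simp


/-- total weight -/
noncomputable def zw (c : Finset V → ℝ) (F : Finset V) (h : V → ℝ) : ℝ :=
  ∑ S ∈ F.powerset, c S * Real.exp (∑ j ∈ S, h j)

open scoped Classical in
/-- occupied weight -/
noncomputable def zo (c : Finset V → ℝ) (F : Finset V) (i : V) (h : V → ℝ) : ℝ :=
  ∑ S ∈ F.powerset, if i ∈ S then c S * Real.exp (∑ j ∈ S, h j) else 0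

lemma PP_eq_zw (v h : V → ℝ) (l s : ℝ) :
    PP c F i v h l s = (((zw c F (fun j => h j + s * v j) - zo c F i (fun j => h j + s * v j))
      + l * zo c F i (fun j => h j + s * v j) : ℝ) : ℂ) := by
  classical
  unfold PP zw zo
  rw [← Finset.sum_sub_distrib, Finset.mul_sum, ← Finset.sum_add_distrib, Complex.ofReal_sum]
  apply Finset.sum_congr rfl
  intro S hS
  split_ifs
  · simp only [Complex.ofReal_add, Complex.ofReal_sub, Complex.ofReal_mul, Complex.ofReal_exp,
      Complex.ofReal_sum]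
    ring
  · simp only [Complex.ofReal_add, Complex.ofReal_sub, Complex.ofReal_mul, Complex.ofReal_exp,
      Complex.ofReal_sum, Complex.ofReal_zero]
    ring

lemma zw_pos (hc : ∀ S, 0 ≤ c S) (hpos : ∃ S ∈ F.powerset, 0 < c S) (h : V → ℝ) : 0 < zw c F h := by
  unfold zw
  obtain ⟨S, hS, hcS⟩ := hpos
  apply Finset.sum_pos'
  · intro T hT
    have := hc T
    positivity
  · exact ⟨S, hS, by positivity⟩

lemma zo_nonneg (hc : ∀ S, 0 ≤ c S) (h : V → ℝ) : 0 ≤ zo c F i h := by
  classical
  unfold zo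
  apply Finset.sum_nonneg
  intro T hT
  have := hc T
  split_ifs <;> positivity

lemma zo_le_zw (hc : ∀ S, 0 ≤ c S) (h : V → ℝ) : zo c F i h ≤ zw c F h := by
  classical
  unfold zo zw
  apply Finset.sum_le_sum
  intro T hT
  have := hc T
  split_ifs
  · exact le_rfl
  · positivity

lemma zo_zero_or_pos (hc : ∀ S, 0 ≤ c S) : (∀ h, zo c F i h = 0) ∨ (∀ h, 0 < zo c F i h) := by
  classical
  by_cases hex : ∃ S ∈ F.powerset, i ∈ S ∧ 0 < c S
  · right
    intro h
    obtain ⟨S, hS, hiS, hcS⟩ := hex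
    unfold zo
    apply Finset.sum_pos'
    · intro T hT
      have := hc T
      split_ifs <;> positivity
    · refine ⟨S, hS, ?_⟩
      rw [if_pos hiS]
      positivity
  · left
    intro h
    push Not at hex
    unfold zo
    apply Finset.sum_eq_zero
    intro T hT
    split_ifs with hiT
    · have := le_antisymm (hex T hT hiT) (hc T)
      rw [this, zero_mul]
    · rfl

lemma continuous_zw : Continuous (fun h : V → ℝ => zw c F h) := by
  unfold zw
  fun_prop

lemma continuous_zo : Continuous (fun h : V → ℝ => zo c F i h) := by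
  classical
  unfold zo
  apply continuous_finsetSum
  intro T hT
  split_ifs
  · fun_prop
  · fun_prop

/-- occupation probability -/
noncomputable def oc (c : Finset V → ℝ) (F : Finset V) (i : V) (h : V → ℝ) : ℝ := zo c F i h / zw c F h

/-- strict monotone directions -/
lemma oc_anti_strict (hst : Stab c F) (hc : ∀ S, 0 ≤ c S) (hi : i ∈ F) (h v : V → ℝ)
    (hv : ∀ j ∈ F, j ≠ i → 0 < v j) (hvi : v i = 0) :
    oc c F i (fun j => h j + v j) ≤ oc c F i h := by
  rcases zo_zero_or_pos (c := c) (F := F) (i := i) hc with hz | hz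
  · simp [oc, hz]
  have hpos := hst.pos hc
  set r : ℂ → ℂ := fun s => PP c F i v h 0 s / (PP c F i v h 1 s - PP c F i v h 0 s) with hr
  have hB : ∀ s : ℝ, PP c F i v h 1 s - PP c F i v h 0 s = ((zo c F i (fun j => h j + s * v j) : ℝ) : ℂ) := by
    intro s
    have h1 := PP_eq_zw (c := c) (F := F) (i := i) v h 1 s
    have h2 := PP_eq_zw (c := c) (F := F) (i := i) v h 0 s
    simp only [Complex.ofReal_one, Complex.ofReal_zero] at h1 h2
    rw [h1, h2]
    push_cast
    ring
  have hB0 : ∀ s : ℝ, PP c F i v h 1 s - PP c F i v h 0 s ≠ 0 := by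
    intro s
    rw [hB]
    exact_mod_cast (hz _).ne'
  have hrr : ∀ s : ℝ, r s = (((zw c F (fun j => h j + s * v j) - zo c F i (fun j => h j + s * v j)) /
      zo c F i (fun j => h j + s * v j) : ℝ) : ℂ) := by
    intro s
    simp only [hr]
    rw [hB]
    have h2 := PP_eq_zw (c := c) (F := F) (i := i) v h 0 s
    simp only [Complex.ofReal_zero] at h2
    rw [h2]
    push_cast
    ring
  have hdiff : ∀ s : ℝ, DifferentiableAt ℂ r (s:ℂ) := by
    intro s
    apply DifferentiableAt.fun_div
    · exact (PP_differentiable v h 0) _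
    · exact ((PP_differentiable v h 1).sub (PP_differentiable v h 0)) _
    · exact hB0 s
  have hderiv : ∀ s : ℝ, HasDerivAt (fun s : ℝ => (r s).re) (deriv r s).re s := fun s =>
    (hdiff s).hasDerivAt.real_of_complex
  have hnonneg : ∀ s : ℝ, 0 ≤ (deriv r (s:ℂ)).re := by
    intro s
    apply re_deriv_nonneg (hdiff s).hasDerivAt
    · rw [hrr]; exact Complex.ofReal_im _
    · -- small imaginary perturbation
      have h1 : ∀ᶠ e : ℝ in 𝓝[>] 0, ∀ j ∈ F, j ≠ i → e * v j < Real.pi := by
        have h2 : ∀ j ∈ F, ∀ᶠ e : ℝ in 𝓝[>] 0, (j ≠ i → e * v j < Real.pi) := by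
          intro j hj
          have h3 : Tendsto (fun e : ℝ => e * v j) (𝓝[>] 0) (𝓝 (0 * v j)) :=
            ((continuous_id.mul continuous_const).tendsto 0).mono_left nhdsWithin_le_nhds
          rw [zero_mul] at h3
          filter_upwards [h3.eventually (gt_mem_nhds Real.pi_pos)] with e he _
          exact he
        have h4 := (Finset.eventually_all F).2 h2
        filter_upwards [h4] with e he j hj hji
        exact he j hj hji
      have h2 : ∀ᶠ e : ℝ in 𝓝[>] 0, PP c F i v h 1 (s + e * I) - PP c F i v h 0 (s + e * I) ≠ 0 := by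
        have hcont : Continuous (fun e : ℝ => PP c F i v h 1 (s + e * I) - PP c F i v h 0 (s + e * I)) := by
          have := ((PP_differentiable (c := c) (F := F) (i := i) v h 1).sub
            (PP_differentiable (c := c) (F := F) (i := i) v h 0)).continuous
          exact this.comp (by fun_prop : Continuous (fun e : ℝ => (s:ℂ) + e * I))
        have h3 := (hcont.tendsto 0).mono_left (nhdsWithin_le_nhds (s := Set.Ioi 0))
        apply h3.eventually_ne
        simpa using hB0 s
      filter_upwards [h1, h2, self_mem_nhdsWithin] with e he1 he2 he3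
      have he3' : (0:ℝ) < e := he3
      apply ratio_im_nonneg hst hi h v hv hvi
      · simpa using he3'
      · intro j hj hji
        simpa using he1 j hj hji
      · exact he2
  have hmono : Monotone (fun s : ℝ => (r s).re) := by
    apply monotone_of_deriv_nonneg
    · exact fun s => (hderiv s).differentiableAt
    · intro s
      rw [(hderiv s).deriv]
      exact hnonneg s
  have h01 := hmono zero_le_one
  simp only [hrr, Complex.ofReal_re] at h01
  simp only [zero_mul, one_mul, add_zero] at h01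
  unfold oc
  have hw1 := zw_pos hc hpos h
  have hw2 := zw_pos hc hpos (fun j => h j + v j)
  have ho1 := hz h
  have ho2 := hz (fun j => h j + v j)
  rw [div_le_div_iff₀ ho1 ho2] at h01
  rw [div_le_div_iff₀ hw2 hw1]
  linarith

lemma oc_congr {h h' : V → ℝ} (hh : ∀ j ∈ F, h j = h' j) : oc c F i h = oc c F i h' := by
  classical
  unfold oc zo zw
  have : ∀ S ∈ F.powerset, ∑ j ∈ S, h j = ∑ j ∈ S, h' j := by
    intro S hS
    apply Finset.sum_congr rfl
    intro j hj
    exact hh j (Finset.mem_powerset.1 hS hj)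
  congr 1
  · apply Finset.sum_congr rfl
    intro S hS
    rw [this S hS]
  · apply Finset.sum_congr rfl
    intro S hS
    rw [this S hS]

lemma oc_anti (hst : Stab c F) (hc : ∀ S, 0 ≤ c S) (hi : i ∈ F) (h h' : V → ℝ)
    (hv : ∀ j ∈ F, j ≠ i → h j ≤ h' j) (hvi : h i = h' i) :
    oc c F i h' ≤ oc c F i h := by
  classical
  have h1 : ∀ d : ℝ, 0 < d → oc c F i (fun j => h j + (if j = i then 0 else (h' j - h j) + d)) ≤ oc c F i h := by
    intro d hd
    apply oc_anti_strict hst hc hi
    · intro j hj hji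
      rw [if_neg hji]
      linarith [hv j hj hji]
    · simp
  have hcont : Continuous (fun d : ℝ => oc c F i (fun j => h j + (if j = i then 0 else (h' j - h j) + d))) := by
    unfold oc
    apply Continuous.div
    · apply continuous_zo.comp
      apply continuous_pi
      intro j
      split_ifs <;> fun_prop
    · apply continuous_zw.comp
      apply continuous_pi
      intro j
      split_ifs <;> fun_prop
    · intro d
      exact (zw_pos hc (hst.pos hc) _).ne'
  have h2 := (hcont.tendsto 0).mono_left (nhdsWithin_le_nhds (s := Set.Ioi 0))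
  have h3 : oc c F i (fun j => h j + (if j = i then 0 else (h' j - h j) + 0)) ≤ oc c F i h := by
    apply le_of_tendsto h2
    filter_upwards [self_mem_nhdsWithin] with d hd
    exact h1 d hd
  convert h3 using 1
  apply oc_congr
  intro j hj
  by_cases hji : j = i
  · subst hji; simp [hvi]
  · simp [hji]

lemma qq_eq (hst : Stab c F) (hc : ∀ S, 0 ≤ c S) (h : V → ℝ) (l s : ℝ) :
    qq c F i h l s = 1 - (1 - l) * oc c F i (fun j => h j + s) := by
  have hw := (zw_pos hc (hst.pos hc) (fun j => h j + s)).ne'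
  unfold qq oc
  rw [PP_eq_zw, PP_eq_zw, ← Complex.ofReal_div, Complex.ofReal_re]
  simp only [mul_one, one_mul, sub_add_cancel]
  field_simp
  ring

lemma oc_shift (hst : Stab c F) (hc : ∀ S, 0 ≤ c S) (h : V → ℝ) (s : ℝ) :
    |oc c F i (fun j => h j + s) - oc c F i h| ≤ 4 / 3 * |s| := by
  have key : ∀ l : ℝ, 0 < l → l < 1 → (1 - l) * |oc c F i (fun j => h j + s) - oc c F i h| ≤ 4 / 3 * |s| := by
    intro l hl hl1
    have h1 := qq_lip (i := i) hst hc h l hl hl1.le s
    rw [qq_eq hst hc, qq_eq hst hc] at h1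
    simp only [add_zero] at h1
    have h2 : 1 - (1 - l) * oc c F i (fun j => h j + s) - (1 - (1 - l) * oc c F i (fun j => h j))
      = -((1 - l) * (oc c F i (fun j => h j + s) - oc c F i h)) := by ring
    rw [h2, abs_neg, abs_mul, abs_of_pos (by linarith : 0 < 1 - l)] at h1
    exact h1
  have hlim : Tendsto (fun l : ℝ => (1 - l) * |oc c F i (fun j => h j + s) - oc c F i h|) (𝓝[>] 0)
      (𝓝 ((1 - 0) * |oc c F i (fun j => h j + s) - oc c F i h|)) := by
    apply Tendsto.mono_left _ (nhdsWithin_le_nhds (s := Set.Ioi (0:ℝ)))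
    apply Continuous.tendsto
    fun_prop
  rw [sub_zero, one_mul] at hlim
  apply le_of_tendsto hlim
  filter_upwards [Ioo_mem_nhdsGT (show (0:ℝ) < 1 by norm_num)] with l hl
  exact key l hl.1 hl.2

lemma logistic_lip (p u : ℝ) (hp0 : 0 ≤ p) (hp1 : p ≤ 1) :
    |Real.exp u * p / (1 - p + Real.exp u * p) - p| ≤ 1 / 4 * |u| := by
  have hden : ∀ x : ℝ, 0 < 1 - p + Real.exp x * p := by
    intro x
    rcases hp0.eq_or_lt with h | h
    · rw [← h]; norm_num
    · have := mul_pos (Real.exp_pos x) h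
      linarith
  have hd : ∀ x : ℝ, HasDerivAt (fun x => Real.exp x * p / (1 - p + Real.exp x * p))
      ((Real.exp x * p * (1 - p + Real.exp x * p) - Real.exp x * p * (Real.exp x * p)) /
        (1 - p + Real.exp x * p) ^ 2) x := by
    intro x
    apply HasDerivAt.fun_div
    · exact (Real.hasDerivAt_exp x).mul_const p
    · exact ((Real.hasDerivAt_exp x).mul_const p).const_add _
    · exact (hden x).ne'
  have hb : ∀ x : ℝ, ‖(Real.exp x * p * (1 - p + Real.exp x * p) - Real.exp x * p * (Real.exp x * p)) /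
        (1 - p + Real.exp x * p) ^ 2‖ ≤ 1 / 4 := by
    intro x
    rw [Real.norm_eq_abs, abs_of_nonneg]
    · rw [div_le_iff₀ (by have := hden x; positivity)]
      nlinarith [sq_nonneg ((1 - p) - Real.exp x * p)]
    · apply div_nonneg _ (by positivity)
      have : 0 ≤ Real.exp x * p := by positivity
      nlinarith
  have := Convex.norm_image_sub_le_of_norm_hasDerivWithin_le
    (f := fun x => Real.exp x * p / (1 - p + Real.exp x * p))
    (s := Set.univ) (x := 0) (y := u) (C := 1 / 4)
    (fun x _ => (hd x).hasDerivWithinAt) (fun x _ => hb x) convex_univ (Set.mem_univ _) (Set.mem_univ _)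
  simpa using this

lemma oc_update (hst : Stab c F) (hc : ∀ S, 0 ≤ c S) (h h' : V → ℝ) (hh : ∀ j ∈ F, j ≠ i → h' j = h j) :
    |oc c F i h' - oc c F i h| ≤ 1 / 4 * |h' i - h i| := by
  classical
  have hpos := hst.pos hc
  have hw := zw_pos hc hpos h
  have hzo : zo c F i h' = Real.exp (h' i - h i) * zo c F i h := by
    unfold zo
    rw [Finset.mul_sum]
    apply Finset.sum_congr rfl
    intro S hS
    split_ifs with hiS
    · rw [← Finset.add_sum_erase S h hiS, ← Finset.add_sum_erase S h' hiS]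
      have : ∑ j ∈ S.erase i, h' j = ∑ j ∈ S.erase i, h j := by
        apply Finset.sum_congr rfl
        intro j hj
        exact hh j (Finset.mem_powerset.1 hS (Finset.mem_of_mem_erase hj)) (Finset.ne_of_mem_erase hj)
      rw [this, Real.exp_add, Real.exp_add]
      have h3 : Real.exp (h' i) = Real.exp (h' i - h i) * Real.exp (h i) := by
        rw [← Real.exp_add]; ring_nf
      rw [h3]; ring
    · simp
  have hzw : zw c F h' - zo c F i h' = zw c F h - zo c F i h := by
    unfold zw zo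
    rw [← Finset.sum_sub_distrib, ← Finset.sum_sub_distrib]
    apply Finset.sum_congr rfl
    intro S hS
    split_ifs with hiS
    · ring
    · congr 2
      congr 1
      apply Finset.sum_congr rfl
      intro j hj
      exact hh j (Finset.mem_powerset.1 hS hj) (fun h => hiS (h ▸ hj))
  have hp0 : 0 ≤ oc c F i h := div_nonneg (zo_nonneg hc h) hw.le
  have hp1 : oc c F i h ≤ 1 := (div_le_one hw).2 (zo_le_zw hc h)
  have key := logistic_lip (oc c F i h) (h' i - h i) hp0 hp1
  have : oc c F i h' = Real.exp (h' i - h i) * oc c F i h / (1 - oc c F i h + Real.exp (h' i - h i) * oc c F i h) := by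
    have hzw' : zw c F h' = zw c F h - zo c F i h + Real.exp (h' i - h i) * zo c F i h := by
      rw [← hzo]; linarith
    unfold oc
    rw [hzw', hzo]
    have hw' := zw_pos hc hpos h'
    rw [hzw'] at hw'
    have e1 : 1 - zo c F i h / zw c F h + Real.exp (h' i - h i) * (zo c F i h / zw c F h)
      = (zw c F h - zo c F i h + Real.exp (h' i - h i) * zo c F i h) / zw c F h := by
      field_simp
    rw [e1]
    field_simp
  rw [this]
  exact key

lemma oc_le (hst : Stab c F) (hc : ∀ S, 0 ≤ c S) (hi : i ∈ F) (h h' : V → ℝ) (s : ℝ)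
    (hs : ∀ j ∈ F, |h j - h' j| ≤ s) : oc c F i h' ≤ oc c F i h + 2 * s := by
  classical
  have hs0 : 0 ≤ s := le_trans (abs_nonneg _) (hs i hi)
  have h1 := oc_shift (i := i) hst hc h (-s)
  rw [abs_neg, abs_of_nonneg hs0] at h1
  set g : V → ℝ := fun j => if j = i then h' i else h j + -s with hg
  have h2 : |oc c F i g - oc c F i (fun j => h j + -s)| ≤ 1 / 4 * |g i - (h i + -s)| := by
    apply oc_update hst hc
    intro j hj hji
    simp [hg, hji]
  have h3 : |g i - (h i + -s)| ≤ 2 * s := by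
    simp only [hg, if_true]
    have := abs_le.1 (hs i hi)
    rw [abs_le]
    constructor <;> linarith
  have h4 : oc c F i h' ≤ oc c F i g := by
    apply oc_anti hst hc hi
    · intro j hj hji
      simp only [hg, if_neg hji]
      have := abs_le.1 (hs j hj)
      linarith
    · simp [hg]
  have h5 := (abs_le.1 h1).2
  have h6 := (abs_le.1 h2).2
  linarith

end Crest.Agent.R168.SRaux

namespace Crest.Agent.R168

open MeasureTheory ProbabilityTheory Filter Topology

theorem lipOcc_of_stronglyRayleigh {V : Type*} (ν : Measure (V → Bool)) [IsProbabilityMeasure ν]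
    (hsr : Crest.ProbabilityR.StronglyRayleigh.IsStronglyRayleigh ν) : LipOcc ν 2 := by
  intro F i hi h h' s hs
  have hst : SRaux.Stab (cyl ν F) F := by
    intro z hz
    exact hsr F z hz
  have hc : ∀ S, 0 ≤ cyl ν F S := fun S => ENNReal.toReal_nonneg
  have h1 := SRaux.oc_le hst hc hi h h' s hs
  have h2 := SRaux.oc_le hst hc hi h' h s (fun j hj => by rw [abs_sub_comm]; exact hs j hj)
  have e : ∀ h, occ (cyl ν) F i h = SRaux.oc (cyl ν F) F i h := fun h => rfl
  rw [e, e, abs_le]
  constructor <;> linarith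

end Crest.Agent.R168
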