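import Crest.Agent.R168.GT
import Crest.Agent.R168.SR

/-! T6: assembly of S0255 from `GT`, `lipOcc_of_stronglyRayleigh`, `Xi_comp`, `measurable_Xi`.
Exhaustions `E i n = i • K n` with `K n ↑ Γ`, `1 ∈ K n`. -/

set_option autoImplicit false

namespace Crest.Agent.R168

open MeasureTheory ProbabilityTheory Filter Topology

/-- a decoding of one uniform label into countably many. -/
theorem exists_decode {Y : Type*} [Nonempty Y] [MeasurableSpace Y] [StandardBorelSpace Y]
    (μ : Measure Y) [IsProbabilityMeasure μ] (V : Type*) [Countable V] :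
    ∃ dec : unitInterval → Y, Measurable dec ∧
      (Crest.ProbabilityR.Labels.labelMeasure V).map (fun x v => dec (x v)) =
        Measure.infinitePi (fun _ : V => μ) := by
  obtain ⟨f, hf, hmap⟩ := MeasureTheory.Measure.exists_measurable_map_eq μ
  refine ⟨f, hf, ?_⟩
  unfold Crest.ProbabilityR.Labels.labelMeasure
  rw [Measure.infinitePi_map_pi _ (fun _ => hf), hmap]

section aux

variable {V : Type*}

theorem measurable_Zw [Countable V] (c : Finset V → Finset V → ℝ) (F : Finset V) :
    Measurable (Zw c F) := by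
  unfold Zw
  fun_prop

theorem measurable_Zo [Countable V] (c : Finset V → Finset V → ℝ) (F : Finset V) (i : V) :
    Measurable (Zo c F i) := by
  classical
  unfold Zo
  refine Finset.measurable_sum _ fun S _ => ?_
  by_cases h : i ∈ S
  · simp only [h, if_true]
    fun_prop
  · simp only [h, if_false]
    fun_prop

theorem measurable_occ [Countable V] (c : Finset V → Finset V → ℝ) (F : Finset V) (i : V) :
    Measurable (occ c F i) := by
  unfold occ
  exact (measurable_Zo c F i).div (measurable_Zw c F)

variable {V' : Type*} [DecidableEq V']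

/-- Relabelling along an injection that preserves the cylinder masses. -/
theorem Zw_image (c : Finset V' → Finset V' → ℝ) (c' : Finset V → Finset V → ℝ) (ι : V → V')
    (hι : Function.Injective ι) (F : Finset V)
    (hc : ∀ S ∈ F.powerset, c (F.image ι) (S.image ι) = c' F S) (h : V' → ℝ) :
    Zw c (F.image ι) h = Zw c' F (h ∘ ι) := by
  unfold Zw
  rw [Finset.powerset_image, Finset.sum_image (fun S _ S' _ hS => Finset.image_injective hι hS)]
  refine Finset.sum_congr rfl fun S hS => ?_
  rw [hc S hS, Finset.sum_image (fun a _ b _ hab => hι hab)]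
  rfl

theorem Zo_image (c : Finset V' → Finset V' → ℝ) (c' : Finset V → Finset V → ℝ) (ι : V → V')
    (hι : Function.Injective ι) (F : Finset V) (i : V)
    (hc : ∀ S ∈ F.powerset, c (F.image ι) (S.image ι) = c' F S) (h : V' → ℝ) :
    Zo c (F.image ι) (ι i) h = Zo c' F i (h ∘ ι) := by
  classical
  unfold Zo
  rw [Finset.powerset_image, Finset.sum_image (fun S _ S' _ hS => Finset.image_injective hι hS)]
  refine Finset.sum_congr rfl fun S hS => ?_
  have hmem : ι i ∈ S.image ι ↔ i ∈ S := by
    simp [hι.eq_iff]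
  simp only [hmem]
  rw [hc S hS, Finset.sum_image (fun a _ b _ hab => hι hab)]
  rfl

theorem occ_image (c : Finset V' → Finset V' → ℝ) (c' : Finset V → Finset V → ℝ) (ι : V → V')
    (hι : Function.Injective ι) (F : Finset V) (i : V)
    (hc : ∀ S ∈ F.powerset, c (F.image ι) (S.image ι) = c' F S) (h : V' → ℝ) :
    occ c (F.image ι) (ι i) h = occ c' F i (h ∘ ι) := by
  unfold occ
  rw [Zw_image c c' ι hι F hc, Zo_image c c' ι hι F i hc]

end aux

theorem measurable_Xi_fixed {V : Type*} [Countable V] (P : V → ℕ → (V → ℝ) → ℝ)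
    (hP : ∀ i n, Measurable (P i n)) : Measurable (Xi P) := by
  have h1 := measurable_Xi (V := V) (α := Unit) (fun _ => P)
    (fun i n => (hP i n).comp measurable_snd)
  have h2 : Measurable (fun w : V → ℝ × (ℕ → ℝ) => (((), w) : Unit × (V → ℝ × (ℕ → ℝ)))) :=
    measurable_const.prodMk measurable_id
  have h3 : Xi P = (fun q : Unit × (V → ℝ × (ℕ → ℝ)) => Xi ((fun _ : Unit => P) q.1) q.2) ∘
      (fun w : V → ℝ × (ℕ → ℝ) => (((), w) : Unit × (V → ℝ × (ℕ → ℝ)))) := by
    funext w
    simp only [Function.comp_apply]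
  rw [h3]
  exact h1.comp h2

theorem final0255 (Γ : Type*) [Group Γ]
    [Countable Γ] (ν : MeasureTheory.Measure (Γ → Bool)) [MeasureTheory.IsProbabilityMeasure ν]
    (hsr : Crest.ProbabilityR.StronglyRayleigh.IsStronglyRayleigh ν)
    (hinv : Crest.ProbabilityR.StronglyRayleigh.IsShiftInvariant ν) :
    ∃ Φ : (Γ → unitInterval) → (Γ → Bool), Measurable Φ ∧
      (∀ (g : Γ) (u : Γ → unitInterval),
        Φ (Crest.ProbabilityR.StronglyRayleigh.leftShift g u) =
          Crest.ProbabilityR.StronglyRayleigh.leftShift g (Φ u)) ∧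
      (Crest.ProbabilityR.Labels.labelMeasure Γ).map Φ = ν := by
  classical
  obtain ⟨dec, hdec, hdecmap⟩ := exists_decode lab Γ
  obtain ⟨f, hf⟩ := exists_surjective_nat Γ
  -- the exhaustion
  let K : ℕ → Finset Γ := fun n => insert 1 ((Finset.range n).image f)
  have hKmono : Monotone K := by
    intro m n hmn
    exact Finset.insert_subset_insert _ (Finset.image_subset_image (Finset.range_mono hmn))
  have hK1 : ∀ n, (1 : Γ) ∈ K n := fun n => Finset.mem_insert_self _ _
  have hKcov : ∀ g : Γ, ∃ n, g ∈ K n := by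
    intro g
    obtain ⟨m, rfl⟩ := hf g
    exact ⟨m + 1, Finset.mem_insert_of_mem (Finset.mem_image_of_mem f (by simp))⟩
  let E : Γ → ℕ → Finset Γ := fun i n => (K n).image (fun k => i * k)
  let P : Γ → ℕ → (Γ → ℝ) → ℝ := fun i n h => occ (cyl ν) (E i n) i h
  have hXi : Measurable (Xi P) :=
    measurable_Xi_fixed P (fun i n => measurable_occ (cyl ν) (E i n) i)
  have hdecpi : Measurable (fun (x : Γ → unitInterval) v => dec (x v)) := by fun_prop
  refine ⟨fun u => Xi P (fun v => dec (u v)), hXi.comp hdecpi, ?_, ?_⟩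
  · intro g u
    -- equivariance
    have hP : ∀ i n h, P (g⁻¹ * i) n h = P i n (h ∘ fun k => g⁻¹ * k) := by
      intro i n h
      have hE : E (g⁻¹ * i) n = (E i n).image (fun k => g⁻¹ * k) := by
        simp only [E, Finset.image_image]
        congr 1
        funext k
        simp [mul_assoc]
      change occ (cyl ν) (E (g⁻¹ * i) n) (g⁻¹ * i) h = occ (cyl ν) (E i n) i (h ∘ fun k => g⁻¹ * k)
      rw [hE]
      refine occ_image (cyl ν) (cyl ν) (fun k => g⁻¹ * k) (mul_right_injective g⁻¹) (E i n) i ?_ h
      intro S _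
      unfold cyl
      congr 1
      have hmeas : MeasurableSet {ω : Γ → Bool | ∀ i_1 ∈ E i n, (ω i_1 = true ↔ i_1 ∈ S)} := by
        have : {ω : Γ → Bool | ∀ i_1 ∈ E i n, (ω i_1 = true ↔ i_1 ∈ S)} =
            ⋂ j ∈ E i n, {ω : Γ → Bool | ω j = true ↔ j ∈ S} := by
          ext ω
          simp
        rw [this]
        refine Finset.measurableSet_biInter _ fun j _ => ?_
        have hj : Measurable (fun ω : Γ → Bool => ω j) := by fun_prop
        exact hj (MeasurableSet.of_discrete (s := {b : Bool | b = true ↔ j ∈ S}))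
      rw [← hinv g _ hmeas]
      congr 1
      ext ω
      simp only [Finset.mem_image, Set.mem_ofPred_eq, Set.mem_preimage,
        Crest.ProbabilityR.StronglyRayleigh.leftShift, forall_exists_index, and_imp,
        forall_apply_eq_imp_iff₂, mul_right_inj, exists_eq_right]
    have := Xi_comp (fun k : Γ => g⁻¹ * k) P P (fun i n h => hP i n h) (fun v => dec (u v))
    exact this.symm
  · have h1 := GT ν (lipOcc_of_stronglyRayleigh ν hsr) E
      (fun i m n hmn => Finset.image_subset_image (hKmono hmn))
      (fun i n => by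
        have := Finset.mem_image_of_mem (fun k => i * k) (hK1 n)
        simpa [E] using this)
      (fun i j => by
        obtain ⟨n, hn⟩ := hKcov (i⁻¹ * j)
        exact ⟨n, by simpa [E] using Finset.mem_image_of_mem (fun k => i * k) hn⟩)
    rw [← h1, ← hdecmap, Measure.map_map hXi hdecpi]
    rfl

end Crest.Agent.R168
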