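import Mathlib
import Crest.Prelude.Def_SpanningTrees
import Crest.Agent.R168.CauchyBinet

/-!
Weighted matrix-tree theorem for the finite pieces of `Def_SpanningTrees`:
`det (∑ e ∈ edgesIn G S, z e • b e (b e)ᵀ) = ∑ A spanning tree on S, ∏ e ∈ A, z e`.
-/

set_option autoImplicit false

namespace Crest.Agent.R168

open Matrix Finset Crest.ProbabilityR.SpanningTrees

variable {V : Type*} [DecidableEq V]

/-- signed incidence vector of an unordered pair, restricted to `S \ {r}`. -/
noncomputable def bvec (R : Type*) [Ring R] (S : Finset V) (r : V) (e : Sym2 V) :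
    ↥(S.erase r) → R :=
  fun v => (if (v : V) = (Quot.out e).1 then 1 else 0) - (if (v : V) = (Quot.out e).2 then 1 else 0)

/-- extended version: signed incidence evaluated against a function on `V`. -/
lemma out_cases (a b : V) :
    ((Quot.out s(a, b)).1 = a ∧ (Quot.out s(a, b)).2 = b) ∨
      ((Quot.out s(a, b)).1 = b ∧ (Quot.out s(a, b)).2 = a) := by
  have h : s((Quot.out s(a, b)).1, (Quot.out s(a, b)).2) = s(a, b) := Quot.out_eq s(a, b)
  rw [Sym2.eq_iff] at h
  exact h

lemma mk_mem_edgesIn {G : SimpleGraph V} {S : Finset V} {a b : V} :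
    s(a, b) ∈ edgesIn G S ↔ a ∈ S ∧ b ∈ S ∧ G.Adj a b := by
  unfold edgesIn
  simp only [Finset.mem_filter, Finset.mk_mem_sym2_iff, SimpleGraph.mem_edgeSet]
  tauto

/-- the graph on `S` with edge set `A`. -/
abbrev treeGraph (S : Finset V) (A : Finset (Sym2 V)) : SimpleGraph ↥(S : Set V) :=
  (SimpleGraph.fromEdgeSet (A : Set (Sym2 V))).induce (S : Set V)

lemma treeGraph_adj {S : Finset V} {A : Finset (Sym2 V)} {a b : ↥(S : Set V)} :
    (treeGraph S A).Adj a b ↔ s((a : V), (b : V)) ∈ A ∧ (a : V) ≠ b := by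
  simp [treeGraph, SimpleGraph.fromEdgeSet_adj]

lemma image_edgeSet {G : SimpleGraph V} {S : Finset V} {A : Finset (Sym2 V)}
    (hA : A ⊆ edgesIn G S) :
    Sym2.map (Subtype.val : ↥(S : Set V) → V) '' (treeGraph S A).edgeSet = (A : Set (Sym2 V)) := by
  ext e
  constructor
  · rintro ⟨e', he', rfl⟩
    induction e' with
    | h a b =>
      rw [SimpleGraph.mem_edgeSet, treeGraph_adj] at he'
      simpa using he'.1
  · intro he
    induction e with
    | h a b =>
      have h := mk_mem_edgesIn.mp (hA (Finset.mem_coe.mp he))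
      refine ⟨s(⟨a, Finset.mem_coe.mpr h.1⟩, ⟨b, Finset.mem_coe.mpr h.2.1⟩), ?_, by simp⟩
      rw [SimpleGraph.mem_edgeSet, treeGraph_adj]
      exact ⟨Finset.mem_coe.mp he, h.2.2.ne⟩

lemma card_edgeSet {G : SimpleGraph V} {S : Finset V} {A : Finset (Sym2 V)}
    (hA : A ⊆ edgesIn G S) :
    Nat.card (treeGraph S A).edgeSet = A.card := by
  rw [← Set.ncard_coe_finset A, ← image_edgeSet hA,
    Set.ncard_image_of_injective _ (Sym2.map.injective Subtype.val_injective)]
  rfl

lemma isSpanningTreeOn_iff {G : SimpleGraph V} {S : Finset V} {r : V} (hr : r ∈ S)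
    {A : Finset (Sym2 V)} :
    IsSpanningTreeOn G S A ↔
      A ⊆ edgesIn G S ∧ (treeGraph S A).Connected ∧ A.card = (S.erase r).card := by
  unfold IsSpanningTreeOn
  constructor
  · rintro ⟨hA, ht⟩
    have ht' : (treeGraph S A).IsTree := ht
    rw [SimpleGraph.isTree_iff_connected_and_card] at ht'
    refine ⟨hA, ht'.1, ?_⟩
    have h2 := ht'.2
    rw [card_edgeSet hA] at h2
    have h3 : Nat.card ↥(S : Set V) = S.card := by simp
    rw [h3] at h2
    rw [Finset.card_erase_of_mem hr]
    omega
  · rintro ⟨hA, hc, hcard⟩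
    refine ⟨hA, ?_⟩
    change (treeGraph S A).IsTree
    rw [SimpleGraph.isTree_iff_connected_and_card]
    refine ⟨hc, ?_⟩
    rw [card_edgeSet hA]
    have h3 : Nat.card ↥(S : Set V) = S.card := by simp
    rw [h3, hcard, Finset.card_erase_of_mem hr]
    have := Finset.card_pos.mpr ⟨r, hr⟩
    omega

/-- pairing of a function vanishing at `r` with the incidence vector. -/
lemma sum_mul_bvec {R : Type*} [CommRing R] {S : Finset V} {r : V} (X : V → R) (hXr : X r = 0)
    {a b : V} (ha : a ∈ S) (hb : b ∈ S) (e : Sym2 V) (he : e = s(a, b)) :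
    (∑ v : ↥(S.erase r), X v * bvec R S r e v) =
      X (Quot.out e).1 - X (Quot.out e).2 := by
  have key : ∀ c ∈ S, (∑ v : ↥(S.erase r), X v * (if (v : V) = c then (1 : R) else 0)) = X c := by
    intro c hc
    have h1 : (∑ v : ↥(S.erase r), X v * (if (v : V) = c then (1 : R) else 0)) =
        ∑ v ∈ S.erase r, X v * (if v = c then (1 : R) else 0) := by
      rw [← Finset.sum_coe_sort (S.erase r) (fun v => X v * (if v = c then (1 : R) else 0))]
    rw [h1]
    by_cases hcr : c = r
    · subst hcr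
      rw [hXr]
      apply Finset.sum_eq_zero
      intro v hv
      have : v ≠ c := Finset.ne_of_mem_erase hv
      simp [this]
    · rw [Finset.sum_eq_single c]
      · simp
      · intro v _ hvc; simp [hvc]
      · intro hn
        exact absurd (Finset.mem_erase.mpr ⟨hcr, hc⟩) hn
  have ho : (Quot.out e).1 ∈ S ∧ (Quot.out e).2 ∈ S := by
    subst he
    rcases out_cases a b with h | h
    · rw [h.1, h.2]; exact ⟨ha, hb⟩
    · rw [h.1, h.2]; exact ⟨hb, ha⟩
  unfold bvec
  simp only [mul_sub, Finset.sum_sub_distrib]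
  rw [key _ ho.1, key _ ho.2]

lemma bvec_cast (R : Type*) [CommRing R] (S : Finset V) (r : V) (e : Sym2 V) (v : ↥(S.erase r)) :
    bvec R S r e v = ((bvec ℤ S r e v : ℤ) : R) := by
  unfold bvec
  push_cast
  rfl

lemma gramSum_cast_det (R : Type*) [CommRing R] (S : Finset V) (r : V) (A : Finset (Sym2 V)) :
    (gramSum A (bvec R S r) (fun _ => 1)).det =
      (((gramSum A (bvec ℤ S r) (fun _ => 1)).det : ℤ) : R) := by
  have h : (gramSum A (bvec R S r) (fun _ => 1)) =
      (Int.castRingHom R).mapMatrix (gramSum A (bvec ℤ S r) (fun _ => 1)) := by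
    ext i j
    simp [gramSum, bvec_cast R]
  rw [h, ← RingHom.map_det]
  rfl

/-- if the graph with edge set `A` is not connected, the Gram determinant vanishes. -/
lemma det_eq_zero_of_not_connected {G : SimpleGraph V} {S : Finset V} {r : V} (hr : r ∈ S)
    {A : Finset (Sym2 V)} (hA : A ⊆ edgesIn G S) (hc : ¬ (treeGraph S A).Connected) :
    (gramSum A (bvec ℤ S r) (fun _ => 1)).det = 0 := by
  classical
  set H := treeGraph S A with hH
  have hr' : r ∈ (S : Set V) := Finset.mem_coe.mpr hr
  have hex : ∃ u : ↥(S : Set V), ¬ H.Reachable u ⟨r, hr'⟩ := by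
    by_contra hcon
    push Not at hcon
    apply hc
    haveI : Nonempty ↥(S : Set V) := ⟨⟨r, hr'⟩⟩
    exact ⟨fun u v => (hcon u).trans (hcon v).symm⟩
  obtain ⟨u, hu⟩ := hex
  let X : V → ℤ := fun v => if h : v ∈ (S : Set V) then (if H.Reachable ⟨v, h⟩ ⟨r, hr'⟩ then 0 else 1) else 0
  have hXr : X r = 0 := by simp [X, hr', hr]
  have hXu : X u = 1 := by
    have : (u : V) ∈ (S : Set V) := u.2
    simp only [X, this, dif_pos]
    rw [if_neg hu]
  have hXA : ∀ a b, s(a, b) ∈ A → X a = X b := by
    intro a b hab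
    have h := mk_mem_edgesIn.mp (hA hab)
    have ha : a ∈ (S : Set V) := h.1
    have hb : b ∈ (S : Set V) := h.2.1
    have hadj : H.Adj ⟨a, ha⟩ ⟨b, hb⟩ := treeGraph_adj.mpr ⟨hab, h.2.2.ne⟩
    simp only [X, ha, hb, dif_pos]
    have : H.Reachable ⟨a, ha⟩ ⟨r, hr'⟩ ↔ H.Reachable ⟨b, hb⟩ ⟨r, hr'⟩ :=
      ⟨fun hh => hadj.reachable.symm.trans hh, fun hh => hadj.reachable.trans hh⟩
    simp only [this]
  rw [← Matrix.exists_vecMul_eq_zero_iff]
  refine ⟨fun v => X v, ?_, ?_⟩
  · intro h0
    have hur : (u : V) ≠ r := by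
      intro h
      rw [h, hXr] at hXu
      exact absurd hXu (by norm_num)
    have := congrFun h0 ⟨u, Finset.mem_erase.mpr ⟨hur, u.2⟩⟩
    simp only [Pi.zero_apply] at this
    rw [hXu] at this
    exact absurd this (by norm_num)
  · ext w
    simp only [Matrix.vecMul, dotProduct, gramSum, of_apply, Pi.zero_apply, Finset.mul_sum]
    rw [Finset.sum_comm]
    apply Finset.sum_eq_zero
    intro e he
    have h1 : (∑ v : ↥(S.erase r), X v * (1 * bvec ℤ S r e v * bvec ℤ S r e w)) =
        (∑ v : ↥(S.erase r), X v * bvec ℤ S r e v) * bvec ℤ S r e w := by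
      rw [Finset.sum_mul]
      refine Finset.sum_congr rfl fun v _ => by ring
    rw [h1]
    induction e with
    | h a b =>
      have h := mk_mem_edgesIn.mp (hA he)
      rw [sum_mul_bvec X hXr h.1 h.2.1 _ rfl]
      rcases out_cases a b with ho | ho
      · rw [ho.1, ho.2, hXA a b he]; ring
      · rw [ho.1, ho.2, hXA a b he]; ring

lemma det_eq_one_of_connected {G : SimpleGraph V} {S : Finset V} {r : V} (hr : r ∈ S)
    {A : Finset (Sym2 V)} (hA : A ⊆ edgesIn G S) (hc : (treeGraph S A).Connected)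
    (hcard : A.card = (S.erase r).card) :
    (gramSum A (bvec ℤ S r) (fun _ => 1)).det = 1 := by
  classical
  set H := treeGraph S A with hH
  have hr' : r ∈ (S : Set V) := Finset.mem_coe.mpr hr
  -- integer combinations
  have hQ : ∀ u v : ↥(S : Set V), H.Reachable u v → ∃ c : Sym2 V → ℤ, ∀ w : ↥(S.erase r),
      (∑ e ∈ A, c e * bvec ℤ S r e w) =
        (if (w : V) = u then 1 else 0) - (if (w : V) = v then 1 else 0) := by
    intro u v huv
    obtain ⟨p⟩ := huv
    induction p with
    | nil => exact ⟨fun _ => 0, fun w => by simp⟩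
    | @cons a b c hab p ih =>
      obtain ⟨c1, hc1⟩ := ih
      have hadj := treeGraph_adj.mp hab
      have hstep : ∃ c : Sym2 V → ℤ, ∀ w : ↥(S.erase r),
          (∑ e ∈ A, c e * bvec ℤ S r e w) =
          (if (w : V) = a then 1 else 0) - (if (w : V) = b then 1 else 0) := by
        rcases out_cases (a : V) (b : V) with ho | ho
        · refine ⟨fun e => if e = s((a : V), (b : V)) then 1 else 0, fun w => ?_⟩
          rw [Finset.sum_eq_single s((a : V), (b : V))]
          · simp only [if_true, one_mul, bvec, ho.1, ho.2]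
          · intro e _ hne; simp [hne]
          · intro hn; exact absurd hadj.1 hn
        · refine ⟨fun e => if e = s((a : V), (b : V)) then -1 else 0, fun w => ?_⟩
          rw [Finset.sum_eq_single s((a : V), (b : V))]
          · simp only [if_true, bvec, ho.1, ho.2]; ring
          · intro e _ hne; simp [hne]
          · intro hn; exact absurd hadj.1 hn
      obtain ⟨c2, hc2⟩ := hstep
      refine ⟨fun e => c2 e + c1 e, fun w => ?_⟩
      simp only [add_mul, Finset.sum_add_distrib]
      rw [hc1, hc2]; ring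
  have hP : ∀ i : ↥(S.erase r), ∃ c : Sym2 V → ℤ, ∀ w : ↥(S.erase r),
      (∑ e ∈ A, c e * bvec ℤ S r e w) = if w = i then 1 else 0 := by
    intro i
    have hi : (i : V) ∈ (S : Set V) := Finset.mem_of_mem_erase i.2
    obtain ⟨c, hc'⟩ := hQ ⟨i, hi⟩ ⟨r, hr'⟩ (hc.preconnected _ _)
    refine ⟨c, fun w => ?_⟩
    rw [hc' w]
    have hwr : (w : V) ≠ r := Finset.ne_of_mem_erase w.2
    simp only [hwr, if_false, sub_zero]
    by_cases hwi : w = i
    · simp [hwi]
    · have : (w : V) ≠ i := fun h => hwi (Subtype.ext h)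
      simp [hwi, this]
  choose c hcc using hP
  have p : ↥(S.erase r) ≃ ↥A := (Finset.equivOfCardEq hcard).symm
  let B : Matrix ↥(S.erase r) ↥(S.erase r) ℤ := Matrix.of fun i k => bvec ℤ S r (p k) i
  let P : Matrix ↥(S.erase r) ↥(S.erase r) ℤ := Matrix.of fun k i => c i (p k)
  have hsumA : ∀ f : Sym2 V → ℤ, (∑ k : ↥(S.erase r), f (p k)) = ∑ e ∈ A, f e := by
    intro f
    rw [Equiv.sum_comp p (fun e : ↥A => f e)]
    exact Finset.sum_coe_sort A f
  have hBP : B * P = 1 := by
    ext w i
    rw [Matrix.mul_apply]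
    simp only [B, P, of_apply]
    rw [hsumA (fun e => bvec ℤ S r e w * c i e)]
    have : (∑ e ∈ A, bvec ℤ S r e w * c i e) = ∑ e ∈ A, c i e * bvec ℤ S r e w :=
      Finset.sum_congr rfl fun e _ => mul_comm _ _
    rw [this, hcc i w, Matrix.one_apply]
  have hgram : gramSum A (bvec ℤ S r) (fun _ => 1) = B * Bᵀ := by
    ext i j
    rw [Matrix.mul_apply]
    simp only [B, gramSum, of_apply, transpose_apply, one_mul]
    rw [hsumA (fun e => bvec ℤ S r e i * bvec ℤ S r e j)]
  rw [hgram, Matrix.det_mul, Matrix.det_transpose]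
  have hunit : IsUnit B.det := by
    have : B.det * P.det = 1 := by rw [← Matrix.det_mul, hBP, Matrix.det_one]
    exact IsUnit.of_mul_eq_one _ this
  exact Int.isUnit_mul_self hunit

/-- the weighted number of spanning trees. -/
noncomputable def treeSum {R : Type*} [CommRing R] (G : SimpleGraph V) (S : Finset V)
    (z : Sym2 V → R) : R :=
  haveI := Classical.decPred (fun A : Finset (Sym2 V) => IsSpanningTreeOn G S A)
  ∑ A ∈ (edgesIn G S).powerset.filter (fun A => IsSpanningTreeOn G S A), ∏ e ∈ A, z e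

/-- **Weighted matrix-tree theorem.** -/
theorem det_eq_treeSum {R : Type*} [CommRing R] (G : SimpleGraph V) {S : Finset V} {r : V}
    (hr : r ∈ S) (z : Sym2 V → R) :
    (gramSum (edgesIn G S) (bvec R S r) z).det = treeSum G S z := by
  classical
  rw [det_gramSum, treeSum]
  rw [← Finset.sum_filter_of_ne (p := fun A => IsSpanningTreeOn G S A)
    (s := (edgesIn G S).powersetCard (Fintype.card ↥(S.erase r)))]
  · apply Finset.sum_congr
    · ext A
      simp only [Finset.mem_filter, Finset.mem_powersetCard, Finset.mem_powerset,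
        Fintype.card_coe]
      constructor
      · rintro ⟨⟨h1, _⟩, h3⟩; exact ⟨h1, h3⟩
      · rintro ⟨h1, h3⟩; exact ⟨⟨h1, ((isSpanningTreeOn_iff hr).mp h3).2.2⟩, h3⟩
    · intro A hA
      have h3 := (Finset.mem_filter.mp hA).2
      have h4 := (isSpanningTreeOn_iff hr).mp h3
      rw [gramSum_cast_det, det_eq_one_of_connected hr h4.1 h4.2.1 h4.2.2]
      simp
  · intro A hA hne
    by_contra hnot
    apply hne
    have hA' := Finset.mem_powersetCard.mp hA
    have hcard : A.card = (S.erase r).card := by rw [hA'.2, Fintype.card_coe]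
    have hc : ¬ (treeGraph S A).Connected := fun hc =>
      hnot ((isSpanningTreeOn_iff hr).mpr ⟨hA'.1, hc, hcard⟩)
    rw [gramSum_cast_det, det_eq_zero_of_not_connected hr hA'.1 hc]
    simp

end Crest.Agent.R168
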