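import Mathlib
import Crest.Prelude.Def_SpanningTrees
import Crest.Agent.R168.MatrixTree

/-!
Nonvanishing of the weighted spanning tree polynomial and pairwise negative correlation.
-/

set_option autoImplicit false

namespace Crest.Agent.R168

open Matrix Finset Crest.ProbabilityR.SpanningTrees

variable {V : Type*}

section
variable [DecidableEq V]

/-- Nonvanishing of the tree polynomial when every weight is either in the open upper half plane
or a positive real. -/
theorem treeSum_ne_zero {G : SimpleGraph V} {S : Finset V}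
    {A₀ : Finset (Sym2 V)} (hA₀ : IsSpanningTreeOn G S A₀) (z : Sym2 V → ℂ)
    (hz : ∀ f ∈ edgesIn G S, 0 < (z f).im ∨ ((z f).im = 0 ∧ 0 < (z f).re)) :
    treeSum G S z ≠ 0 := by
  classical
  obtain ⟨r, hr⟩ : S.Nonempty := by
    have hconn : (treeGraph S A₀).Connected := hA₀.2.connected
    obtain ⟨⟨x, hx⟩⟩ := hconn.nonempty
    exact ⟨x, Finset.mem_coe.mp hx⟩
  have hA := (isSpanningTreeOn_iff hr).mp hA₀
  rw [← det_eq_treeSum G hr z]
  intro hdet
  rw [← Matrix.exists_mulVec_eq_zero_iff] at hdet
  obtain ⟨v, hv0, hv⟩ := hdet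
  -- extension of v by zero
  let X : V → ℂ := fun x => if h : x ∈ S.erase r then v ⟨x, h⟩ else 0
  have hXr : X r = 0 := by simp [X]
  have hXv : ∀ x : ↥(S.erase r), X x = v x := by
    intro x
    simp only [X]
    rw [dif_pos x.2]
  let q : Sym2 V → ℂ := fun f => ∑ j : ↥(S.erase r), bvec ℂ S r f j * v j
  have hreal : ∀ (f : Sym2 V) (i : ↥(S.erase r)), star (bvec ℂ S r f i) = bvec ℂ S r f i := by
    intro f i
    rw [bvec_cast ℂ S r f i]
    simp
  -- quadratic form
  have hquad : (∑ f ∈ edgesIn G S, z f * (Complex.normSq (q f) : ℂ)) = 0 := by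
    have h1 : (∑ i : ↥(S.erase r), star (v i) * (gramSum (edgesIn G S) (bvec ℂ S r) z *ᵥ v) i) = 0 := by
      rw [hv]; simp
    rw [← h1]
    simp only [Matrix.mulVec, dotProduct, gramSum, of_apply, Finset.sum_mul, Finset.mul_sum]
    have hswap2 : (∑ i : ↥(S.erase r), ∑ j : ↥(S.erase r), ∑ f ∈ edgesIn G S,
        star (v i) * (z f * bvec ℂ S r f i * bvec ℂ S r f j * v j)) =
        ∑ f ∈ edgesIn G S, ∑ i : ↥(S.erase r), ∑ j : ↥(S.erase r),
        star (v i) * (z f * bvec ℂ S r f i * bvec ℂ S r f j * v j) := by
      have : ∀ i : ↥(S.erase r), (∑ j : ↥(S.erase r), ∑ f ∈ edgesIn G S,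
        star (v i) * (z f * bvec ℂ S r f i * bvec ℂ S r f j * v j)) =
        ∑ f ∈ edgesIn G S, ∑ j : ↥(S.erase r),
        star (v i) * (z f * bvec ℂ S r f i * bvec ℂ S r f j * v j) := fun i => Finset.sum_comm
      rw [Finset.sum_congr rfl fun i _ => this i, Finset.sum_comm]
    rw [hswap2]
    refine Finset.sum_congr rfl fun f _ => ?_
    have hns : (Complex.normSq (q f) : ℂ) = star (q f) * q f := by
      rw [Complex.normSq_eq_conj_mul_self]; rfl
    rw [hns]
    simp only [q, star_sum, star_mul', hreal]
    rw [Finset.sum_mul_sum, Finset.mul_sum]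
    refine Finset.sum_congr rfl fun i _ => ?_
    rw [Finset.mul_sum]
    refine Finset.sum_congr rfl fun j _ => ?_
    ring
  have him : (∑ f ∈ edgesIn G S, (z f).im * Complex.normSq (q f)) = 0 := by
    have := congrArg Complex.im hquad
    simpa [Complex.im_sum, Complex.mul_im] using this
  have hre : (∑ f ∈ edgesIn G S, (z f).re * Complex.normSq (q f)) = 0 := by
    have := congrArg Complex.re hquad
    simpa [Complex.re_sum, Complex.mul_re] using this
  have him' : ∀ f ∈ edgesIn G S, (z f).im * Complex.normSq (q f) = 0 := by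
    rw [Finset.sum_eq_zero_iff_of_nonneg] at him
    · exact him
    · intro f hf
      rcases hz f hf with h | h
      · exact mul_nonneg h.le (Complex.normSq_nonneg _)
      · rw [h.1]; simp
  have hre' : ∀ f ∈ edgesIn G S, (z f).re * Complex.normSq (q f) = 0 := by
    rw [Finset.sum_eq_zero_iff_of_nonneg] at hre
    · exact hre
    · intro f hf
      rcases hz f hf with h | h
      · have := him' f hf
        have h0 : Complex.normSq (q f) = 0 := by
          rcases mul_eq_zero.mp this with h' | h'
          · exact absurd h' h.ne'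
          · exact h'
        rw [h0]; simp
      · exact mul_nonneg h.2.le (Complex.normSq_nonneg _)
  have hq : ∀ f ∈ edgesIn G S, q f = 0 := by
    intro f hf
    rw [← Complex.normSq_eq_zero]
    rcases hz f hf with h | h
    · rcases mul_eq_zero.mp (him' f hf) with h' | h'
      · exact absurd h' h.ne'
      · exact h'
    · rcases mul_eq_zero.mp (hre' f hf) with h' | h'
      · exact absurd h' h.2.ne'
      · exact h'
  have hXedge : ∀ a b, s(a, b) ∈ edgesIn G S → X a = X b := by
    intro a b hab
    have h := mk_mem_edgesIn.mp hab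
    have h1 := sum_mul_bvec X hXr h.1 h.2.1 s(a, b) rfl
    have h2 : (∑ v : ↥(S.erase r), X v * bvec ℂ S r s(a, b) v) = q s(a, b) := by
      simp only [q]
      refine Finset.sum_congr rfl fun j _ => ?_
      rw [hXv, mul_comm]
    rw [h2, hq _ hab] at h1
    rcases out_cases a b with ho | ho
    · rw [ho.1, ho.2] at h1; exact (sub_eq_zero.mp h1.symm)
    · rw [ho.1, ho.2] at h1; exact (sub_eq_zero.mp h1.symm).symm
  have hr' : r ∈ (S : Set V) := Finset.mem_coe.mpr hr
  have hXreach : ∀ a b : ↥(S : Set V), (treeGraph S A₀).Reachable a b → X a = X b := by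
    intro a b hab
    obtain ⟨p⟩ := hab
    induction p with
    | nil => rfl
    | cons hadj p ih =>
      rw [← ih]
      exact hXedge _ _ (hA.1 (treeGraph_adj.mp hadj).1)
  apply hv0
  ext x
  have hxS : (x : V) ∈ (S : Set V) := Finset.mem_of_mem_erase x.2
  have := hXreach ⟨x, hxS⟩ ⟨r, hr'⟩ (hA.2.1.preconnected _ _)
  simp only [] at this
  rw [← hXv x, Pi.zero_apply]
  exact this.trans hXr

end

/-- weighted sum over spanning trees with property `P`. -/
noncomputable def wST {R : Type*} [CommRing R] (G : SimpleGraph V) (S : Finset V)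
    (z : Sym2 V → R) (P : Finset (Sym2 V) → Prop) : R :=
  haveI := Classical.decPred (fun A : Finset (Sym2 V) => IsSpanningTreeOn G S A ∧ P A)
  ∑ A ∈ (edgesIn G S).powerset.filter (fun A => IsSpanningTreeOn G S A ∧ P A), ∏ e ∈ A, z e

lemma card_of_isSpanningTreeOn {G : SimpleGraph V} {S : Finset V} {A : Finset (Sym2 V)}
    (h : IsSpanningTreeOn G S A) : A.card = S.card - 1 := by
  classical
  obtain ⟨r, hr⟩ : S.Nonempty := by
    have hconn : (treeGraph S A).Connected := h.2.connected
    obtain ⟨⟨x, hx⟩⟩ := hconn.nonempty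
    exact ⟨x, Finset.mem_coe.mp hx⟩
  rw [((isSpanningTreeOn_iff hr).mp h).2.2, Finset.card_erase_of_mem hr]

lemma wST_eq_sum_ite {R : Type*} [CommRing R] (G : SimpleGraph V) (S : Finset V)
    (z : Sym2 V → R) (P : Finset (Sym2 V) → Prop) [DecidablePred P]
    [DecidablePred (fun A : Finset (Sym2 V) => IsSpanningTreeOn G S A)] :
    wST G S z P = ∑ A ∈ (edgesIn G S).powerset.filter (fun A => IsSpanningTreeOn G S A),
      if P A then ∏ e ∈ A, z e else 0 := by
  classical
  unfold wST
  rw [← Finset.sum_filter, Finset.filter_filter]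
  apply Finset.sum_congr
  · ext A; simp
  · intros; rfl

lemma prod_split {R : Type*} [CommRing R] [DecidableEq (Sym2 V)] (z : Sym2 V → R)
    {e g : Sym2 V} (heg : e ≠ g) (A : Finset (Sym2 V)) :
    (∏ f ∈ A, z f) = (if e ∈ A then z e else 1) * (if g ∈ A then z g else 1) *
      ∏ f ∈ (A.erase e).erase g, z f := by
  have h1 : ∀ (B : Finset (Sym2 V)) (x : Sym2 V), (∏ f ∈ B, z f) =
      (if x ∈ B then z x else 1) * ∏ f ∈ B.erase x, z f := by
    intro B x
    by_cases hx : x ∈ B
    · rw [if_pos hx, Finset.mul_prod_erase B z hx]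
    · rw [if_neg hx, Finset.erase_eq_of_notMem hx, one_mul]
  rw [h1 A e, h1 (A.erase e) g]
  have : (g ∈ A.erase e) ↔ g ∈ A := by
    rw [Finset.mem_erase]
    exact ⟨fun h => h.2, fun h => ⟨heg.symm, h⟩⟩
  simp only [this]
  ring

/-- **Pairwise negative correlation** of weighted spanning trees. -/
theorem wST_neg {G : SimpleGraph V} {S : Finset V} (z : Sym2 V → ℝ) (hz : ∀ e, 0 < z e)
    {e g : Sym2 V} (heg : e ≠ g) :
    wST G S z (fun A => e ∈ A ∧ g ∈ A) * wST G S z (fun _ => True) ≤
      wST G S z (fun A => e ∈ A) * wST G S z (fun A => g ∈ A) := by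
  classical
  set 𝒯 := (edgesIn G S).powerset.filter (fun A => IsSpanningTreeOn G S A) with h𝒯
  let u : Finset (Sym2 V) → ℝ := fun A => ∏ f ∈ (A.erase e).erase g, z f
  have hu : ∀ A, 0 < u A := fun A => Finset.prod_pos fun f _ => hz f
  let a : ℝ := ∑ A ∈ 𝒯, if e ∈ A then 0 else if g ∈ A then 0 else u A
  let b : ℝ := ∑ A ∈ 𝒯, if e ∈ A then (if g ∈ A then 0 else u A) else 0
  let c : ℝ := ∑ A ∈ 𝒯, if e ∈ A then 0 else if g ∈ A then u A else 0
  let d : ℝ := ∑ A ∈ 𝒯, if e ∈ A then (if g ∈ A then u A else 0) else 0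
  have ha : 0 ≤ a := Finset.sum_nonneg fun A _ => by split_ifs <;> first | exact le_refl _ | exact (hu A).le
  have hb : 0 ≤ b := Finset.sum_nonneg fun A _ => by split_ifs <;> first | exact le_refl _ | exact (hu A).le
  have hc : 0 ≤ c := Finset.sum_nonneg fun A _ => by split_ifs <;> first | exact le_refl _ | exact (hu A).le
  have hd : 0 ≤ d := Finset.sum_nonneg fun A _ => by split_ifs <;> first | exact le_refl _ | exact (hu A).le
  have h11 : wST G S z (fun A => e ∈ A ∧ g ∈ A) = z e * z g * d := by
    rw [wST_eq_sum_ite, Finset.mul_sum]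
    refine Finset.sum_congr rfl fun A _ => ?_
    rw [prod_split z heg A]
    by_cases he : e ∈ A <;> by_cases hg : g ∈ A <;> simp [he, hg, u]
  have h10 : wST G S z (fun A => e ∈ A) = z e * b + z e * z g * d := by
    rw [wST_eq_sum_ite, Finset.mul_sum, Finset.mul_sum, ← Finset.sum_add_distrib]
    refine Finset.sum_congr rfl fun A _ => ?_
    rw [prod_split z heg A]
    by_cases he : e ∈ A <;> by_cases hg : g ∈ A <;> simp [he, hg, u]
  have h01 : wST G S z (fun A => g ∈ A) = z g * c + z e * z g * d := by
    rw [wST_eq_sum_ite, Finset.mul_sum, Finset.mul_sum, ← Finset.sum_add_distrib]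
    refine Finset.sum_congr rfl fun A _ => ?_
    rw [prod_split z heg A]
    by_cases he : e ∈ A <;> by_cases hg : g ∈ A <;> simp [he, hg, u]
  have h00 : wST G S z (fun _ => True) = a + z e * b + z g * c + z e * z g * d := by
    rw [wST_eq_sum_ite, Finset.mul_sum, Finset.mul_sum, Finset.mul_sum,
      ← Finset.sum_add_distrib, ← Finset.sum_add_distrib, ← Finset.sum_add_distrib]
    refine Finset.sum_congr rfl fun A _ => ?_
    rw [prod_split z heg A]
    by_cases he : e ∈ A <;> by_cases hg : g ∈ A <;> simp [he, hg, u]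
  -- Rayleigh inequality
  have key : a * d ≤ b * c := by
    by_contra hcon
    push Not at hcon
    have had : 0 < a * d := lt_of_le_of_lt (mul_nonneg hb hc) hcon
    have hdpos : 0 < d := by
      rcases hd.lt_or_eq with h | h
      · exact h
      · rw [← h] at had; simp at had
    -- there is a spanning tree
    have hex : ∃ A, IsSpanningTreeOn G S A := by
      by_contra hno
      push Not at hno
      have : 𝒯 = ∅ := by
        rw [h𝒯, Finset.filter_eq_empty_iff]
        intro A _; exact hno A
      simp only [d, this, Finset.sum_empty] at hdpos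
      exact lt_irrefl _ hdpos
    obtain ⟨A₀, hA₀⟩ := hex
    let x : ℂ := -((a : ℂ) + c * Complex.I) / ((b : ℂ) + d * Complex.I)
    have hden : ((b : ℂ) + d * Complex.I) ≠ 0 := by
      intro h
      have := congrArg Complex.im h
      simp at this
      exact hdpos.ne' this
    have hxim : 0 < x.im := by
      have hns : 0 < b ^ 2 + d ^ 2 := by positivity
      have : x.im = (a * d - b * c) / (b ^ 2 + d ^ 2) := by
        have hmul : x * ((b : ℂ) + d * Complex.I) = -((a : ℂ) + c * Complex.I) :=
          div_mul_cancel₀ _ hden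
        have hre := congrArg Complex.re hmul
        have him := congrArg Complex.im hmul
        simp at hre him
        rw [eq_div_iff hns.ne']
        linear_combination b * him - d * hre
      rw [this]
      exact div_pos (by linarith) hns
    let z' : Sym2 V → ℂ := fun f => if f = e then x else if f = g then Complex.I else (z f : ℂ)
    have hne := treeSum_ne_zero hA₀ z' (by
      intro f _
      simp only [z']
      by_cases hfe : f = e
      · left; rw [if_pos hfe]; exact hxim
      · rw [if_neg hfe]
        by_cases hfg : f = g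
        · left; rw [if_pos hfg]; simp
        · right; rw [if_neg hfg]; simp [hz f])
    apply hne
    have hcoe : ∀ A, (∏ f ∈ (A.erase e).erase g, z' f) = (u A : ℂ) := by
      intro A
      simp only [u]
      push_cast
      refine Finset.prod_congr rfl fun f hf => ?_
      have hfg : f ≠ g := Finset.ne_of_mem_erase hf
      have hfe : f ≠ e := Finset.ne_of_mem_erase (Finset.mem_of_mem_erase hf)
      simp [z', hfg, hfe]
    have hz'e : z' e = x := by simp [z']
    have hz'g : z' g = Complex.I := by simp [z', heg.symm]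
    have hsum : treeSum G S z' = (a : ℂ) + x * b + Complex.I * c + x * Complex.I * d := by
      have htS : treeSum G S z' = ∑ A ∈ 𝒯, ∏ f ∈ A, z' f := by
        unfold treeSum
        apply Finset.sum_congr
        · ext A; simp [h𝒯]
        · intros; rfl
      rw [htS]
      simp only [a, b, c, d]
      push_cast
      rw [Finset.mul_sum, Finset.mul_sum, Finset.mul_sum,
        ← Finset.sum_add_distrib, ← Finset.sum_add_distrib, ← Finset.sum_add_distrib]
      refine Finset.sum_congr rfl fun A _ => ?_
      rw [prod_split z' heg A, hcoe, hz'e, hz'g]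
      by_cases he : e ∈ A <;> by_cases hg : g ∈ A <;> simp [he, hg]
    rw [hsum]
    have hmul : x * ((b : ℂ) + d * Complex.I) = -((a : ℂ) + c * Complex.I) :=
      div_mul_cancel₀ _ hden
    linear_combination hmul
  rw [h11, h10, h01, h00]
  have hze := hz e
  have hzg := hz g
  nlinarith [mul_nonneg (mul_pos hze hzg).le (sub_nonneg.mpr key)]

end Crest.Agent.R168
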