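import Crest.Agent.R168.USTMono
import Crest.Agent.R168.TreeNegCorr
import Crest.Agent.R168.Defs

set_option autoImplicit false

/-!
Convergence of `ustContains` along exhaustions.
-/

namespace Crest.Agent.R168.UST

open Finset Filter Topology
open Crest.ProbabilityR.SpanningTrees

theorem W_eq_wST {V : Type*} [DecidableEq V] (G : SimpleGraph V) (S : Finset V) (z : Sym2 V → ℝ)
    (F : Finset (Sym2 V)) : W (ST G S) z F = wST G S z (fun A => F ⊆ A) := by
  classical
  unfold W wST
  apply Finset.sum_congr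
  · ext A
    simp only [Finset.mem_filter, mem_ST, Finset.mem_powerset]
    constructor
    · rintro ⟨h1, h2⟩; exact ⟨h1.1, h1, h2⟩
    · rintro ⟨_, h1, h2⟩; exact ⟨h1, h2⟩
  · intros; rfl

theorem NC_ST {V : Type*} [DecidableEq V] (G : SimpleGraph V) (S : Finset V) : NC (ST G S) := by
  intro z hz e g heg
  have h := wST_neg (G := G) (S := S) z hz heg
  rw [W_eq_wST, W_eq_wST, W_eq_wST, W_eq_wST]
  have e1 : (fun A : Finset (Sym2 V) => ({e, g} : Finset (Sym2 V)) ⊆ A) =
      fun A => e ∈ A ∧ g ∈ A := by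
    funext A; simp [Finset.insert_subset_iff]
  have e2 : (fun A : Finset (Sym2 V) => (∅ : Finset (Sym2 V)) ⊆ A) = fun _ => True := by
    funext A; simp
  have e3 : ∀ e : Sym2 V, (fun A : Finset (Sym2 V) => ({e} : Finset (Sym2 V)) ⊆ A) =
      fun A => e ∈ A := by
    intro e; funext A; simp
  rw [e1, e2, e3, e3]
  exact h

theorem ust_nonneg {V : Type*} (G : SimpleGraph V) (S : Finset V) (F : Finset (Sym2 V)) :
    0 ≤ ustContains G S F := by
  unfold ustContains
  positivity

/-- existence of limits of `ustContains` along exhaustions, independent of the exhaustion. -/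
theorem exists_limit (G : SimpleGraph ℕ)
    (A : Finset (Sym2 ℕ)) (hA : (A : Set (Sym2 ℕ)) ⊆ G.edgeSet) :
    ∃ q : ℝ, ∀ S : ℕ → Finset ℕ, Monotone S → (∀ v : ℕ, ∃ n, v ∈ S n) →
      (∀ n, (G.induce (S n : Set ℕ)).Connected) →
      Tendsto (fun n => ustContains G (S n) A) atTop (𝓝 q) := by
  classical
  -- infimum over all finite connected pieces containing `A`
  let P : Set ℝ := {r | ∃ S : Finset ℕ, (G.induce (S : Set ℕ)).Connected ∧ A ⊆ edgesIn G S ∧
    r = ustContains G S A}
  refine ⟨sInf P, fun S hmono hcov hconn => ?_⟩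
  have hcovF : ∀ T : Finset ℕ, ∃ n, ∀ m, n ≤ m → T ⊆ S m := by
    intro T
    induction T using Finset.induction_on with
    | empty => exact ⟨0, fun m _ => by simp⟩
    | insert a T _ ih =>
      obtain ⟨n, hn⟩ := ih
      obtain ⟨k, hk⟩ := hcov a
      refine ⟨max n k, fun m hm => Finset.insert_subset ?_ (hn m (le_trans (le_max_left _ _) hm))⟩
      exact hmono (le_trans (le_max_right _ _) hm) hk
  have hAin : ∃ n, ∀ m, n ≤ m → A ⊆ edgesIn G (S m) := by
    let T : Finset ℕ := A.biUnion (fun e => e.toFinset)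
    obtain ⟨n, hn⟩ := hcovF T
    refine ⟨n, fun m hm e he => ?_⟩
    rw [mem_edgesIn]
    refine ⟨fun x hx => hn m hm ?_, hA he⟩
    simp only [T, Finset.mem_biUnion]
    exact ⟨e, he, by simpa using hx⟩
  obtain ⟨n0, hn0⟩ := hAin
  have hbdd : BddBelow P := ⟨0, by
    rintro r ⟨T, _, _, rfl⟩
    exact ust_nonneg _ _ _⟩
  have hPne : P.Nonempty := ⟨_, S n0, hconn n0, hn0 n0 le_rfl, rfl⟩
  rw [Metric.tendsto_atTop]
  intro ε hε
  obtain ⟨r, ⟨T, hT1, hT2, rfl⟩, hr⟩ := exists_lt_of_csInf_lt hPne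
    (show sInf P < sInf P + ε by linarith)
  obtain ⟨n1, hn1⟩ := hcovF T
  refine ⟨max n0 n1, fun m hm => ?_⟩
  have h0 : A ⊆ edgesIn G (S m) := hn0 m (le_trans (le_max_left _ _) hm)
  have h1 : T ⊆ S m := hn1 m (le_trans (le_max_right _ _) hm)
  have h2 : sInf P ≤ ustContains G (S m) A := csInf_le hbdd ⟨S m, hconn m, h0, rfl⟩
  have h3 : ustContains G (S m) A ≤ ustContains G T A :=
    ust_anti NC_ST h1 hT1 (hconn m) hT2
  rw [Real.dist_eq, abs_lt]
  constructor <;> linarith

end Crest.Agent.R168.UST
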