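import Crest.Agent.R168.Defs
import Crest.Agent.R168.TreeNegCorr
import Crest.Agent.R168.USTLimit

/-! T7: matrix-tree theorem for `IsSpanningTreeOn` and its two consequences. -/

set_option autoImplicit false

namespace Crest.Agent.R168

open MeasureTheory ProbabilityTheory Filter Topology
open Crest.ProbabilityR.SpanningTrees

open scoped Classical in
/-- weighted spanning tree polynomial of the piece `S`. -/
noncomputable def treePoly {V K : Type*} [CommRing K] (G : SimpleGraph V) (S : Finset V)
    (z : Sym2 V → K) : K :=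
  ∑ A ∈ (edgesIn G S).powerset.filter (fun A => IsSpanningTreeOn G S A), ∏ e ∈ A, z e

/-- half-plane property of the spanning tree polynomial (edges with real positive weight allowed).
Proof: `treePoly = det` of the reduced weighted Laplacian `L(z)` (matrix-tree theorem); if
`L(z) u = 0` then `∑_e z_e |u_x - u_y|^2 = 0`, so `u` is constant `= 0`. -/
theorem treePoly_ne_zero {V : Type*} (G : SimpleGraph V) (S : Finset V)
    (hS : (G.induce (S : Set V)).Connected) (z : Sym2 V → ℂ)
    (hz : ∀ e ∈ edgesIn G S, 0 < (z e).im ∨ ((z e).im = 0 ∧ 0 < (z e).re)) :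
    treePoly G S z ≠ 0 := by
  classical
  obtain ⟨A, hA⟩ := UST.ST_nonempty hS
  have h := treeSum_ne_zero (UST.mem_ST.mp hA) z hz
  intro h0
  apply h
  rw [← h0]
  unfold treeSum treePoly
  apply Finset.sum_congr
  · ext A; simp
  · intros; rfl

/-- convergence of `P(A ⊆ UST)` along exhaustions, with a limit independent of the exhaustion.
Proof idea (transfer current): `ustContains G S A = det (b_e^T L_S^{-1} b_f)_{e,f ∈ A}` and
`b^T L_S^{-1} b` is nonincreasing in `S` for fixed `b`; polarise. (Or: negative correlation ⇒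
`ustContains G S A` nonincreasing in `S`.) -/
theorem exists_ust_limit (G : SimpleGraph ℕ) (hG : G.Connected)
    (A : Finset (Sym2 ℕ)) (hA : (A : Set (Sym2 ℕ)) ⊆ G.edgeSet) :
    ∃ q : ℝ, ∀ S : ℕ → Finset ℕ, Monotone S → (∀ v : ℕ, ∃ n, v ∈ S n) →
      (∀ n, (G.induce (S n : Set ℕ)).Connected) →
      Tendsto (fun n => ustContains G (S n) A) atTop (𝓝 q) :=
  UST.exists_limit G A hA

end Crest.Agent.R168
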