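import Crest.Agent.R168.SR
import Crest.Agent.R168.Tree
import Crest.Agent.R168.FamLip

/-! T8: the free uniform spanning forest measure exists and satisfies (L). -/

set_option autoImplicit false

namespace Crest.Agent.R168

open MeasureTheory ProbabilityTheory Filter Topology
open Crest.ProbabilityR.SpanningTrees

namespace FusfAux

/-- existence of a connected exhaustion. -/
lemma exists_exhaustion (G : SimpleGraph ℕ) (hG : G.Connected) :
    ∃ S : ℕ → Finset ℕ, Monotone S ∧ (∀ v : ℕ, ∃ n, v ∈ S n) ∧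
      (∀ n, (G.induce (S n : Set ℕ)).Connected) := by
  classical
  have h1 : ∀ t : Finset ℕ, ∃ t' : Finset ℕ, t ⊆ t' ∧ (t.Nonempty → (G.induce (t' : Set ℕ)).Connected) := by
    intro t
    by_cases ht : t.Nonempty
    · obtain ⟨t', h1, h2⟩ := G.extend_finset_to_connected hG.preconnected ht
      exact ⟨t', h1, fun _ => h2⟩
    · exact ⟨t, subset_rfl, fun h => absurd h ht⟩
  choose f hf1 hf2 using h1
  let S : ℕ → Finset ℕ := fun n => Nat.rec (f {0}) (fun n T => f (insert (n + 1) T)) n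
  have hS0 : S 0 = f {0} := rfl
  have hSs : ∀ n, S (n + 1) = f (insert (n + 1) (S n)) := fun n => rfl
  refine ⟨S, ?_, ?_, ?_⟩
  · apply monotone_nat_of_le_succ
    intro n
    rw [hSs]
    exact (Finset.subset_insert _ _).trans (hf1 _)
  · intro v
    refine ⟨v, ?_⟩
    cases v with
    | zero => rw [hS0]; exact hf1 _ (Finset.mem_singleton_self 0)
    | succ n => rw [hSs]; exact hf1 _ (Finset.mem_insert_self _ _)
  · intro n
    cases n with
    | zero => rw [hS0]; exact hf2 _ (Finset.singleton_nonempty 0)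
    | succ n => rw [hSs]; exact hf2 _ (Finset.insert_nonempty _ _)

open scoped Classical in
/-- configuration of an edge set. -/
noncomputable def conf (G : SimpleGraph ℕ) (A : Finset (Sym2 ℕ)) : G.edgeSet → Bool :=
  fun e => decide ((e : Sym2 ℕ) ∈ A)

lemma conf_eq_true {G : SimpleGraph ℕ} {A : Finset (Sym2 ℕ)} {e : G.edgeSet} :
    conf G A e = true ↔ (e : Sym2 ℕ) ∈ A := by
  simp [conf]

/-- law of the uniform spanning tree of the piece `S`, as a law on `G.edgeSet → Bool`. -/
noncomputable def ustLaw (G : SimpleGraph ℕ) (S : Finset ℕ) : Measure (G.edgeSet → Bool) :=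
  ((UST.ST G S).card : ENNReal)⁻¹ • ∑ A ∈ UST.ST G S, Measure.dirac (conf G A)

open scoped Classical in
lemma ustLaw_apply (G : SimpleGraph ℕ) (S : Finset ℕ) {B : Set (G.edgeSet → Bool)}
    (hB : MeasurableSet B) :
    (ustLaw G S B).toReal = (((UST.ST G S).filter (fun A => conf G A ∈ B)).card : ℝ) /
      ((UST.ST G S).card : ℝ) := by
  unfold ustLaw
  rw [Measure.smul_apply, Measure.finsetSum_apply]
  have : (∑ A ∈ UST.ST G S, (Measure.dirac (conf G A)) B) =
      (((UST.ST G S).filter (fun A => conf G A ∈ B)).card : ENNReal) := by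
    rw [Finset.card_filter, Nat.cast_sum]
    refine Finset.sum_congr rfl fun A _ => ?_
    rw [Measure.dirac_apply' _ hB]
    by_cases h : conf G A ∈ B <;> simp [h]
  rw [this, smul_eq_mul, ENNReal.toReal_mul, ENNReal.toReal_inv, ENNReal.toReal_natCast,
    ENNReal.toReal_natCast]
  rw [div_eq_mul_inv, mul_comm]

lemma isProb_ustLaw {G : SimpleGraph ℕ} {S : Finset ℕ} (hS : (G.induce (S : Set ℕ)).Connected) :
    IsProbabilityMeasure (ustLaw G S) := by
  constructor
  unfold ustLaw
  rw [Measure.smul_apply, Measure.finsetSum_apply]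
  simp only [measure_univ, Finset.sum_const, nsmul_eq_mul, mul_one, smul_eq_mul]
  apply ENNReal.inv_mul_cancel
  · have := UST.ST_nonempty hS
    simpa using this.ne_empty
  · exact ENNReal.natCast_ne_top _

lemma isClopen_eval {ι : Type*} (i : ι) (B : Set Bool) :
    IsClopen {ω : ι → Bool | ω i ∈ B} :=
  (isClopen_discrete B).preimage (continuous_apply i)

lemma isClopen_cyl {ι : Type*} (F S : Finset ι) :
    IsClopen {ω : ι → Bool | ∀ i ∈ F, (ω i = true ↔ i ∈ S)} := by
  have : {ω : ι → Bool | ∀ i ∈ F, (ω i = true ↔ i ∈ S)} =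
      ⋂ i ∈ F, {ω : ι → Bool | ω i ∈ {b : Bool | b = true ↔ i ∈ S}} := by
    ext ω; simp
  rw [this]
  exact isClopen_biInter_finset fun i _ => isClopen_eval i _

lemma isClopen_cont (G : SimpleGraph ℕ) (A : Finset (Sym2 ℕ)) :
    IsClopen {ω : G.edgeSet → Bool | ∀ e : G.edgeSet, (e : Sym2 ℕ) ∈ A → ω e = true} := by
  classical
  have : {ω : G.edgeSet → Bool | ∀ e : G.edgeSet, (e : Sym2 ℕ) ∈ A → ω e = true} =
      ⋂ i ∈ A.subtype (fun e => e ∈ G.edgeSet), {ω : G.edgeSet → Bool | ω i ∈ ({true} : Set Bool)} := by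
    ext ω; simp
  rw [this]
  exact isClopen_biInter_finset fun i _ => isClopen_eval i _

/-- extension of an external field from `F` to all unordered pairs. -/
noncomputable def ext (G : SimpleGraph ℕ) (F : Finset G.edgeSet) (h : G.edgeSet → ℝ) :
    Sym2 ℕ → ℝ :=
  haveI := Classical.decPred (fun a : Sym2 ℕ => a ∈ G.edgeSet)
  haveI := Classical.decEq G.edgeSet
  fun a => if ha : a ∈ G.edgeSet then (if (⟨a, ha⟩ : G.edgeSet) ∈ F then h ⟨a, ha⟩ else 0) else 0

open scoped Classical in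
lemma sum_ext (G : SimpleGraph ℕ) (F : Finset G.edgeSet) (h : G.edgeSet → ℝ)
    (A : Finset (Sym2 ℕ)) :
    (∑ a ∈ A, ext G F h a) = ∑ j ∈ F.filter (fun j : G.edgeSet => (j : Sym2 ℕ) ∈ A), h j := by
  have h1 : (∑ j ∈ F.filter (fun j : G.edgeSet => (j : Sym2 ℕ) ∈ A), h j) =
      ∑ a ∈ (F.filter (fun j : G.edgeSet => (j : Sym2 ℕ) ∈ A)).map (Function.Embedding.subtype _), ext G F h a := by
    rw [Finset.sum_map]
    refine Finset.sum_congr rfl fun j hj => ?_
    have hjF := (Finset.mem_filter.mp hj).1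
    simp only [Function.Embedding.subtype_apply, ext, j.2, dif_pos, Subtype.coe_eta, hjF, if_pos]
  rw [h1]
  symm
  apply Finset.sum_subset
  · intro a ha
    rw [Finset.mem_map] at ha
    obtain ⟨j, hj, rfl⟩ := ha
    exact (Finset.mem_filter.mp hj).2
  · intro a haA hna
    unfold ext
    split_ifs with h2 h3
    · exfalso
      apply hna
      rw [Finset.mem_map]
      exact ⟨⟨a, h2⟩, Finset.mem_filter.mpr ⟨h3, haA⟩, rfl⟩
    · rfl
    · rfl

open scoped Classical in
lemma sum_cyl_ustLaw (G : SimpleGraph ℕ) (S : Finset ℕ) (F : Finset G.edgeSet)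
    (φ : Finset G.edgeSet → ℝ) :
    (∑ T ∈ F.powerset, cyl (ustLaw G S) F T * φ T) =
      (∑ A ∈ UST.ST G S, φ (F.filter (fun j : G.edgeSet => (j : Sym2 ℕ) ∈ A))) / ((UST.ST G S).card : ℝ) := by
  have hcyl : ∀ T ∈ F.powerset, cyl (ustLaw G S) F T =
      (((UST.ST G S).filter (fun A => F.filter (fun j : G.edgeSet => (j : Sym2 ℕ) ∈ A) = T)).card : ℝ) /
        ((UST.ST G S).card : ℝ) := by
    intro T hT
    rw [Finset.mem_powerset] at hT
    unfold cyl
    rw [ustLaw_apply _ _ (isClopen_cyl F T).isOpen.measurableSet]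
    congr 3
    ext A
    simp only [Finset.mem_filter, Set.mem_ofPred_eq, conf_eq_true]
    refine and_congr_right fun _ => ?_
    constructor
    · intro h
      ext j
      rw [Finset.mem_filter]
      constructor
      · rintro ⟨h1, h2⟩; exact (h j h1).mp h2
      · intro hj; exact ⟨hT hj, (h j (hT hj)).mpr hj⟩
    · intro h j hj
      rw [← h, Finset.mem_filter]
      tauto
  rw [Finset.sum_congr rfl fun T hT => by rw [hcyl T hT]]
  rw [Finset.sum_div]
  rw [← Finset.sum_fiberwise_of_maps_to (s := UST.ST G S) (t := F.powerset)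
    (g := fun A => F.filter (fun j : G.edgeSet => (j : Sym2 ℕ) ∈ A))
    (fun A _ => Finset.mem_powerset.mpr (Finset.filter_subset _ _))]
  refine Finset.sum_congr rfl fun T _ => ?_
  rw [Finset.sum_congr rfl (g := fun _ => φ T / ((UST.ST G S).card : ℝ))
    (fun A hA => by rw [(Finset.mem_filter.mp hA).2])]
  rw [Finset.sum_const, nsmul_eq_mul]
  ring

lemma Zw_ustLaw (G : SimpleGraph ℕ) (S : Finset ℕ) (F : Finset G.edgeSet) (h : G.edgeSet → ℝ) :
    Zw (cyl (ustLaw G S)) F h =
      UST.W (UST.ST G S) (fun a => Real.exp (ext G F h a)) ∅ / ((UST.ST G S).card : ℝ) := by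
  classical
  unfold Zw
  rw [sum_cyl_ustLaw G S F (fun T => Real.exp (∑ j ∈ T, h j))]
  congr 1
  unfold UST.W
  simp only [Finset.empty_subset, Finset.filter_true]
  refine Finset.sum_congr rfl fun A _ => ?_
  rw [← Real.exp_sum, sum_ext]

lemma Zo_ustLaw (G : SimpleGraph ℕ) (S : Finset ℕ) (F : Finset G.edgeSet) (i : G.edgeSet)
    (hi : i ∈ F) (h : G.edgeSet → ℝ) :
    Zo (cyl (ustLaw G S)) F i h =
      UST.W (UST.ST G S) (fun a => Real.exp (ext G F h a)) {(i : Sym2 ℕ)} /
        ((UST.ST G S).card : ℝ) := by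
  classical
  unfold Zo
  have h1 : ∀ T ∈ F.powerset, (if i ∈ T then cyl (ustLaw G S) F T * Real.exp (∑ j ∈ T, h j) else 0) =
      cyl (ustLaw G S) F T * (if i ∈ T then Real.exp (∑ j ∈ T, h j) else 0) := by
    intro T _; split_ifs <;> simp
  have h2 : (∑ T ∈ F.powerset, if i ∈ T then cyl (ustLaw G S) F T * Real.exp (∑ j ∈ T, h j) else 0) =
      ∑ T ∈ F.powerset, cyl (ustLaw G S) F T * (if i ∈ T then Real.exp (∑ j ∈ T, h j) else 0) :=
    Finset.sum_congr rfl h1
  refine Eq.trans ?_ (h2.trans ?_)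
  · refine Finset.sum_congr rfl fun T _ => ?_
    congr
  rw [sum_cyl_ustLaw G S F (fun T => if i ∈ T then Real.exp (∑ j ∈ T, h j) else 0)]
  congr 1
  unfold UST.W
  rw [Finset.sum_filter]
  refine Finset.sum_congr rfl fun A _ => ?_
  simp only [Finset.mem_filter, hi, true_and, Finset.singleton_subset_iff]
  rw [← Real.exp_sum, sum_ext]

lemma occ_ustLaw (G : SimpleGraph ℕ) {S : Finset ℕ} (hS : (G.induce (S : Set ℕ)).Connected)
    (F : Finset G.edgeSet) (i : G.edgeSet) (hi : i ∈ F) (h : G.edgeSet → ℝ) :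
    occ (cyl (ustLaw G S)) F i h = UST.Pf (UST.ST G S) (i : Sym2 ℕ) (ext G F h) := by
  unfold occ UST.Pf
  rw [Zw_ustLaw, Zo_ustLaw G S F i hi]
  have hne := UST.ST_nonempty hS
  have hc : ((UST.ST G S).card : ℝ) ≠ 0 := by
    simpa using hne.ne_empty
  rw [div_div_div_cancel_right₀ hc]

lemma lip_ustLaw (G : SimpleGraph ℕ) {S : Finset ℕ} (hS : (G.induce (S : Set ℕ)).Connected) :
    LipOcc (ustLaw G S) 2 := by
  intro F i hi h h' s hs
  have hs0 : 0 ≤ s := le_trans (abs_nonneg _) (hs i hi)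
  rw [occ_ustLaw G hS F i hi, occ_ustLaw G hS F i hi]
  have := UST.Pf_lip (UST.NC_ST G S) (UST.ST_nonempty hS) (S.card - 1)
    (fun A hA => by have := UST.card_of_mem_ST hA; omega) (i : Sym2 ℕ) (ext G F h) (ext G F h') s
    (by
      intro a
      unfold ext
      split_ifs with h1 h2
      · exact hs _ h2
      · simpa using hs0
      · simpa using hs0)
  linarith

lemma Zw_lower {G : SimpleGraph ℕ} {S : Finset ℕ} (hS : (G.induce (S : Set ℕ)).Connected)
    (F : Finset G.edgeSet) (h : G.edgeSet → ℝ) :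
    Real.exp (-∑ j ∈ F, |h j|) ≤ Zw (cyl (ustLaw G S)) F h := by
  classical
  unfold Zw
  rw [sum_cyl_ustLaw G S F (fun T => Real.exp (∑ j ∈ T, h j))]
  have hne := UST.ST_nonempty hS
  have hc : 0 < ((UST.ST G S).card : ℝ) := by
    have := hne.card_pos
    exact_mod_cast this
  rw [le_div_iff₀ hc]
  have : ∀ A ∈ UST.ST G S, Real.exp (-∑ j ∈ F, |h j|) ≤
      Real.exp (∑ j ∈ F.filter (fun j : G.edgeSet => (j : Sym2 ℕ) ∈ A), h j) := by
    intro A _
    apply Real.exp_le_exp.mpr
    have h3 : (∑ j ∈ F.filter (fun j : G.edgeSet => (j : Sym2 ℕ) ∈ A), |h j|) ≤ ∑ j ∈ F, |h j| :=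
      Finset.sum_le_sum_of_subset_of_nonneg (Finset.filter_subset _ _)
        (fun j _ _ => abs_nonneg _)
    have h4 := Finset.abs_sum_le_sum_abs h (F.filter (fun j : G.edgeSet => (j : Sym2 ℕ) ∈ A))
    have h5 := neg_abs_le (∑ j ∈ F.filter (fun j : G.edgeSet => (j : Sym2 ℕ) ∈ A), h j)
    linarith
  have h2 := Finset.sum_le_sum this
  rw [Finset.sum_const, nsmul_eq_mul] at h2
  linarith

end FusfAux

open FusfAux in
/-- Proof: weak limit (ultrafilter / `CompactSpace (ProbabilityMeasure _)`) of the uniform spanning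
tree laws of an exhaustion; each of these satisfies `LipOcc _ 2`; cylinders are clopen; `LipOcc`
passes to the limit; values by `exists_ust_limit`. -/
theorem exists_fusf (G : SimpleGraph ℕ) (hG : G.Connected) :
    ∃ ν : Measure (G.edgeSet → Bool), IsProbabilityMeasure ν ∧ LipOcc ν 2 ∧
      ∀ (A : Finset (Sym2 ℕ)), (A : Set (Sym2 ℕ)) ⊆ G.edgeSet →
        ∀ S : ℕ → Finset ℕ, Monotone S → (∀ v : ℕ, ∃ n, v ∈ S n) →
          (∀ n, (G.induce (S n : Set ℕ)).Connected) →
          Tendsto (fun n => ustContains G (S n) A) atTop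
            (𝓝 (ν {ω | ∀ e : G.edgeSet, (e : Sym2 ℕ) ∈ A → ω e = true}).toReal) := by
  classical
  obtain ⟨S, hSm, hSc, hSconn⟩ := exists_exhaustion G hG
  let μ : ℕ → ProbabilityMeasure (G.edgeSet → Bool) :=
    fun n => ⟨ustLaw G (S n), isProb_ustLaw (hSconn n)⟩
  -- ultrafilter limit
  let 𝒰 : Ultrafilter ℕ := Ultrafilter.of atTop
  have h𝒰 : (𝒰 : Filter ℕ) ≤ atTop := Ultrafilter.of_le atTop
  obtain ⟨ν, -, hν⟩ := isCompact_univ.ultrafilter_le_nhds (𝒰.map μ) (by simp)
  have hν' : Tendsto μ 𝒰 (𝓝 ν) := hν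
  have hclopen : ∀ {E : Set (G.edgeSet → Bool)}, IsClopen E →
      Tendsto (fun n => (ustLaw G (S n) E).toReal) 𝒰 (𝓝 ((ν : Measure (G.edgeSet → Bool)) E).toReal) := by
    intro E hE
    have h1 : Tendsto (fun n => ((μ n : ProbabilityMeasure (G.edgeSet → Bool)) : Measure (G.edgeSet → Bool)) E)
        𝒰 (𝓝 ((ν : Measure (G.edgeSet → Bool)) E)) :=
      ProbabilityMeasure.tendsto_measure_of_null_frontier_of_tendsto' hν' (by simp [hE.frontier_eq])
    have h2 := (ENNReal.tendsto_toReal (measure_ne_top (ν : Measure (G.edgeSet → Bool)) E)).comp h1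
    exact h2
  refine ⟨ν, inferInstance, ?_, ?_⟩
  · -- LipOcc
    intro F i hi h h' s hs
    have hcyl : ∀ T, Tendsto (fun n => cyl (ustLaw G (S n)) F T) 𝒰 (𝓝 (cyl ν F T)) :=
      fun T => hclopen (isClopen_cyl F T)
    have hZw : ∀ h, Tendsto (fun n => Zw (cyl (ustLaw G (S n))) F h) 𝒰 (𝓝 (Zw (cyl ν) F h)) := by
      intro h
      unfold Zw
      exact tendsto_finsetSum _ fun T _ => (hcyl T).mul_const _
    have hZo : ∀ h, Tendsto (fun n => Zo (cyl (ustLaw G (S n))) F i h) 𝒰 (𝓝 (Zo (cyl ν) F i h)) := by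
      intro h
      unfold Zo
      refine tendsto_finsetSum _ fun T _ => ?_
      split_ifs
      · exact (hcyl T).mul_const _
      · exact tendsto_const_nhds
    have hZpos : ∀ h, 0 < Zw (cyl ν) F h := by
      intro h
      have := ge_of_tendsto (hZw h) (Eventually.of_forall fun n => Zw_lower (hSconn n) F h)
      exact lt_of_lt_of_le (Real.exp_pos _) this
    have hocc : ∀ h, Tendsto (fun n => occ (cyl (ustLaw G (S n))) F i h) 𝒰 (𝓝 (occ (cyl ν) F i h)) :=
      fun h => (hZo h).div (hZw h) (hZpos h).ne'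
    have hlim := ((hocc h).sub (hocc h')).abs
    exact le_of_tendsto hlim (Eventually.of_forall fun n => lip_ustLaw G (hSconn n) F i hi h h' s hs)
  · intro A hA T hTm hTc hTconn
    obtain ⟨q, hq⟩ := exists_ust_limit G hG A hA
    have h1 := hq T hTm hTc hTconn
    have h2 := (hq S hSm hSc hSconn).mono_left h𝒰
    have h3 := hclopen (isClopen_cont G A)
    have h4 : ∀ n, ustContains G (S n) A =
        (ustLaw G (S n) {ω | ∀ e : G.edgeSet, (e : Sym2 ℕ) ∈ A → ω e = true}).toReal := by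
      intro n
      rw [ustLaw_apply _ _ (isClopen_cont G A).isOpen.measurableSet, UST.ust_eq, UST.W_one, UST.W_one]
      congr 3
      · ext B
        simp only [Finset.mem_filter, Set.mem_ofPred_eq, conf_eq_true]
        refine and_congr_right fun _ => ?_
        constructor
        · intro h e he; exact h he
        · intro h e he; exact h ⟨e, hA he⟩ he
      · simp
    have h5 : q = ((ν : Measure (G.edgeSet → Bool))
        {ω | ∀ e : G.edgeSet, (e : Sym2 ℕ) ∈ A → ω e = true}).toReal := by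
      apply tendsto_nhds_unique h2
      simp_rw [h4]
      exact h3
    rw [← h5]
    exact h1

end Crest.Agent.R168
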