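import Crest.Agent.R168.Defs

/-! T10: the prediction functions of the FUSF, as canonical measurable functions of the graph. -/

set_option autoImplicit false

namespace Crest.Agent.R168

open MeasureTheory ProbabilityTheory Filter Topology
open Crest.ProbabilityR.SpanningTrees Crest.ProbabilityR.GraphTables

noncomputable section

/-- vertices within distance `n` of the pair `e`. -/
def bset (G : SimpleGraph ℕ) (e : Sym2 ℕ) : ℕ → Set ℕ
  | 0 => {v | v ∈ e}
  | n + 1 => bset G e n ∪ {v | ∃ w ∈ bset G e n, G.Adj w v}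

open scoped Classical in
/-- the same as a finset (empty if infinite). -/
def ball (G : SimpleGraph ℕ) (e : Sym2 ℕ) (n : ℕ) : Finset ℕ :=
  if h : (bset G e n).Finite then h.toFinset else ∅

/-- limit of `P(A ⊆ UST)` along balls around `e`. -/
def qG (G : SimpleGraph ℕ) (e : Sym2 ℕ) (A : Finset (Sym2 ℕ)) : ℝ :=
  limsup (fun n => ustContains G (ball G e n) A) atTop

open scoped Classical in
/-- cylinder probabilities by inclusion-exclusion. -/
def cG (G : SimpleGraph ℕ) (e : Sym2 ℕ) (F S : Finset (Sym2 ℕ)) : ℝ :=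
  ∑ A ∈ F.powerset, if S ⊆ A then (-1 : ℝ) ^ (A.card - S.card) * qG G e A else 0

/-- prediction functions. -/
def PG (G : SimpleGraph ℕ) (e : Sym2 ℕ) (n : ℕ) (h : Sym2 ℕ → ℝ) : ℝ :=
  occ (cG G e) (edgesIn G (ball G e n)) e h

/-! ### measurability -/

theorem meas_of_discrete {Ω D γ : Type*} [MeasurableSpace Ω] [MeasurableSpace γ] [Countable D]
    (F : Ω → D) (hF : ∀ d, MeasurableSet {ω | F ω = d}) (K : D → Ω → γ)
    (hK : ∀ d, Measurable (K d)) : Measurable (fun ω => K (F ω) ω) := by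
  intro s hs
  have : (fun ω => K (F ω) ω) ⁻¹' s = ⋃ d, ({ω | F ω = d} ∩ (K d) ⁻¹' s) := by
    ext ω
    simp
  rw [this]
  exact MeasurableSet.iUnion fun d => (hF d).inter (hK d hs)

theorem graphOfTable_adj (A : ℕ → ℕ → Bool) (i j : ℕ) :
    (graphOfTable A).Adj i j ↔ i ≠ j ∧ (A i j = true ∨ A j i = true) := by
  simp [graphOfTable]

theorem meas_entry (i j : ℕ) : MeasurableSet {A : ℕ → ℕ → Bool | A i j = true} := by
  have h : Measurable (fun A : ℕ → ℕ → Bool => A i j) :=
    (measurable_pi_apply j).comp (measurable_pi_apply i)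
  exact h (MeasurableSet.singleton true)

theorem meas_adj (i j : ℕ) : MeasurableSet {A : ℕ → ℕ → Bool | (graphOfTable A).Adj i j} := by
  have : {A : ℕ → ℕ → Bool | (graphOfTable A).Adj i j} =
      {A | i ≠ j} ∩ ({A : ℕ → ℕ → Bool | A i j = true} ∪ {A : ℕ → ℕ → Bool | A j i = true}) := by
    ext A
    simp [graphOfTable_adj]
  rw [this]
  exact (MeasurableSet.const _).inter ((meas_entry i j).union (meas_entry j i))

theorem meas_edge (f : Sym2 ℕ) :
    MeasurableSet {A : ℕ → ℕ → Bool | f ∈ (graphOfTable A).edgeSet} := by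
  induction f using Sym2.ind with
  | _ i j => simpa using meas_adj i j

theorem meas_bset (e : Sym2 ℕ) (n v : ℕ) :
    MeasurableSet {A : ℕ → ℕ → Bool | v ∈ bset (graphOfTable A) e n} := by
  induction n generalizing v with
  | zero => exact MeasurableSet.const _
  | succ n ih =>
    have : {A : ℕ → ℕ → Bool | v ∈ bset (graphOfTable A) e (n + 1)} =
        {A | v ∈ bset (graphOfTable A) e n} ∪
          ⋃ w, ({A | w ∈ bset (graphOfTable A) e n} ∩ {A | (graphOfTable A).Adj w v}) := by
      ext A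
      simp [bset]
    rw [this]
    exact (ih v).union (MeasurableSet.iUnion fun w => (ih w).inter (meas_adj w v))

theorem meas_bset_finite (e : Sym2 ℕ) (n : ℕ) :
    MeasurableSet {A : ℕ → ℕ → Bool | (bset (graphOfTable A) e n).Finite} := by
  have : {A : ℕ → ℕ → Bool | (bset (graphOfTable A) e n).Finite} =
      ⋃ N : ℕ, ⋂ v : ℕ, ({A | v ∈ bset (graphOfTable A) e n}ᶜ ∪ {A | v ≤ N}) := by
    ext A
    simp only [Set.mem_ofPred_eq, Set.mem_iUnion, Set.mem_iInter, Set.mem_union, Set.mem_compl_iff]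
    constructor
    · intro h
      obtain ⟨N, hN⟩ := h.bddAbove
      refine ⟨N, fun v => ?_⟩
      by_cases hv : v ∈ bset (graphOfTable A) e n
      · exact Or.inr (hN hv)
      · exact Or.inl hv
    · rintro ⟨N, hN⟩
      refine (Set.finite_Iic N).subset fun v hv => ?_
      rcases hN v with h | h
      · exact absurd hv h
      · exact h
  rw [this]
  exact MeasurableSet.iUnion fun N => MeasurableSet.iInter fun v =>
    (meas_bset e n v).compl.union (MeasurableSet.const _)

theorem mem_ball_iff (G : SimpleGraph ℕ) (e : Sym2 ℕ) (n v : ℕ) :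
    v ∈ ball G e n ↔ (bset G e n).Finite ∧ v ∈ bset G e n := by
  unfold ball
  split_ifs with h
  · simp [h]
  · simp [h]

theorem meas_ball (e : Sym2 ℕ) (n : ℕ) (S : Finset ℕ) :
    MeasurableSet {A : ℕ → ℕ → Bool | ball (graphOfTable A) e n = S} := by
  have : {A : ℕ → ℕ → Bool | ball (graphOfTable A) e n = S} =
      ⋂ v : ℕ, {A | (v ∈ S ↔ (bset (graphOfTable A) e n).Finite ∧
        v ∈ bset (graphOfTable A) e n)} := by
    ext A
    simp only [Set.mem_ofPred_eq, Set.mem_iInter]
    constructor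
    · rintro rfl v
      exact mem_ball_iff _ _ _ _
    · intro h
      ext v
      rw [mem_ball_iff, h v]
  rw [this]
  refine MeasurableSet.iInter fun v => ?_
  by_cases hv : v ∈ S
  · have := (meas_bset_finite e n).inter (meas_bset e n v)
    convert this using 1
    ext A
    simp [hv]
  · have := ((meas_bset_finite e n).inter (meas_bset e n v)).compl
    convert this using 1
    ext A
    simp [hv]

instance : Countable (Sym2 ℕ) := by
  unfold Sym2
  infer_instance

theorem mem_edgesIn_iff (G : SimpleGraph ℕ) (S : Finset ℕ) (f : Sym2 ℕ) :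
    f ∈ edgesIn G S ↔ (∀ v ∈ f, v ∈ S) ∧ f ∈ G.edgeSet := by
  simp [edgesIn, Finset.mem_sym2_iff]

theorem meas_edgesIn (S : Finset ℕ) (F : Finset (Sym2 ℕ)) :
    MeasurableSet {A : ℕ → ℕ → Bool | edgesIn (graphOfTable A) S = F} := by
  have : {A : ℕ → ℕ → Bool | edgesIn (graphOfTable A) S = F} =
      ⋂ f : Sym2 ℕ, {A | (f ∈ F ↔ (∀ v ∈ f, v ∈ S) ∧ f ∈ (graphOfTable A).edgeSet)} := by
    ext A
    simp only [Set.mem_ofPred_eq, Set.mem_iInter]
    constructor
    · rintro rfl v
      exact mem_edgesIn_iff _ _ _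
    · intro h
      ext v
      rw [mem_edgesIn_iff, h v]
  rw [this]
  refine MeasurableSet.iInter fun f => ?_
  by_cases hf : f ∈ F
  · by_cases hS : ∀ v ∈ f, v ∈ S
    · have := meas_edge f
      convert this using 1
      ext A
      simp only [Set.mem_ofPred_eq]
      tauto
    · simp [hf, hS]
  · by_cases hS : ∀ v ∈ f, v ∈ S
    · have := (meas_edge f).compl
      convert this using 1
      ext A
      simp only [Set.mem_ofPred_eq, Set.mem_compl_iff]
      tauto
    · simp [hf, hS]

open scoped Classical in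
/-- `ustContains` as a function of the edge set of the piece. -/
def ustE (E : Finset (Sym2 ℕ)) (S : Finset ℕ) (F : Finset (Sym2 ℕ)) : ℝ :=
  ((E.powerset.filter (fun A => (A ⊆ E ∧
    ((SimpleGraph.fromEdgeSet (A : Set (Sym2 ℕ))).induce (S : Set ℕ)).IsTree) ∧ F ⊆ A)).card : ℝ) /
  ((E.powerset.filter (fun A => (A ⊆ E ∧
    ((SimpleGraph.fromEdgeSet (A : Set (Sym2 ℕ))).induce (S : Set ℕ)).IsTree))).card : ℝ)

theorem ustContains_eq (G : SimpleGraph ℕ) (S : Finset ℕ) (F : Finset (Sym2 ℕ)) :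
    ustContains G S F = ustE (edgesIn G S) S F := by
  unfold ustContains ustE IsSpanningTreeOn
  congr!

theorem meas_ust (S : Finset ℕ) (F : Finset (Sym2 ℕ)) :
    Measurable (fun A : ℕ → ℕ → Bool => ustContains (graphOfTable A) S F) := by
  simp only [ustContains_eq]
  exact meas_of_discrete (fun A : ℕ → ℕ → Bool => edgesIn (graphOfTable A) S)
    (fun d => meas_edgesIn S d) (fun E _ => ustE E S F) (fun _ => measurable_const)

theorem meas_ust_ball (e : Sym2 ℕ) (n : ℕ) (F : Finset (Sym2 ℕ)) :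
    Measurable (fun A : ℕ → ℕ → Bool =>
      ustContains (graphOfTable A) (ball (graphOfTable A) e n) F) :=
  meas_of_discrete (fun A : ℕ → ℕ → Bool => ball (graphOfTable A) e n)
    (fun d => meas_ball e n d) (fun S A => ustContains (graphOfTable A) S F)
    (fun S => meas_ust S F)

theorem meas_qG (e : Sym2 ℕ) (F : Finset (Sym2 ℕ)) :
    Measurable (fun A : ℕ → ℕ → Bool => qG (graphOfTable A) e F) :=
  Measurable.limsup fun n => meas_ust_ball e n F

theorem meas_cG (e : Sym2 ℕ) (F S : Finset (Sym2 ℕ)) :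
    Measurable (fun A : ℕ → ℕ → Bool => cG (graphOfTable A) e F S) := by
  unfold cG
  refine Finset.measurable_fun_sum _ fun B _ => ?_
  split_ifs
  · exact (meas_qG e B).const_mul _
  · exact measurable_const

theorem meas_occ (e : Sym2 ℕ) (F : Finset (Sym2 ℕ)) :
    Measurable (fun q : (ℕ → ℕ → Bool) × (Sym2 ℕ → ℝ) =>
      occ (cG (graphOfTable q.1) e) F e q.2) := by
  have hexp : ∀ S : Finset (Sym2 ℕ), Measurable
      (fun q : (ℕ → ℕ → Bool) × (Sym2 ℕ → ℝ) =>
        cG (graphOfTable q.1) e F S * Real.exp (∑ j ∈ S, q.2 j)) := by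
    intro S
    refine ((meas_cG e F S).comp measurable_fst).mul (Real.measurable_exp.comp ?_)
    exact Finset.measurable_fun_sum _ fun j _ => (measurable_pi_apply j).comp measurable_snd
  unfold occ Zo Zw
  refine Measurable.div ?_ ?_
  · refine Finset.measurable_fun_sum _ fun S _ => ?_
    split_ifs
    · exact hexp S
    · exact measurable_const
  · exact Finset.measurable_fun_sum _ fun S _ => hexp S

theorem measurable_PG (e : Sym2 ℕ) (n : ℕ) :
    Measurable (fun q : (ℕ → ℕ → Bool) × (Sym2 ℕ → ℝ) => PG (graphOfTable q.1) e n q.2) := by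
  unfold PG
  refine meas_of_discrete (fun q : (ℕ → ℕ → Bool) × (Sym2 ℕ → ℝ) =>
      edgesIn (graphOfTable q.1) (ball (graphOfTable q.1) e n)) (fun d => ?_)
    (fun F q => occ (cG (graphOfTable q.1) e) F e q.2) (fun F => meas_occ e F)
  have h1 : MeasurableSet {A : ℕ → ℕ → Bool |
      edgesIn (graphOfTable A) (ball (graphOfTable A) e n) = d} := by
    have : {A : ℕ → ℕ → Bool | edgesIn (graphOfTable A) (ball (graphOfTable A) e n) = d} =
        ⋃ S : Finset ℕ, ({A | ball (graphOfTable A) e n = S} ∩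
          {A | edgesIn (graphOfTable A) S = d}) := by
      ext A
      simp
    rw [this]
    exact MeasurableSet.iUnion fun S => (meas_ball e n S).inter (meas_edgesIn S d)
  exact measurable_fst h1

/-! ### equivariance -/

theorem powerset_map' {α β : Type*} (f : α ↪ β) (s : Finset α) :
    (s.map f).powerset = s.powerset.map (Finset.mapEmbedding f).toEmbedding := by
  ext t
  simp only [Finset.mem_powerset, Finset.mem_map, RelEmbedding.coe_toEmbedding,
    Finset.mapEmbedding_apply]
  constructor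
  · intro h
    obtain ⟨u, hu, rfl⟩ := Finset.subset_map_iff.1 h
    exact ⟨u, hu, rfl⟩
  · rintro ⟨u, hu, rfl⟩
    exact Finset.map_subset_map.2 hu

theorem sum_powerset_map {α β : Type*} (f : α ↪ β) (s : Finset α) (g : Finset β → ℝ) :
    ∑ t ∈ (s.map f).powerset, g t = ∑ t ∈ s.powerset, g (t.map f) := by
  rw [powerset_map', Finset.sum_map]
  rfl

/-- the embedding of pairs induced by a permutation. -/
def sE (σ : Equiv.Perm ℕ) : Sym2 ℕ ↪ Sym2 ℕ := σ.toEmbedding.sym2Map

theorem sE_apply (σ : Equiv.Perm ℕ) (f : Sym2 ℕ) : sE σ f = Sym2.map ⇑σ f := rfl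

theorem bset_comap (σ : Equiv.Perm ℕ) (G : SimpleGraph ℕ) (e : Sym2 ℕ) (n v : ℕ) :
    v ∈ bset (G.comap ⇑σ) e n ↔ σ v ∈ bset G (Sym2.map ⇑σ e) n := by
  induction n generalizing v with
  | zero =>
    simp [bset, Sym2.mem_map]
  | succ n ih =>
    simp only [bset, Set.mem_union, Set.mem_ofPred_eq, ih, SimpleGraph.comap_adj]
    constructor
    · rintro (h | ⟨w, hw, hwv⟩)
      · exact Or.inl h
      · exact Or.inr ⟨σ w, hw, hwv⟩
    · rintro (h | ⟨w, hw, hwv⟩)
      · exact Or.inl h
      · exact Or.inr ⟨σ.symm w, by simpa using hw, by simpa using hwv⟩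

theorem bset_comap_finite (σ : Equiv.Perm ℕ) (G : SimpleGraph ℕ) (e : Sym2 ℕ) (n : ℕ) :
    (bset (G.comap ⇑σ) e n).Finite ↔ (bset G (Sym2.map ⇑σ e) n).Finite := by
  have : bset (G.comap ⇑σ) e n = ⇑σ ⁻¹' bset G (Sym2.map ⇑σ e) n := by
    ext v
    exact bset_comap σ G e n v
  rw [this]
  exact ⟨fun h => h.of_preimage σ.surjective, fun h => h.preimage σ.injective.injOn⟩

theorem ball_comap (σ : Equiv.Perm ℕ) (G : SimpleGraph ℕ) (e : Sym2 ℕ) (n : ℕ) :
    ball G (Sym2.map ⇑σ e) n = (ball (G.comap ⇑σ) e n).map σ.toEmbedding := by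
  ext v
  simp only [Finset.mem_map, mem_ball_iff, bset_comap_finite, bset_comap, Equiv.coe_toEmbedding]
  constructor
  · rintro ⟨h1, h2⟩
    exact ⟨σ.symm v, ⟨h1, by simpa using h2⟩, by simp⟩
  · rintro ⟨w, ⟨h1, h2⟩, rfl⟩
    exact ⟨h1, h2⟩

theorem edgesIn_comap (σ : Equiv.Perm ℕ) (G : SimpleGraph ℕ) (S : Finset ℕ) :
    edgesIn G (S.map σ.toEmbedding) = (edgesIn (G.comap ⇑σ) S).map (sE σ) := by
  ext f
  simp only [Finset.mem_map, mem_edgesIn_iff, sE_apply]
  constructor
  · rintro ⟨h1, h2⟩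
    refine ⟨Sym2.map ⇑σ.symm f, ⟨?_, ?_⟩, ?_⟩
    · intro v hv
      obtain ⟨w, hw, rfl⟩ := Sym2.mem_map.1 hv
      obtain ⟨u, hu, hu'⟩ := h1 w hw
      rw [← hu']
      simpa using hu
    · induction f using Sym2.ind with
      | _ i j => simpa using h2
    · rw [Sym2.map_map]
      simp
  · rintro ⟨g, ⟨h1, h2⟩, rfl⟩
    constructor
    · intro v hv
      obtain ⟨w, hw, rfl⟩ := Sym2.mem_map.1 hv
      exact ⟨w, h1 w hw, rfl⟩
    · induction g using Sym2.ind with
      | _ i j => simpa using h2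

/-- the isomorphism of edge graphs induced by a permutation. -/
def fesIso (σ : Equiv.Perm ℕ) (A : Finset (Sym2 ℕ)) :
    SimpleGraph.fromEdgeSet (A : Set (Sym2 ℕ)) ≃g
      SimpleGraph.fromEdgeSet ((A.map (sE σ) : Finset (Sym2 ℕ)) : Set (Sym2 ℕ)) where
  toEquiv := σ
  map_rel_iff' := by
    intro a b
    simp only [SimpleGraph.fromEdgeSet_adj, Finset.coe_map, ne_eq,
      EmbeddingLike.apply_eq_iff_eq]
    have : s(σ a, σ b) = sE σ s(a, b) := rfl
    rw [this, (sE σ).injective.mem_set_image]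

theorem fromEdgeSet_iso (σ : Equiv.Perm ℕ) (A : Finset (Sym2 ℕ)) (S : Finset ℕ) :
    ((SimpleGraph.fromEdgeSet ((A.map (sE σ) : Finset (Sym2 ℕ)) : Set (Sym2 ℕ))).induce
      ((S.map σ.toEmbedding : Finset ℕ) : Set ℕ)).IsTree ↔
    ((SimpleGraph.fromEdgeSet (A : Set (Sym2 ℕ))).induce (S : Set ℕ)).IsTree := by
  have hb : Set.BijOn (fesIso σ A) (S : Set ℕ) ((S.map σ.toEmbedding : Finset ℕ) : Set ℕ) := by
    have h : Set.BijOn (⇑σ) (S : Set ℕ) ((S.map σ.toEmbedding : Finset ℕ) : Set ℕ) := by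
      rw [Finset.coe_map]
      exact σ.injective.injOn.bijOn_image
    exact h
  exact ((fesIso σ A).induce hb).isTree_iff.symm

theorem card_filter_powerset_map {α β : Type*} (f : α ↪ β) (E : Finset α)
    (p : Finset β → Prop) (p' : Finset α → Prop) [DecidablePred p] [DecidablePred p']
    (h : ∀ A, p (A.map f) ↔ p' A) :
    ((E.map f).powerset.filter p).card = (E.powerset.filter p').card := by
  rw [powerset_map', Finset.filter_map, Finset.card_map]
  congr 1
  exact Finset.filter_congr fun A _ => h A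

open scoped Classical in
theorem ustE_map (σ : Equiv.Perm ℕ) (E : Finset (Sym2 ℕ)) (S : Finset ℕ)
    (F : Finset (Sym2 ℕ)) :
    ustE (E.map (sE σ)) (S.map σ.toEmbedding) (F.map (sE σ)) = ustE E S F := by
  unfold ustE
  congr 2
  · refine card_filter_powerset_map (sE σ) E _ _ fun A => ?_
    simp only [Finset.map_subset_map, fromEdgeSet_iso]
  · refine card_filter_powerset_map (sE σ) E _ _ fun A => ?_
    simp only [Finset.map_subset_map, fromEdgeSet_iso]

theorem ustContains_comap (σ : Equiv.Perm ℕ) (G : SimpleGraph ℕ) (S : Finset ℕ)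
    (A : Finset (Sym2 ℕ)) :
    ustContains G (S.map σ.toEmbedding) (A.map (sE σ)) = ustContains (G.comap ⇑σ) S A := by
  rw [ustContains_eq, ustContains_eq, edgesIn_comap, ustE_map]

theorem qG_comap (σ : Equiv.Perm ℕ) (G : SimpleGraph ℕ) (e : Sym2 ℕ) (A : Finset (Sym2 ℕ)) :
    qG G (Sym2.map ⇑σ e) (A.map (sE σ)) = qG (G.comap ⇑σ) e A := by
  unfold qG
  simp only [ball_comap, ustContains_comap]

theorem cG_comap (σ : Equiv.Perm ℕ) (G : SimpleGraph ℕ) (e : Sym2 ℕ)
    (F S : Finset (Sym2 ℕ)) :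
    cG G (Sym2.map ⇑σ e) (F.map (sE σ)) (S.map (sE σ)) = cG (G.comap ⇑σ) e F S := by
  unfold cG
  rw [sum_powerset_map]
  refine Finset.sum_congr rfl fun A _ => ?_
  simp only [Finset.map_subset_map, Finset.card_map, qG_comap]

theorem PG_comap (σ : Equiv.Perm ℕ) (G : SimpleGraph ℕ) (e : Sym2 ℕ) (n : ℕ)
    (h : Sym2 ℕ → ℝ) :
    PG G (Sym2.map ⇑σ e) n h = PG (G.comap ⇑σ) e n (h ∘ Sym2.map ⇑σ) := by
  unfold PG occ Zo Zw
  rw [ball_comap, edgesIn_comap, sum_powerset_map, sum_powerset_map]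
  congr 1
  · refine Finset.sum_congr rfl fun A _ => ?_
    rw [cG_comap, Finset.sum_map]
    have : Sym2.map ⇑σ e ∈ A.map (sE σ) ↔ e ∈ A := Finset.mem_map' (sE σ)
    by_cases he : e ∈ A
    · rw [if_pos (this.2 he), if_pos he]
      rfl
    · rw [if_neg (fun h => he (this.1 h)), if_neg he]
  · refine Finset.sum_congr rfl fun A _ => ?_
    rw [cG_comap, Finset.sum_map]
    rfl

/-! ### balls exhaust -/

theorem bset_finite (G : SimpleGraph ℕ) (hlf : ∀ v : ℕ, (G.neighborSet v).Finite) (e : Sym2 ℕ)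
    (n : ℕ) : (bset G e n).Finite := by
  induction n with
  | zero =>
    induction e using Sym2.ind with
    | _ i j =>
      refine (Set.toFinite ({i, j} : Set ℕ)).subset fun v hv => ?_
      simpa [bset] using hv
  | succ n ih =>
    refine ih.union ?_
    have : {v | ∃ w ∈ bset G e n, G.Adj w v} = ⋃ w ∈ bset G e n, G.neighborSet w := by
      ext v
      simp
    rw [this]
    exact ih.biUnion fun w _ => hlf w

theorem bset_mono (G : SimpleGraph ℕ) (e : Sym2 ℕ) : Monotone (bset G e) :=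
  monotone_nat_of_le_succ fun _ => Set.subset_union_left

theorem coe_ball (G : SimpleGraph ℕ) (hlf : ∀ v : ℕ, (G.neighborSet v).Finite) (e : Sym2 ℕ)
    (n : ℕ) : (ball G e n : Set ℕ) = bset G e n := by
  ext v
  simp [mem_ball_iff, bset_finite G hlf e n]

theorem bset_connected (G : SimpleGraph ℕ) (e : Sym2 ℕ) (he : e ∈ G.edgeSet) (n : ℕ) :
    (G.induce (bset G e n)).Connected := by
  induction e using Sym2.ind with
  | _ a b =>
    have hab : G.Adj a b := by simpa using he
    have ha : ∀ n, a ∈ bset G s(a, b) n := fun n =>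
      bset_mono G s(a, b) (Nat.zero_le n) (by simp [bset])
    rw [SimpleGraph.connected_iff_exists_forall_reachable]
    refine ⟨⟨a, ha n⟩, ?_⟩
    rintro ⟨v, hv⟩
    induction n generalizing v with
    | zero =>
      have hv' : v = a ∨ v = b := by simpa [bset] using hv
      rcases hv' with rfl | rfl
      · exact SimpleGraph.Reachable.refl _
      · refine SimpleGraph.Adj.reachable ?_
        simpa using hab
    | succ n ih =>
      have hsub : bset G s(a, b) n ⊆ bset G s(a, b) (n + 1) := bset_mono G _ (Nat.le_succ n)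
      have hmap : ∀ w (hw : w ∈ bset G s(a, b) n),
          (G.induce (bset G s(a, b) (n + 1))).Reachable ⟨a, ha (n + 1)⟩ ⟨w, hsub hw⟩ := by
        intro w hw
        have := (ih w hw).map (G.induceHomOfLE hsub).toHom
        exact this
      rcases hv with hv | ⟨w, hw, hwv⟩
      · exact hmap v hv
      · refine (hmap w hw).trans (SimpleGraph.Adj.reachable ?_)
        simpa using hwv

theorem exists_mem_bset (G : SimpleGraph ℕ) (hG : G.Connected) (e : Sym2 ℕ) (v : ℕ) :
    ∃ n, v ∈ bset G e n := by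
  induction e using Sym2.ind with
  | _ a b =>
    obtain ⟨p⟩ := hG.preconnected a v
    have key : ∀ {x y : ℕ} (p : G.Walk x y) (n : ℕ), x ∈ bset G s(a, b) n →
        ∃ m, y ∈ bset G s(a, b) m := by
      intro x y p
      induction p with
      | nil => exact fun n hn => ⟨n, hn⟩
      | cons h p ih => exact fun n hn => ih (n + 1) (Or.inr ⟨_, hn, h⟩)
    exact key p 0 (by simp [bset])

theorem ball_spec (G : SimpleGraph ℕ) (hG : G.Connected)
    (hlf : ∀ v : ℕ, (G.neighborSet v).Finite) (e : Sym2 ℕ) (he : e ∈ G.edgeSet) :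
    Monotone (ball G e) ∧ (∀ v : ℕ, ∃ n, v ∈ ball G e n) ∧
      (∀ n, (G.induce (ball G e n : Set ℕ)).Connected) ∧
      (∀ n, e ∈ edgesIn G (ball G e n)) ∧
      (∀ n, (edgesIn G (ball G e n) : Set (Sym2 ℕ)) ⊆ G.edgeSet) ∧
      (∀ f ∈ G.edgeSet, ∃ n, f ∈ edgesIn G (ball G e n)) := by
  have hmem : ∀ n v, v ∈ ball G e n ↔ v ∈ bset G e n := fun n v => by
    simp [mem_ball_iff, bset_finite G hlf e n]
  have hmono : Monotone (ball G e) := by
    intro m n hmn v hv
    rw [hmem] at hv ⊢
    exact bset_mono G e hmn hv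
  have hex : ∀ v : ℕ, ∃ n, v ∈ ball G e n := fun v => by
    obtain ⟨n, hn⟩ := exists_mem_bset G hG e v
    exact ⟨n, (hmem n v).2 hn⟩
  refine ⟨hmono, hex, ?_, ?_, ?_, ?_⟩
  · intro n
    rw [coe_ball G hlf]
    exact bset_connected G e he n
  · intro n
    rw [mem_edgesIn_iff]
    refine ⟨fun v hv => ?_, he⟩
    rw [hmem]
    exact bset_mono G e (Nat.zero_le n) hv
  · intro n f hf
    exact ((mem_edgesIn_iff _ _ _).1 (by simpa using hf)).2
  · intro f hf
    induction f using Sym2.ind with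
    | _ i j =>
      obtain ⟨m, hm⟩ := hex i
      obtain ⟨n, hn⟩ := hex j
      refine ⟨max m n, ?_⟩
      rw [mem_edgesIn_iff]
      refine ⟨fun v hv => ?_, hf⟩
      rcases Sym2.mem_iff.1 hv with rfl | rfl
      · exact hmono (le_max_left m n) hm
      · exact hmono (le_max_right m n) hn

/-! ### identification with the cylinder probabilities -/

open scoped Classical in
theorem cyl_eq_incl_excl {V : Type*} (ν : Measure (V → Bool)) [IsProbabilityMeasure ν]
    (F S : Finset V) (hS : S ⊆ F) :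
    cyl ν F S = ∑ A ∈ F.powerset, if S ⊆ A then
      (-1 : ℝ) ^ (A.card - S.card) * (ν {ω | ∀ i ∈ A, ω i = true}).toReal else 0 := by
  set x : V → (V → Bool) → ℝ := fun i ω => if ω i = true then 1 else 0 with hx
  have hms : ∀ i : V, MeasurableSet {ω : V → Bool | ω i = true} := fun i => by
    have h : Measurable (fun ω : V → Bool => ω i) := measurable_pi_apply i
    exact h (MeasurableSet.singleton true)
  have hxm : ∀ i, Measurable (x i) := fun i =>
    Measurable.ite (hms i) measurable_const measurable_const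
  have hall : ∀ A : Finset V, MeasurableSet {ω : V → Bool | ∀ i ∈ A, ω i = true} := by
    intro A
    have : {ω : V → Bool | ∀ i ∈ A, ω i = true} = ⋂ i ∈ A, {ω | ω i = true} := by
      ext ω
      simp
    rw [this]
    exact A.measurableSet_biInter fun i _ => hms i
  have hprod : ∀ A : Finset V, (fun ω => ∏ i ∈ A, x i ω) =
      Set.indicator {ω : V → Bool | ∀ i ∈ A, ω i = true} 1 := by
    intro A
    ext ω
    by_cases h : ∀ i ∈ A, ω i = true
    · rw [Set.indicator_of_mem (show ω ∈ {ω : V → Bool | ∀ i ∈ A, ω i = true} from h)]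
      exact Finset.prod_eq_one fun i hi => by simp [hx, h i hi]
    · rw [Set.indicator_of_notMem (show ω ∉ {ω : V → Bool | ∀ i ∈ A, ω i = true} from h)]
      push Not at h
      obtain ⟨i, hi, hi'⟩ := h
      exact Finset.prod_eq_zero hi (by simp [hx, hi'])
  have hint : ∀ A : Finset V, ∫ ω, ∏ i ∈ A, x i ω ∂ν =
      (ν {ω | ∀ i ∈ A, ω i = true}).toReal := by
    intro A
    rw [hprod A, integral_indicator_one (hall A)]
    rfl
  have hcyl : MeasurableSet {ω : V → Bool | ∀ i ∈ F, (ω i = true ↔ i ∈ S)} := by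
    have : {ω : V → Bool | ∀ i ∈ F, (ω i = true ↔ i ∈ S)} =
        ⋂ i ∈ F, {ω | (ω i = true ↔ i ∈ S)} := by
      ext ω
      simp
    rw [this]
    refine F.measurableSet_biInter fun i _ => ?_
    by_cases hi : i ∈ S
    · simpa [hi] using hms i
    · have := (hms i).compl
      convert this using 1
      ext ω
      simp [hi]
  have hpt : (fun ω => ∑ T ∈ (F \ S).powerset, (-1 : ℝ) ^ T.card * ∏ i ∈ S ∪ T, x i ω) =
      Set.indicator {ω : V → Bool | ∀ i ∈ F, (ω i = true ↔ i ∈ S)} 1 := by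
    ext ω
    have h1 : ∑ T ∈ (F \ S).powerset, (-1 : ℝ) ^ T.card * ∏ i ∈ S ∪ T, x i ω =
        (∏ i ∈ S, x i ω) * ∏ i ∈ F \ S, (1 - x i ω) := by
      have h2 : ∏ i ∈ F \ S, (1 - x i ω) = ∏ i ∈ F \ S, (-x i ω + 1) :=
        Finset.prod_congr rfl fun i _ => by ring
      rw [h2, Finset.prod_add, Finset.mul_sum]
      refine Finset.sum_congr rfl fun T hT => ?_
      have hdisj : Disjoint S T := by
        rw [Finset.mem_powerset] at hT
        exact Finset.disjoint_of_subset_right hT Finset.disjoint_sdiff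
      rw [Finset.prod_union hdisj, Finset.prod_neg]
      simp
      ring
    rw [h1]
    by_cases h : ∀ i ∈ F, (ω i = true ↔ i ∈ S)
    · rw [Set.indicator_of_mem
        (show ω ∈ {ω : V → Bool | ∀ i ∈ F, (ω i = true ↔ i ∈ S)} from h)]
      have ha : ∏ i ∈ S, x i ω = 1 := Finset.prod_eq_one fun i hi => by
        simp [hx, (h i (hS hi)).2 hi]
      have hb : ∏ i ∈ F \ S, (1 - x i ω) = 1 := Finset.prod_eq_one fun i hi => by
        rw [Finset.mem_sdiff] at hi
        have : ¬ (ω i = true) := fun hc => hi.2 ((h i hi.1).1 hc)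
        simp [hx, this]
      rw [ha, hb]
      simp
    · rw [Set.indicator_of_notMem
        (show ω ∉ {ω : V → Bool | ∀ i ∈ F, (ω i = true ↔ i ∈ S)} from h)]
      push Not at h
      obtain ⟨i, hi, hi'⟩ := h
      rcases hi' with ⟨h1, h2⟩ | ⟨h1, h2⟩
      · have : ∏ i ∈ F \ S, (1 - x i ω) = 0 :=
          Finset.prod_eq_zero (Finset.mem_sdiff.2 ⟨hi, h2⟩) (by simp [hx, h1])
        rw [this, mul_zero]
      · have : ∏ i ∈ S, x i ω = 0 :=
          Finset.prod_eq_zero h2 (by simp [hx, h1])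
        rw [this, zero_mul]
  have hbdd : ∀ A : Finset V, Integrable (fun ω => ∏ i ∈ A, x i ω) ν := by
    intro A
    rw [hprod A]
    exact (integrable_const (1 : ℝ)).indicator (hall A)
  have e1 : cyl ν F S = ∑ T ∈ (F \ S).powerset,
      (-1 : ℝ) ^ T.card * (ν {ω | ∀ i ∈ S ∪ T, ω i = true}).toReal := by
    have : cyl ν F S = ∫ ω, Set.indicator {ω : V → Bool | ∀ i ∈ F, (ω i = true ↔ i ∈ S)} 1 ω ∂ν := by
      rw [integral_indicator_one hcyl]
      rfl
    rw [this, ← hpt, integral_finsetSum _ fun T _ => (hbdd (S ∪ T)).const_mul _]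
    refine Finset.sum_congr rfl fun T _ => ?_
    rw [integral_const_mul, hint]
  rw [e1, ← Finset.sum_filter, ← Finset.Icc_eq_filter_powerset, Finset.Icc_eq_image_powerset hS,
    Finset.sum_image]
  · refine Finset.sum_congr rfl fun T hT => ?_
    have hdisj : Disjoint S T := by
      rw [Finset.mem_powerset] at hT
      exact Finset.disjoint_of_subset_right hT Finset.disjoint_sdiff
    rw [Finset.card_union_of_disjoint hdisj, Nat.add_sub_cancel_left]
  · intro T hT T' hT' hTT
    have hd : ∀ U ∈ (F \ S).powerset, (S ∪ U) \ S = U := by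
      intro U hU
      rw [Finset.mem_powerset] at hU
      exact Finset.union_sdiff_cancel_left (Finset.disjoint_of_subset_right hU Finset.disjoint_sdiff)
    have hTT' : S ∪ T = S ∪ T' := hTT
    rw [← hd T hT, ← hd T' hT', hTT']

open scoped Classical in
/-- on a good graph, `PG` is `occ` for the FUSF measure `ν` on `G.edgeSet → Bool`. -/
theorem PG_eq_occ (G : SimpleGraph ℕ) (hG : G.Connected)
    (hlf : ∀ v : ℕ, (G.neighborSet v).Finite)
    (ν : Measure (G.edgeSet → Bool)) [IsProbabilityMeasure ν]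
    (hν : ∀ (A : Finset (Sym2 ℕ)), (A : Set (Sym2 ℕ)) ⊆ G.edgeSet →
        ∀ S : ℕ → Finset ℕ, Monotone S → (∀ v : ℕ, ∃ n, v ∈ S n) →
          (∀ n, (G.induce (S n : Set ℕ)).Connected) →
          Tendsto (fun n => ustContains G (S n) A) atTop
            (𝓝 (ν {ω | ∀ e : G.edgeSet, (e : Sym2 ℕ) ∈ A → ω e = true}).toReal))
    (e : G.edgeSet) (n : ℕ) (h : Sym2 ℕ → ℝ) :
    PG G e n h = occ (cyl ν)
      ((edgesIn G (ball G e n)).subtype (· ∈ G.edgeSet)) e (fun f => h f) := by
  obtain ⟨h1, h2, h3, -, h5, -⟩ := ball_spec G hG hlf e e.2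
  set emb : G.edgeSet ↪ Sym2 ℕ := Function.Embedding.subtype (· ∈ G.edgeSet) with hemb
  have hq : ∀ A : Finset G.edgeSet, qG G e (A.map emb) =
      (ν {ω | ∀ i ∈ A, ω i = true}).toReal := by
    intro A
    have hA : ((A.map emb : Finset (Sym2 ℕ)) : Set (Sym2 ℕ)) ⊆ G.edgeSet := by
      intro f hf
      obtain ⟨g, -, rfl⟩ := Finset.mem_map.1 (Finset.mem_coe.1 hf)
      exact g.2
    have := (hν (A.map emb) hA (ball G e) h1 h2 h3).limsup_eq
    rw [qG, this]
    have hset : {ω : G.edgeSet → Bool | ∀ e : G.edgeSet, (e : Sym2 ℕ) ∈ A.map emb → ω e = true} =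
        {ω | ∀ i ∈ A, ω i = true} := by
      ext ω
      simp only [Set.mem_ofPred_eq]
      refine forall_congr' fun f => ?_
      have : (f : Sym2 ℕ) ∈ A.map emb ↔ f ∈ A := Finset.mem_map' emb
      rw [this]
    rw [hset]
  have hc : ∀ F S : Finset G.edgeSet, S ⊆ F → cG G e (F.map emb) (S.map emb) = cyl ν F S := by
    intro F S hS
    rw [cyl_eq_incl_excl ν F S hS, cG, sum_powerset_map]
    refine Finset.sum_congr rfl fun A _ => ?_
    by_cases hSA : S ⊆ A
    · rw [if_pos hSA, if_pos (Finset.map_subset_map.2 hSA), Finset.card_map, Finset.card_map, hq]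
    · rw [if_neg hSA, if_neg (fun h => hSA (Finset.map_subset_map.1 h))]
  set F := (edgesIn G (ball G e n)).subtype (· ∈ G.edgeSet) with hF
  have hFm : edgesIn G (ball G e n) = F.map emb := by
    rw [hF, hemb, Finset.subtype_map_of_mem]
    exact fun x hx => h5 n hx
  unfold PG occ Zo Zw
  rw [hFm, sum_powerset_map, sum_powerset_map]
  congr 1
  · refine Finset.sum_congr rfl fun A hA => ?_
    rw [Finset.mem_powerset] at hA
    rw [hc F A hA, Finset.sum_map]
    have : (e : Sym2 ℕ) ∈ A.map emb ↔ e ∈ A := Finset.mem_map' emb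
    by_cases he : e ∈ A
    · rw [if_pos (this.2 he), if_pos he]
      rfl
    · rw [if_neg (fun h => he (this.1 h)), if_neg he]
  · refine Finset.sum_congr rfl fun A hA => ?_
    rw [Finset.mem_powerset] at hA
    rw [hc F A hA, Finset.sum_map]
    rfl

end

end Crest.Agent.R168
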