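import Mathlib
import Crest.Prelude.Def_SpanningTrees
import Crest.Agent.R168.NegCorr

set_option autoImplicit false

/-!
Basic facts on the spanning trees of the finite pieces of a graph.
-/

namespace Crest.Agent.R168.UST

open Finset Filter Topology
open Crest.ProbabilityR.SpanningTrees

variable {V : Type*}

theorem mem_edgesIn {G : SimpleGraph V} {S : Finset V} {e : Sym2 V} :
    e ∈ edgesIn G S ↔ (∀ x ∈ e, x ∈ S) ∧ e ∈ G.edgeSet := by
  classical
  unfold edgesIn
  simp only [Finset.mem_filter, Finset.mem_sym2_iff]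

theorem card_edgeSet_induce (A : Finset (Sym2 V)) (S : Finset V)
    (hA : ∀ e ∈ A, ¬ e.IsDiag ∧ ∀ x ∈ e, x ∈ S) :
    Nat.card ((SimpleGraph.fromEdgeSet (A : Set (Sym2 V))).induce (S : Set V)).edgeSet
      = A.card := by
  have hinj : Function.Injective (Sym2.map (Subtype.val : ↥(S : Set V) → V)) :=
    Sym2.map.injective Subtype.val_injective
  have himg : (Sym2.map (Subtype.val : ↥(S : Set V) → V)) ''
      ((SimpleGraph.fromEdgeSet (A : Set (Sym2 V))).induce (S : Set V)).edgeSet = (A : Set (Sym2 V)) := by
    ext e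
    constructor
    · rintro ⟨e', he', rfl⟩
      induction e' using Sym2.ind with
      | _ x y =>
        simp only [SimpleGraph.mem_edgeSet, SimpleGraph.comap_adj, Function.Embedding.subtype_apply,
          SimpleGraph.fromEdgeSet_adj] at he'
        simpa using he'.1
    · intro he
      have h := hA e he
      induction e using Sym2.ind with
      | _ x y =>
        have hx : x ∈ S := h.2 x (Sym2.mem_mk_left x y)
        have hy : y ∈ S := h.2 y (Sym2.mem_mk_right x y)
        refine ⟨s(⟨x, hx⟩, ⟨y, hy⟩), ?_, by simp⟩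
        simp only [SimpleGraph.mem_edgeSet, SimpleGraph.comap_adj, Function.Embedding.subtype_apply,
          SimpleGraph.fromEdgeSet_adj]
        refine ⟨he, ?_⟩
        have := h.1
        simpa [Sym2.mk_isDiag_iff] using this
  have h1 : Nat.card ((SimpleGraph.fromEdgeSet (A : Set (Sym2 V))).induce (S : Set V)).edgeSet
      = ((SimpleGraph.fromEdgeSet (A : Set (Sym2 V))).induce (S : Set V)).edgeSet.ncard := rfl
  rw [h1, ← Set.ncard_image_of_injective _ hinj, himg, Set.ncard_coe_finset]

theorem isST_iff {G : SimpleGraph V} {S : Finset V} {A : Finset (Sym2 V)} :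
    IsSpanningTreeOn G S A ↔ A ⊆ edgesIn G S ∧
      ((SimpleGraph.fromEdgeSet (A : Set (Sym2 V))).induce (S : Set V)).Connected ∧
      A.card + 1 = S.card := by
  unfold IsSpanningTreeOn
  refine and_congr_right fun hA => ?_
  rw [SimpleGraph.isTree_iff_connected_and_card, card_edgeSet_induce]
  · simp
  · intro e he
    have := mem_edgesIn.mp (hA he)
    exact ⟨G.not_isDiag_of_mem_edgeSet this.2, this.1⟩

open Classical in
/-- the spanning trees of the piece of `G` on `S` -/
noncomputable def ST (G : SimpleGraph V) (S : Finset V) : Finset (Finset (Sym2 V)) :=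
  (edgesIn G S).powerset.filter (fun A => IsSpanningTreeOn G S A)

theorem mem_ST {G : SimpleGraph V} {S : Finset V} {A : Finset (Sym2 V)} :
    A ∈ ST G S ↔ IsSpanningTreeOn G S A := by
  classical
  unfold ST
  simp only [Finset.mem_filter, Finset.mem_powerset]
  exact ⟨fun h => h.2, fun h => ⟨h.1, h⟩⟩

/-- number of spanning trees containing `F` -/
theorem W_one [DecidableEq V] (𝒜 : Finset (Finset (Sym2 V))) (F : Finset (Sym2 V)) :
    W 𝒜 (fun _ => 1) F = ((𝒜.filter (fun A => F ⊆ A)).card : ℝ) := by
  simp [W]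

theorem ust_eq [DecidableEq V] (G : SimpleGraph V) (S : Finset V) (F : Finset (Sym2 V)) :
    ustContains G S F = W (ST G S) (fun _ => 1) F / W (ST G S) (fun _ => 1) ∅ := by
  rw [W_one, W_one]
  unfold ustContains
  congr 2
  · congr 1
    ext A
    simp only [Finset.mem_filter, mem_ST, Finset.mem_powerset]
    constructor
    · rintro ⟨_, h2, h3⟩; exact ⟨h2, h3⟩
    · rintro ⟨h2, h3⟩; exact ⟨h2.1, h2, h3⟩
  · congr 1
    ext A
    simp only [Finset.mem_filter, mem_ST, Finset.mem_powerset]
    constructor
    · rintro ⟨_, h2⟩; exact ⟨h2, by simp⟩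
    · rintro ⟨h2, h3⟩; exact ⟨h2.1, h2⟩

/-- a connected piece has a spanning tree -/
theorem ST_nonempty {G : SimpleGraph V} {S : Finset V} (h : (G.induce (S : Set V)).Connected) :
    (ST G S).Nonempty := by
  classical
  obtain ⟨T, hT, hTree⟩ := h.exists_isTree_le
  -- edge set of T pushed to V
  let A : Finset (Sym2 V) :=
    (T.edgeSet.toFinite.toFinset).image (Sym2.map (Subtype.val : ↥(S : Set V) → V))
  have hfe : (SimpleGraph.fromEdgeSet (A : Set (Sym2 V))).induce (S : Set V) = T := by
    ext x y
    simp only [SimpleGraph.comap_adj, Function.Embedding.subtype_apply, SimpleGraph.fromEdgeSet_adj,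
      A, Finset.coe_image, Set.Finite.coe_toFinset]
    constructor
    · rintro ⟨⟨e, he, hee⟩, hne⟩
      have hinj : Function.Injective (Sym2.map (Subtype.val : ↥(S : Set V) → V)) :=
        Sym2.map.injective Subtype.val_injective
      have : e = s(x, y) := hinj (by rw [hee]; simp)
      rw [this] at he
      exact he
    · intro hxy
      exact ⟨⟨s(x, y), hxy, by simp⟩, fun h => hxy.ne (Subtype.ext h)⟩
  refine ⟨A, ?_⟩
  rw [mem_ST]
  refine ⟨?_, by rw [hfe]; exact hTree⟩
  intro e he
  simp only [A, Finset.mem_image, Set.Finite.mem_toFinset] at he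
  obtain ⟨e', he', rfl⟩ := he
  rw [mem_edgesIn]
  induction e' using Sym2.ind with
  | _ x y =>
    have hadj : T.Adj x y := he'
    have := hT hadj
    simp only [Sym2.map_mk, SimpleGraph.mem_edgeSet]
    refine ⟨?_, by simpa using this⟩
    intro z hz
    rw [Sym2.mem_iff] at hz
    rcases hz with rfl | rfl
    · exact x.2
    · exact y.2

theorem card_of_mem_ST {G : SimpleGraph V} {S : Finset V} {A : Finset (Sym2 V)} (h : A ∈ ST G S) :
    A.card + 1 = S.card := (isST_iff.mp (mem_ST.mp h)).2.2

end Crest.Agent.R168.UST
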