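import Mathlib
import Crest.Prelude.Def_SpanningTrees
import Crest.Agent.R168.NegCorr
import Crest.Agent.R168.USTBasic

set_option autoImplicit false

/-!
Monotonicity of `ustContains` in the finite piece, from pairwise negative correlation.
-/

namespace Crest.Agent.R168.UST

open Finset Filter Topology
open Crest.ProbabilityR.SpanningTrees

variable {V : Type*}

theorem edgesIn_deleteEdges [DecidableEq V] (G : SimpleGraph V) (S : Finset V)
    (D : Finset (Sym2 V)) :
    edgesIn (G.deleteEdges (D : Set (Sym2 V))) S = edgesIn G S \ D := by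
  ext e
  rw [mem_edgesIn, Finset.mem_sdiff, mem_edgesIn, SimpleGraph.edgeSet_deleteEdges]
  simp only [Set.mem_sdiff, Finset.mem_coe]
  tauto

theorem mem_ST_deleteEdges [DecidableEq V] {G : SimpleGraph V} {S : Finset V}
    {D A : Finset (Sym2 V)} :
    A ∈ ST (G.deleteEdges (D : Set (Sym2 V))) S ↔ A ∈ ST G S ∧ Disjoint A D := by
  rw [mem_ST, mem_ST]
  unfold IsSpanningTreeOn
  rw [edgesIn_deleteEdges, Finset.subset_sdiff]
  tauto

theorem ST_deleteEdges_subset [DecidableEq V] {G : SimpleGraph V} {S : Finset V}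
    {D : Finset (Sym2 V)} : ST (G.deleteEdges (D : Set (Sym2 V))) S ⊆ ST G S := by
  intro A hA
  exact (mem_ST_deleteEdges.mp hA).1

theorem W_pos_of_nonempty [DecidableEq V] {𝒜 : Finset (Finset (Sym2 V))} (h : 𝒜.Nonempty) :
    0 < W 𝒜 (fun _ => 1) ∅ := by
  rw [W_one]
  simpa using h

theorem ust_le_delete_one [DecidableEq V] {G : SimpleGraph V} {S : Finset V}
    (hNC : NC (ST G S)) {F : Finset (Sym2 V)} {e : Sym2 V} (he : e ∉ F)
    (hne : (ST (G.deleteEdges {e}) S).Nonempty) :
    ustContains G S F ≤ ustContains (G.deleteEdges {e}) S F := by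
  have hcoe : (({e} : Finset (Sym2 V)) : Set (Sym2 V)) = {e} := by simp
  have key : ∀ F : Finset (Sym2 V), W (ST G S) (fun _ => 1) F =
      W (ST (G.deleteEdges {e}) S) (fun _ => 1) F + W (ST G S) (fun _ => 1) (F ∪ {e}) := by
    intro F
    rw [W_one, W_one, W_one, ← Nat.cast_add]
    congr 1
    rw [← Finset.card_filter_add_card_filter_not (s := (ST G S).filter (fun A => F ⊆ A))
      (p := fun A => e ∉ A)]
    congr 1
    · congr 1
      ext A
      rw [← hcoe]
      simp only [Finset.mem_filter, mem_ST_deleteEdges, Finset.disjoint_singleton_right]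
      tauto
    · congr 1
      ext A
      simp only [Finset.mem_filter, Finset.union_subset_iff, Finset.singleton_subset_iff, not_not]
      tauto
  have hcond := hNC.cond (z := fun _ => 1) (fun _ => one_pos) F he
  rw [ust_eq, ust_eq]
  have hpos := W_pos_of_nonempty hne
  have k1 := key F
  have k2 := key ∅
  rw [Finset.empty_union] at k2
  have h3 : 0 ≤ W (ST G S) (fun _ => (1:ℝ)) {e} := W_nonneg _ (fun _ => zero_le_one) _
  have hpos' : 0 < W (ST G S) (fun _ => (1:ℝ)) ∅ := by rw [k2]; linarith
  rw [div_le_div_iff₀ hpos' hpos]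
  have e1 : W (ST (G.deleteEdges {e}) S) (fun _ => (1:ℝ)) F =
    W (ST G S) (fun _ => 1) F - W (ST G S) (fun _ => 1) (F ∪ {e}) := by linarith
  have e2 : W (ST (G.deleteEdges {e}) S) (fun _ => (1:ℝ)) ∅ =
    W (ST G S) (fun _ => 1) ∅ - W (ST G S) (fun _ => 1) {e} := by linarith
  rw [e1, e2, mul_sub, sub_mul]
  linarith

theorem ust_le_delete [DecidableEq V] (hNC : ∀ (G : SimpleGraph V) (S : Finset V), NC (ST G S))
    {G : SimpleGraph V} {S : Finset V}
    {F : Finset (Sym2 V)} (D : Finset (Sym2 V)) (hD : Disjoint D F)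
    (hne : (ST (G.deleteEdges (D : Set (Sym2 V))) S).Nonempty) :
    ustContains G S F ≤ ustContains (G.deleteEdges (D : Set (Sym2 V))) S F := by
  induction D using Finset.induction_on with
  | empty => simp
  | insert e D heD ih =>
    have hG : G.deleteEdges ((insert e D : Finset (Sym2 V)) : Set (Sym2 V)) =
        (G.deleteEdges (D : Set (Sym2 V))).deleteEdges {e} := by
      rw [SimpleGraph.deleteEdges_deleteEdges]
      congr 1
      rw [Finset.coe_insert, Set.union_singleton]
    rw [Finset.disjoint_insert_left] at hD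
    have hne' : (ST (G.deleteEdges (D : Set (Sym2 V))) S).Nonempty := by
      rw [hG] at hne
      have hcoe : (({e} : Finset (Sym2 V)) : Set (Sym2 V)) = {e} := by simp
      rw [← hcoe] at hne
      exact hne.mono ST_deleteEdges_subset
    refine (ih hD.2 hne').trans ?_
    rw [hG] at hne ⊢
    exact ust_le_delete_one (hNC _ _) hD.1 hne

/-- adding a pendant vertex keeps the tree connected -/
theorem connected_insert [DecidableEq V] {S : Finset V} {A : Finset (Sym2 V)} {u v : V}
    (hu : u ∈ S) (huv : u ≠ v)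
    (h : ((SimpleGraph.fromEdgeSet (A : Set (Sym2 V))).induce (S : Set V)).Connected) :
    ((SimpleGraph.fromEdgeSet ((insert s(u, v) A : Finset (Sym2 V)) : Set (Sym2 V))).induce
      ((insert v S : Finset V) : Set V)).Connected := by
  set H := SimpleGraph.fromEdgeSet ((insert s(u, v) A : Finset (Sym2 V)) : Set (Sym2 V)) with hH
  have h1 : (H.induce (S : Set V)).Connected := by
    refine h.mono ?_
    intro x y hxy
    simp only [SimpleGraph.comap_adj, Function.Embedding.subtype_apply,
      SimpleGraph.fromEdgeSet_adj, hH] at hxy ⊢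
    refine ⟨?_, hxy.2⟩
    simp only [Finset.coe_insert, Set.mem_insert_iff]
    exact Or.inr hxy.1
  have hadj : H.Adj u v := by
    rw [hH, SimpleGraph.fromEdgeSet_adj]
    exact ⟨by simp, huv⟩
  have h2 : (H.induce ({u, v} : Set V)).Connected := by
    rw [SimpleGraph.connected_iff]
    refine ⟨?_, ⟨⟨u, by simp⟩⟩⟩
    rintro ⟨a, ha⟩ ⟨b, hb⟩
    have hab : (H.induce ({u, v} : Set V)).Adj ⟨u, by simp⟩ ⟨v, by simp⟩ := by
      simpa using hadj
    rcases ha with rfl | ha <;> rcases hb with rfl | hb
    · exact SimpleGraph.Reachable.refl _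
    · rw [Set.mem_singleton_iff] at hb; subst hb; exact hab.reachable
    · rw [Set.mem_singleton_iff] at ha; subst ha; exact hab.reachable.symm
    · rw [Set.mem_singleton_iff] at ha hb; subst ha; subst hb; exact SimpleGraph.Reachable.refl _
  have h3 := SimpleGraph.induce_union_connected h1.preconnected h2.preconnected ⟨u, by simpa using hu, by simp⟩
  have h4 : (S : Set V) ∪ {u, v} = ((insert v S : Finset V) : Set V) := by
    ext x
    simp only [Set.mem_union, Finset.mem_coe, Set.mem_insert_iff, Set.mem_singleton_iff,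
      Finset.coe_insert]
    constructor
    · rintro (h | rfl | rfl) <;> simp_all
    · rintro (rfl | h) <;> simp_all
  rw [h4] at h3
  exact h3

theorem connected_of_insert [DecidableEq V] {S : Finset V} {A : Finset (Sym2 V)} {u v : V}
    (hu : u ∈ S) (hv : v ∉ S) (hA : ∀ e ∈ A, ∀ x ∈ e, x ∈ S)
    (h : ((SimpleGraph.fromEdgeSet ((insert s(u, v) A : Finset (Sym2 V)) : Set (Sym2 V))).induce
      ((insert v S : Finset V) : Set V)).Connected) :
    ((SimpleGraph.fromEdgeSet (A : Set (Sym2 V))).induce (S : Set V)).Connected := by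
  set H := ((SimpleGraph.fromEdgeSet ((insert s(u, v) A : Finset (Sym2 V)) : Set (Sym2 V))).induce
      ((insert v S : Finset V) : Set V)) with hH
  have h1 : (H.induce {x | x.1 ∈ S}).Preconnected := by
    apply h.preconnected.induce_of_degree_eq_one
    rintro ⟨x, hx⟩ hxS
    have hxv : x = v := by
      simp only [Finset.coe_insert, Set.mem_insert_iff, Finset.mem_coe] at hx
      rcases hx with h | h
      · exact h
      · exact absurd h hxS
    subst hxv
    have : ∀ y, H.Adj ⟨x, hx⟩ y → y.1 = u := by
      rintro ⟨y, hy⟩ hxy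
      simp only [hH, SimpleGraph.comap_adj, Function.Embedding.subtype_apply,
        SimpleGraph.fromEdgeSet_adj, Finset.coe_insert, Set.mem_insert_iff, Finset.mem_coe] at hxy
      rcases hxy.1 with h | h
      · rw [Sym2.eq_iff] at h
        rcases h with ⟨h1, h2⟩ | ⟨h1, h2⟩
        · exact absurd (h1 ▸ hu) hv
        · exact h2
      · exact absurd (hA _ h x (Sym2.mem_mk_left _ _)) hv
    intro y hy z hz
    exact Subtype.ext ((this y hy).trans (this z hz).symm)
  let f : (H.induce {x | x.1 ∈ S}) →g
      ((SimpleGraph.fromEdgeSet (A : Set (Sym2 V))).induce (S : Set V)) :=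
    { toFun := fun x => ⟨x.1.1, x.2⟩
      map_rel' := by
        rintro ⟨⟨x, hx⟩, hx'⟩ ⟨⟨y, hy⟩, hy'⟩ hxy
        simp only [hH, SimpleGraph.comap_adj, Function.Embedding.subtype_apply,
          SimpleGraph.fromEdgeSet_adj, Finset.coe_insert, Set.mem_insert_iff, Finset.mem_coe] at hxy
        simp only [SimpleGraph.comap_adj, Function.Embedding.subtype_apply,
          SimpleGraph.fromEdgeSet_adj, Finset.mem_coe]
        refine ⟨?_, hxy.2⟩
        rcases hxy.1 with h | h
        · exfalso
          rw [Sym2.eq_iff] at h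
          rcases h with ⟨h1, h2⟩ | ⟨h1, h2⟩
          · exact hv (h2 ▸ hy')
          · exact hv (h1 ▸ hx')
        · exact h }
  have hf : Function.Surjective f := by
    rintro ⟨x, hx⟩
    have hx2 : x ∈ S := hx
    exact ⟨⟨⟨x, by simp [hx2]⟩, hx⟩, rfl⟩
  rw [SimpleGraph.connected_iff]
  exact ⟨h1.map f hf, ⟨⟨u, hu⟩⟩⟩

/-- the piece `insert v S` after deletion of all new edges but `s(u,v)`: spanning trees are the
spanning trees of the piece `S` with the pendant edge added. -/
theorem mem_ST_pendant [DecidableEq V] {G : SimpleGraph V} {S : Finset V} {u v : V}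
    (hu : u ∈ S) (hv : v ∉ S) (huv : G.Adj u v) {D : Finset (Sym2 V)}
    (hD : edgesIn G (insert v S) \ D = insert s(u, v) (edgesIn G S)) (B : Finset (Sym2 V)) :
    B ∈ ST (G.deleteEdges (D : Set (Sym2 V))) (insert v S) ↔
      ∃ A ∈ ST G S, B = insert s(u, v) A := by
  have hne : u ≠ v := huv.ne
  have hnotmem : s(u, v) ∉ edgesIn G S := by
    intro h
    exact hv ((mem_edgesIn.mp h).1 v (Sym2.mem_mk_right u v))
  have hcardS : (insert v S).card = S.card + 1 := Finset.card_insert_of_notMem hv
  rw [mem_ST, isST_iff, edgesIn_deleteEdges, hD, hcardS]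
  constructor
  · rintro ⟨hB, hconn, hcard⟩
    -- the pendant edge belongs to `B`
    have heB : s(u, v) ∈ B := by
      by_contra hcon
      have hB' : B ⊆ edgesIn G S := by
        intro e he
        rcases Finset.mem_insert.mp (hB he) with h | h
        · exact absurd (h ▸ he) hcon
        · exact h
      -- `v` is isolated
      obtain ⟨w⟩ := hconn.preconnected ⟨v, by simp⟩ ⟨u, by simp [hu]⟩
      cases w with
      | nil => exact hne rfl
      | cons h p =>
        rename_i x
        have hx : ((SimpleGraph.fromEdgeSet (B : Set (Sym2 V)))).Adj v x.1 := h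
        rw [SimpleGraph.fromEdgeSet_adj] at hx
        have := (mem_edgesIn.mp (hB' hx.1)).1 v (Sym2.mem_mk_left _ _)
        exact hv this
    refine ⟨B.erase s(u, v), ?_, (Finset.insert_erase heB).symm⟩
    have hA : B.erase s(u, v) ⊆ edgesIn G S := by
      intro e he
      rw [Finset.mem_erase] at he
      rcases Finset.mem_insert.mp (hB he.2) with h | h
      · exact absurd h he.1
      · exact h
    rw [mem_ST, isST_iff]
    refine ⟨hA, ?_, ?_⟩
    · apply connected_of_insert hu hv (u := u) (v := v)
      · intro e he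
        exact (mem_edgesIn.mp (hA he)).1
      · rw [Finset.insert_erase heB]
        exact hconn
    · have := Finset.card_erase_add_one heB
      omega
  · rintro ⟨A, hA, rfl⟩
    rw [mem_ST, isST_iff] at hA
    have hnA : s(u, v) ∉ A := fun h => hnotmem (hA.1 h)
    refine ⟨Finset.insert_subset_insert _ hA.1, connected_insert hu hne hA.2.1, ?_⟩
    rw [Finset.card_insert_of_notMem hnA, hA.2.2]

theorem ust_pendant [DecidableEq V] {G : SimpleGraph V} {S : Finset V} {u v : V}
    (hu : u ∈ S) (hv : v ∉ S) (huv : G.Adj u v) {D : Finset (Sym2 V)}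
    (hD : edgesIn G (insert v S) \ D = insert s(u, v) (edgesIn G S)) {F : Finset (Sym2 V)}
    (hF : F ⊆ edgesIn G S) :
    ustContains (G.deleteEdges (D : Set (Sym2 V))) (insert v S) F = ustContains G S F := by
  have hnotmem : s(u, v) ∉ edgesIn G S := by
    intro h
    exact hv ((mem_edgesIn.mp h).1 v (Sym2.mem_mk_right u v))
  have key : ∀ F' : Finset (Sym2 V), F' ⊆ edgesIn G S →
      W (ST (G.deleteEdges (D : Set (Sym2 V))) (insert v S)) (fun _ => 1) F' =
      W (ST G S) (fun _ => 1) F' := by
    intro F' hF'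
    rw [W_one, W_one]
    congr 1
    symm
    apply Finset.card_bij (fun A _ => insert s(u, v) A)
    · intro A hA
      rw [Finset.mem_filter] at hA ⊢
      refine ⟨(mem_ST_pendant hu hv huv hD _).mpr ⟨A, hA.1, rfl⟩, ?_⟩
      exact hA.2.trans (Finset.subset_insert _ _)
    · intro A hA B hB h
      have hA' : s(u, v) ∉ A := fun h' => hnotmem ((mem_ST.mp (Finset.mem_filter.mp hA).1).1 h')
      have hB' : s(u, v) ∉ B := fun h' => hnotmem ((mem_ST.mp (Finset.mem_filter.mp hB).1).1 h')
      rw [← Finset.erase_insert hA', ← Finset.erase_insert hB', h]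
    · intro B hB
      rw [Finset.mem_filter] at hB
      obtain ⟨A, hA, rfl⟩ := (mem_ST_pendant hu hv huv hD _).mp hB.1
      refine ⟨A, ?_, rfl⟩
      rw [Finset.mem_filter]
      refine ⟨hA, ?_⟩
      intro e he
      rcases Finset.mem_insert.mp (hB.2 he) with h | h
      · exact absurd (h ▸ hF' he) hnotmem
      · exact h
  rw [ust_eq, ust_eq, key F hF, key ∅ (Finset.empty_subset _)]

theorem ust_anti_one [DecidableEq V]
    (hNC : ∀ (G : SimpleGraph V) (S : Finset V), NC (ST G S))
    {G : SimpleGraph V} {S : Finset V} {u v : V}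
    (hS : (G.induce (S : Set V)).Connected)
    (hu : u ∈ S) (hv : v ∉ S) (huv : G.Adj u v) {F : Finset (Sym2 V)}
    (hF : F ⊆ edgesIn G S) :
    ustContains G (insert v S) F ≤ ustContains G S F := by
  set D : Finset (Sym2 V) := edgesIn G (insert v S) \ insert s(u, v) (edgesIn G S) with hDdef
  have hsub : insert s(u, v) (edgesIn G S) ⊆ edgesIn G (insert v S) := by
    intro e he
    rw [mem_edgesIn]
    rcases Finset.mem_insert.mp he with rfl | h
    · refine ⟨?_, huv⟩
      intro x hx
      rw [Sym2.mem_iff] at hx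
      rcases hx with rfl | rfl
      · exact Finset.mem_insert_of_mem hu
      · exact Finset.mem_insert_self _ _
    · rw [mem_edgesIn] at h
      exact ⟨fun x hx => Finset.mem_insert_of_mem (h.1 x hx), h.2⟩
  have hD : edgesIn G (insert v S) \ D = insert s(u, v) (edgesIn G S) := by
    rw [hDdef, sdiff_sdiff_right_self]
    exact Finset.inter_eq_right.mpr hsub
  rw [← ust_pendant hu hv huv hD hF]
  apply ust_le_delete hNC
  · rw [hDdef]
    refine Finset.disjoint_left.mpr fun e he heF => ?_
    rw [Finset.mem_sdiff] at he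
    exact he.2 (Finset.mem_insert_of_mem (hF heF))
  · obtain ⟨A, hA⟩ := ST_nonempty hS
    exact ⟨_, (mem_ST_pendant hu hv huv hD _).mpr ⟨A, hA, rfl⟩⟩

/-- exit edge -/
theorem exists_exit_edge {G : SimpleGraph V} {S S' : Finset V} (hS : S.Nonempty) (hSS' : S ⊆ S')
    (hne : S ≠ S') (hS' : (G.induce (S' : Set V)).Connected) :
    ∃ u ∈ S, ∃ v ∈ S', v ∉ S ∧ G.Adj u v := by
  by_contra hcon
  push Not at hcon
  obtain ⟨a, ha⟩ := hS
  have : ∃ b ∈ S', b ∉ S := by
    by_contra h
    push Not at h
    exact hne (Finset.Subset.antisymm hSS' h)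
  obtain ⟨b, hb, hbS⟩ := this
  obtain ⟨w⟩ := hS'.preconnected ⟨a, hSS' ha⟩ ⟨b, hb⟩
  have : ∀ (x y : ↥(S' : Set V)) (p : (G.induce (S' : Set V)).Walk x y), x.1 ∈ S → y.1 ∈ S := by
    intro x y p
    induction p with
    | nil => exact id
    | cons h p ih =>
      intro hx
      apply ih
      by_contra hy
      exact hcon _ hx _ (by exact Subtype.property _) hy h
  exact hbS (this _ _ w ha)

theorem connected_insert_piece [DecidableEq V] {G : SimpleGraph V} {S : Finset V} {u v : V}
    (hS : (G.induce (S : Set V)).Connected) (hu : u ∈ S) (huv : G.Adj u v) :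
    (G.induce ((insert v S : Finset V) : Set V)).Connected := by
  have h2 : (G.induce ({u, v} : Set V)).Connected := by
    rw [SimpleGraph.connected_iff]
    refine ⟨?_, ⟨⟨u, by simp⟩⟩⟩
    rintro ⟨a, ha⟩ ⟨b, hb⟩
    have hab : (G.induce ({u, v} : Set V)).Adj ⟨u, by simp⟩ ⟨v, by simp⟩ := by
      simpa using huv
    rcases ha with rfl | ha <;> rcases hb with rfl | hb
    · exact SimpleGraph.Reachable.refl _
    · rw [Set.mem_singleton_iff] at hb; subst hb; exact hab.reachable
    · rw [Set.mem_singleton_iff] at ha; subst ha; exact hab.reachable.symm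
    · rw [Set.mem_singleton_iff] at ha hb; subst ha; subst hb; exact SimpleGraph.Reachable.refl _
  have h3 := SimpleGraph.induce_union_connected hS.preconnected h2.preconnected
    ⟨u, by simpa using hu, by simp⟩
  have h4 : (S : Set V) ∪ {u, v} = ((insert v S : Finset V) : Set V) := by
    ext x
    simp only [Set.mem_union, Finset.mem_coe, Set.mem_insert_iff, Set.mem_singleton_iff,
      Finset.coe_insert]
    constructor
    · rintro (h | rfl | rfl) <;> simp_all
    · rintro (rfl | h) <;> simp_all
  rw [h4] at h3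
  exact h3

theorem edgesIn_mono {G : SimpleGraph V} {S S' : Finset V} (h : S ⊆ S') :
    edgesIn G S ⊆ edgesIn G S' := by
  intro e he
  rw [mem_edgesIn] at he ⊢
  exact ⟨fun x hx => h (he.1 x hx), he.2⟩

theorem ust_anti [DecidableEq V]
    (hNC : ∀ (G : SimpleGraph V) (S : Finset V), NC (ST G S))
    {G : SimpleGraph V} {S S' : Finset V} (hSS' : S ⊆ S')
    (hS : (G.induce (S : Set V)).Connected) (hS' : (G.induce (S' : Set V)).Connected)
    {F : Finset (Sym2 V)} (hF : F ⊆ edgesIn G S) :
    ustContains G S' F ≤ ustContains G S F := by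
  obtain ⟨n, hn⟩ : ∃ n, (S' \ S).card = n := ⟨_, rfl⟩
  induction n generalizing S with
  | zero =>
    have : S = S' := by
      rw [Finset.card_eq_zero, Finset.sdiff_eq_empty_iff_subset] at hn
      exact Finset.Subset.antisymm hSS' hn
    rw [this]
  | succ n ih =>
    have hne : S ≠ S' := by
      rintro rfl
      simp at hn
    have hSne : S.Nonempty := by
      obtain ⟨⟨x, hx⟩⟩ := hS.nonempty
      exact ⟨x, hx⟩
    obtain ⟨u, hu, v, hv, hvS, huv⟩ := exists_exit_edge hSne hSS' hne hS'
    have h1 : insert v S ⊆ S' := Finset.insert_subset hv hSS'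
    have h2 := connected_insert_piece hS hu huv
    have h3 : (S' \ insert v S).card = n := by
      rw [Finset.sdiff_insert, Finset.card_erase_of_mem (Finset.mem_sdiff.mpr ⟨hv, hvS⟩), hn]
      rfl
    exact (ih h1 h2 (hF.trans (edgesIn_mono (Finset.subset_insert _ _))) h3).trans
      (ust_anti_one hNC hS hu hvS huv hF)

end Crest.Agent.R168.UST
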