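import Crest.Agent.R168.GT
import Crest.Agent.R168.Fusf
import Crest.Agent.R168.EdgeLab
import Crest.Agent.R168.GraphP
import Crest.Agent.R168.Final0255
import Crest.Agent.R168.USTMono

/-! T11: assembly of S0254. `Φ G x = Xi (PG G) (edgeLab G (dec ∘ x))`. -/

set_option autoImplicit false

namespace Crest.Agent.R168

open MeasureTheory ProbabilityTheory Filter Topology

attribute [local irreducible] Xi edgeLab PG

theorem graphOfTable_tableOf' (G : SimpleGraph ℕ) :
    Crest.ProbabilityR.GraphTables.graphOfTable
      (Crest.ProbabilityR.GraphTables.tableOf G) = G := by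
  ext i j
  simp only [Crest.ProbabilityR.GraphTables.graphOfTable, Crest.ProbabilityR.GraphTables.tableOf,
    SimpleGraph.fromRel_adj, decide_eq_true_eq]
  constructor
  · rintro ⟨_, h | h⟩
    · exact h
    · exact h.symm
  · intro h
    exact ⟨h.ne, Or.inl h⟩

theorem final0254 :
    ∃ Φ : SimpleGraph ℕ → (ℕ → unitInterval) → (Sym2 ℕ → Bool),
      Measurable (fun p : (ℕ → ℕ → Bool) × (ℕ → unitInterval) =>
          Φ (Crest.ProbabilityR.GraphTables.graphOfTable p.1) p.2) ∧
      (∀ (σ : Equiv.Perm ℕ) (G : SimpleGraph ℕ) (x : ℕ → unitInterval),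
          Φ (G.comap ⇑σ) (x ∘ ⇑σ) = Φ G x ∘ Sym2.map ⇑σ) ∧
      ∀ G : SimpleGraph ℕ, G.Connected → (∀ v : ℕ, (G.neighborSet v).Finite) →
        ∀ S : ℕ → Finset ℕ, Monotone S → (∀ v : ℕ, ∃ n, v ∈ S n) →
          (∀ n, (G.induce (S n : Set ℕ)).Connected) →
          ∀ F : Finset (Sym2 ℕ), (↑F : Set (Sym2 ℕ)) ⊆ G.edgeSet →
            Filter.Tendsto (fun n => Crest.ProbabilityR.SpanningTrees.ustContains G (S n) F) Filter.atTop
              (nhds (((Crest.ProbabilityR.Labels.labelMeasure ℕ).map (Φ G) {ω | ∀ e ∈ F, ω e = true}).toReal)) := by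
  classical
  obtain ⟨dec, hdec, hlaw⟩ := exists_decode vlab ℕ
  let Φ : SimpleGraph ℕ → (ℕ → unitInterval) → (Sym2 ℕ → Bool) :=
    fun G x => Xi (PG G) (edgeLab G (fun v => dec (x v)))
  have hdec' : Measurable (fun (x : ℕ → unitInterval) (v : ℕ) => dec (x v)) :=
    measurable_pi_lambda _ fun v => hdec.comp (measurable_pi_apply v)
  have hmeas : Measurable (fun p : (ℕ → ℕ → Bool) × (ℕ → unitInterval) =>
      Φ (Crest.ProbabilityR.GraphTables.graphOfTable p.1) p.2) := by
    have h1 := measurable_Xi (V := Sym2 ℕ)
      (fun A : ℕ → ℕ → Bool => PG (Crest.ProbabilityR.GraphTables.graphOfTable A))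
      (fun i n => measurable_PG i n)
    have h2 : Measurable (fun p : (ℕ → ℕ → Bool) × (ℕ → unitInterval) =>
        (p.1, edgeLab (Crest.ProbabilityR.GraphTables.graphOfTable p.1)
          (fun v => dec (p.2 v)))) := by
      refine measurable_fst.prodMk ?_
      exact measurable_edgeLab.comp (measurable_fst.prodMk (hdec'.comp measurable_snd))
    show Measurable (fun p : (ℕ → ℕ → Bool) × (ℕ → unitInterval) =>
      Xi (PG (Crest.ProbabilityR.GraphTables.graphOfTable p.1))
        (edgeLab (Crest.ProbabilityR.GraphTables.graphOfTable p.1) (fun v => dec (p.2 v))))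
    exact Measurable.comp (g := fun q : (ℕ → ℕ → Bool) × (Sym2 ℕ → ℝ × (ℕ → ℝ)) =>
      Xi (PG (Crest.ProbabilityR.GraphTables.graphOfTable q.1)) q.2) h1 h2
  refine ⟨Φ, hmeas, ?_, ?_⟩
  · intro σ G x
    have h1 : (edgeLab (G.comap ⇑σ) (fun v => dec ((x ∘ ⇑σ) v))) =
        edgeLab G (fun v => dec (x v)) ∘ Sym2.map ⇑σ :=
      edgeLab_comap σ G (fun v => dec (x v))
    show Xi (PG (G.comap ⇑σ)) (edgeLab (G.comap ⇑σ) (fun v => dec ((x ∘ ⇑σ) v))) =
      Xi (PG G) (edgeLab G (fun v => dec (x v))) ∘ Sym2.map ⇑σ
    rw [h1]
    exact (Xi_comp (Sym2.map ⇑σ) (PG G) (PG (G.comap ⇑σ))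
      (fun i n f => PG_comap σ G i n f) _).symm
  · intro G hG hlf S hS1 hS2 hS3 F hF
    obtain ⟨ν, hν, hL, hlim⟩ := exists_fusf G hG
    have := hν
    have hΦG : Measurable (Φ G) := by
      have h1 : Measurable (fun x : ℕ → unitInterval =>
          ((Crest.ProbabilityR.GraphTables.tableOf G, x) :
            (ℕ → ℕ → Bool) × (ℕ → unitInterval))) := measurable_const.prodMk measurable_id
      have h2 := hmeas.comp h1
      have h3 : ((fun p : (ℕ → ℕ → Bool) × (ℕ → unitInterval) =>
          Φ (Crest.ProbabilityR.GraphTables.graphOfTable p.1) p.2) ∘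
          (fun x : ℕ → unitInterval =>
          ((Crest.ProbabilityR.GraphTables.tableOf G, x) :
            (ℕ → ℕ → Bool) × (ℕ → unitInterval)))) = Φ G := by
        funext x
        show Φ (Crest.ProbabilityR.GraphTables.graphOfTable
          (Crest.ProbabilityR.GraphTables.tableOf G)) x = Φ G x
        rw [graphOfTable_tableOf']
      rw [h3] at h2
      exact h2
    -- exhaustions
    let E : G.edgeSet → ℕ → Finset G.edgeSet := fun e n =>
      (Crest.ProbabilityR.SpanningTrees.edgesIn G (ball G e n)).subtype (· ∈ G.edgeSet)
    have hE1 : ∀ i, Monotone (E i) := by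
      intro e n m hnm f hf
      rw [Finset.mem_subtype] at hf ⊢
      exact UST.edgesIn_mono ((ball_spec G hG hlf e e.2).1 hnm) hf
    have hE2 : ∀ i n, i ∈ E i n := by
      intro e n
      rw [Finset.mem_subtype]
      exact (ball_spec G hG hlf e e.2).2.2.2.1 n
    have hE3 : ∀ i j, ∃ n, j ∈ E i n := by
      intro e f
      obtain ⟨n, hn⟩ := (ball_spec G hG hlf e e.2).2.2.2.2.2 f f.2
      exact ⟨n, by rw [Finset.mem_subtype]; exact hn⟩
    have hGT := GT ν hL E hE1 hE2 hE3
    have hcomp : ∀ x : ℕ → unitInterval, (fun e : G.edgeSet => Φ G x e) =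
        Xi (fun i n h => occ (cyl ν) (E i n) i h)
          (fun e : G.edgeSet => edgeLab G (fun v => dec (x v)) e) := by
      intro x
      have := Xi_comp (Subtype.val : G.edgeSet → Sym2 ℕ) (PG G)
        (fun i n h => occ (cyl ν) (E i n) i h)
        (fun i n f => PG_eq_occ G hG hlf ν hlim i n f) (edgeLab G (fun v => dec (x v)))
      exact this
    have hlawE : (Crest.ProbabilityR.Labels.labelMeasure ℕ).map
        (fun (x : ℕ → unitInterval) (e : G.edgeSet) => edgeLab G (fun v => dec (x v)) e) =
        Measure.infinitePi (fun _ : G.edgeSet => lab) := by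
      rw [← edgeLab_law G hlf, ← hlaw, Measure.map_map _ hdec']
      · rfl
      · have h1 : Measurable (fun x : ℕ → VLab => edgeLab G x) := by
          have h2 := measurable_edgeLab.comp
            (measurable_const (a := Crest.ProbabilityR.GraphTables.tableOf G) |>.prodMk
              (measurable_id (α := ℕ → VLab)))
          have h3 : ((fun p : (ℕ → ℕ → Bool) × (ℕ → VLab) =>
              edgeLab (Crest.ProbabilityR.GraphTables.graphOfTable p.1) p.2) ∘
              fun x : ℕ → VLab => (Crest.ProbabilityR.GraphTables.tableOf G, id x)) =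
              fun x => edgeLab G x := by
            funext x
            show edgeLab (Crest.ProbabilityR.GraphTables.graphOfTable
              (Crest.ProbabilityR.GraphTables.tableOf G)) x = edgeLab G x
            rw [graphOfTable_tableOf']
          rw [h3] at h2
          exact h2
        exact measurable_pi_lambda _ fun e => (measurable_pi_apply _).comp h1
    have hmXi : Measurable (Xi (fun (i : G.edgeSet) n h => occ (cyl ν) (E i n) i h)) := by
      have h1 := measurable_Xi (V := G.edgeSet) (α := Unit)
        (fun _ i n h => occ (cyl ν) (E i n) i h) (by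
          intro i n
          unfold occ Zo Zw
          apply Measurable.div
          · apply Finset.measurable_sum
            intro S _
            split_ifs
            · apply Measurable.const_mul
              apply Real.measurable_exp.comp
              apply Finset.measurable_sum
              intro j _
              exact (measurable_pi_apply j).comp measurable_snd
            · exact measurable_const
          · apply Finset.measurable_sum
            intro S _
            apply Measurable.const_mul
            apply Real.measurable_exp.comp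
            apply Finset.measurable_sum
            intro j _
            exact (measurable_pi_apply j).comp measurable_snd)
      exact h1.comp (measurable_const (a := ()) |>.prodMk measurable_id)
    have hmain : (Crest.ProbabilityR.Labels.labelMeasure ℕ).map
        (fun (x : ℕ → unitInterval) (e : G.edgeSet) => Φ G x e) = ν := by
      rw [show (fun (x : ℕ → unitInterval) (e : G.edgeSet) => Φ G x e) = fun x =>
        Xi (fun i n h => occ (cyl ν) (E i n) i h)
          (fun e : G.edgeSet => edgeLab G (fun v => dec (x v)) e) from funext hcomp]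
      refine Eq.trans ?_ hGT
      rw [← hlawE, Measure.map_map hmXi]
      · rfl
      · apply measurable_pi_lambda
        intro e
        have h1 : Measurable (fun x : ℕ → VLab => edgeLab G x e) := by
          have h2 := measurable_edgeLab.comp
            (measurable_const (a := Crest.ProbabilityR.GraphTables.tableOf G) |>.prodMk
              (measurable_id (α := ℕ → VLab)))
          have h3 : ((fun p : (ℕ → ℕ → Bool) × (ℕ → VLab) =>
              edgeLab (Crest.ProbabilityR.GraphTables.graphOfTable p.1) p.2) ∘
              fun x : ℕ → VLab => (Crest.ProbabilityR.GraphTables.tableOf G, id x)) =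
              fun x => edgeLab G x := by
            funext x
            show edgeLab (Crest.ProbabilityR.GraphTables.graphOfTable
              (Crest.ProbabilityR.GraphTables.tableOf G)) x = edgeLab G x
            rw [graphOfTable_tableOf']
          rw [h3] at h2
          exact (measurable_pi_apply _).comp h2
        exact h1.comp hdec'
    have hval : (Crest.ProbabilityR.Labels.labelMeasure ℕ).map (Φ G)
        {ω | ∀ e ∈ F, ω e = true} =
        ν {ω | ∀ e : G.edgeSet, (e : Sym2 ℕ) ∈ F → ω e = true} := by
      have hms1 : MeasurableSet {ω : Sym2 ℕ → Bool | ∀ e ∈ F, ω e = true} := by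
        have : {ω : Sym2 ℕ → Bool | ∀ e ∈ F, ω e = true} =
            ⋂ e ∈ F, (fun ω : Sym2 ℕ → Bool => ω e) ⁻¹' {true} := by
          ext ω; simp
        rw [this]
        exact Finset.measurableSet_biInter F fun e _ =>
          (measurable_pi_apply e) (measurableSet_singleton _)
      have hms2 : MeasurableSet {ω : G.edgeSet → Bool |
          ∀ e : G.edgeSet, (e : Sym2 ℕ) ∈ F → ω e = true} := by
        have : {ω : G.edgeSet → Bool | ∀ e : G.edgeSet, (e : Sym2 ℕ) ∈ F → ω e = true} =
            ⋂ e : G.edgeSet, ⋂ (_ : (e : Sym2 ℕ) ∈ F),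
              (fun ω : G.edgeSet → Bool => ω e) ⁻¹' {true} := by
          ext ω; simp
        rw [this]
        exact MeasurableSet.iInter fun e => MeasurableSet.iInter fun _ =>
          (measurable_pi_apply e) (measurableSet_singleton _)
      rw [← hmain, Measure.map_apply hΦG hms1, Measure.map_apply _ hms2]
      · congr 1
        ext x
        simp only [Set.mem_preimage, Set.mem_ofPred_eq]
        constructor
        · intro h e he
          exact h e he
        · intro h e he
          exact h ⟨e, hF he⟩ he
      · exact measurable_pi_lambda _ fun e => (measurable_pi_apply _).comp hΦG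
    rw [hval]
    exact hlim F hF S hS1 hS2 hS3

end Crest.Agent.R168
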