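import Crest.Agent.R168.Proc

/-! T3: the innovations are i.i.d. uniform. -/

set_option autoImplicit false

namespace Crest.Agent.R168

open MeasureTheory ProbabilityTheory Filter Topology

/-- the cdf of the mixed channel. -/
noncomputable def cdfm (m y : ℝ) : ℝ := y - 1 / 4 * m * (y * (1 - y))

theorem cdfm_hasDeriv (m y : ℝ) : HasDerivAt (cdfm m) (1 + m * (2 * y - 1) / 4) y := by
  have h1 : HasDerivAt (fun y : ℝ => y * (1 - y)) (1 * (1 - y) + y * (0 - 1)) y :=
    (hasDerivAt_id' y).mul ((hasDerivAt_const y (1 : ℝ)).sub (hasDerivAt_id' y))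
  have h2 := (hasDerivAt_id' y).sub (h1.const_mul (1 / 4 * m))
  refine h2.congr_deriv ?_
  ring

theorem cdfm_strictMonoOn (m : ℝ) (hm : 0 ≤ m ∧ m ≤ 1) : StrictMonoOn (cdfm m) (Set.Icc 0 1) := by
  intro x hx y hy hxy
  have h : cdfm m y - cdfm m x = (y - x) * (1 - m / 4 * (1 - x - y)) := by unfold cdfm; ring
  have h2 : 0 < 1 - m / 4 * (1 - x - y) := by
    have : m / 4 * (1 - x - y) ≤ 1 / 4 := by
      have h3 : 1 - x - y ≤ 1 := by linarith [hx.1, hy.1]
      nlinarith [hm.1, hm.2]
    linarith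
  have := mul_pos (sub_pos.2 hxy) h2
  linarith

theorem cdfm_image (m : ℝ) (hm : 0 ≤ m ∧ m ≤ 1) : cdfm m '' Set.Icc 0 1 = Set.Icc 0 1 := by
  have h0 : cdfm m 0 = 0 := by simp [cdfm]
  have h1 : cdfm m 1 = 1 := by simp [cdfm]
  apply Set.Subset.antisymm
  · rintro _ ⟨y, hy, rfl⟩
    have hmono := (cdfm_strictMonoOn m hm).monotoneOn
    constructor
    · have := hmono (Set.left_mem_Icc.2 zero_le_one) hy hy.1
      rwa [h0] at this
    · have := hmono hy (Set.right_mem_Icc.2 zero_le_one) hy.2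
      rwa [h1] at this
  · have hc : ContinuousOn (cdfm m) (Set.Icc 0 1) :=
      fun y _ => (cdfm_hasDeriv m y).continuousAt.continuousWithinAt
    have := intermediate_value_Icc (zero_le_one' ℝ) hc
    rwa [h0, h1] at this

theorem measurable_cdfm : Measurable (fun p : ℝ × ℝ => cdfm p.1 p.2) := by
  unfold cdfm; fun_prop

/-- one-dimensional change of variables: if `Y` has density `1 + m (2y-1)/4` then
`Y - m/4 * Y (1-Y)` is uniform. -/
theorem map_cdf_mix (m : ℝ) (hm : 0 ≤ m ∧ m ≤ 1) :
    (U01.withDensity fun y => ENNReal.ofReal (1 + m * (2 * y - 1) / 4)).map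
      (fun y => y - 1 / 4 * m * (y * (1 - y))) = U01 := by
  change (U01.withDensity _).map (cdfm m) = U01
  have hmeas : Measurable (cdfm m) := by unfold cdfm; fun_prop
  ext s hs
  rw [Measure.map_apply hmeas hs, withDensity_apply _ (hmeas hs), U01,
    Measure.restrict_apply hs]
  have key := lintegral_image_eq_lintegral_abs_deriv_mul (s := Set.Icc (0 : ℝ) 1)
    measurableSet_Icc (fun x _ => (cdfm_hasDeriv m x).hasDerivWithinAt)
    (cdfm_strictMonoOn m hm).injOn (s.indicator fun _ => 1)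
  rw [cdfm_image m hm, lintegral_indicator_const hs, Measure.restrict_apply hs, one_mul] at key
  rw [key, ← lintegral_indicator (hmeas hs)]
  refine setLIntegral_congr_fun measurableSet_Icc fun y hy => ?_
  have hpos : 0 ≤ 1 + m * (2 * y - 1) / 4 := by nlinarith [hm.1, hm.2, hy.1, hy.2]
  by_cases h : cdfm m y ∈ s
  · simp [Set.indicator, h, abs_of_nonneg hpos]
  · simp [Set.indicator, h]

open scoped Classical in
theorem map_update_infinitePi {ι X : Type*} [MeasurableSpace X] (κ : Measure X)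
    [IsProbabilityMeasure κ] (a : ι) :
    ((Measure.infinitePi fun _ : ι => κ).prod κ).map (fun p => Function.update p.1 a p.2) =
      Measure.infinitePi fun _ : ι => κ := by
  have hmeas : Measurable (fun p : (ι → X) × X => Function.update p.1 a p.2) := by
    rw [measurable_pi_iff]
    intro i
    by_cases h : i = a
    · subst h; simpa using measurable_snd
    · simp only [Function.update_of_ne h]; fun_prop
  refine Measure.eq_infinitePi _ fun s t ht => ?_
  rw [Measure.map_apply hmeas (MeasurableSet.pi s.countable_toSet fun i _ => ht i)]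
  by_cases ha : a ∈ s
  · have : (fun p : (ι → X) × X => Function.update p.1 a p.2) ⁻¹' (Set.pi s t) =
        (Set.pi (s.erase a) t) ×ˢ (t a) := by
      ext p
      simp only [Set.mem_preimage, Set.mem_pi, Finset.mem_coe, Set.mem_prod, Finset.mem_erase]
      constructor
      · intro h
        refine ⟨fun i hi => ?_, ?_⟩
        · have := h i hi.2
          rwa [Function.update_of_ne hi.1] at this
        · simpa using h a ha
      · rintro ⟨h1, h2⟩ i hi
        by_cases hia : i = a
        · subst hia; simpa using h2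
        · rw [Function.update_of_ne hia]; exact h1 i ⟨hia, hi⟩
    rw [this, Measure.prod_prod, Measure.infinitePi_pi _ (fun i _ => ht i),
      Finset.prod_erase_mul _ _ ha]
  · have : (fun p : (ι → X) × X => Function.update p.1 a p.2) ⁻¹' (Set.pi s t) =
        (Set.pi s t) ×ˢ Set.univ := by
      ext p
      simp only [Set.mem_preimage, Set.mem_pi, Finset.mem_coe, Set.mem_prod, Set.mem_univ,
        and_true]
      refine forall₂_congr fun i hi => ?_
      have hia : i ≠ a := fun h => ha (h ▸ hi)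
      rw [Function.update_of_ne hia]
    rw [this, Measure.prod_prod, Measure.infinitePi_pi _ (fun i _ => ht i), measure_univ, mul_one]

open scoped Classical in
/-- resampling the coordinate `a`. -/
noncomputable def resamp {V : Type*} (a : V × ℕ) (p : Om V × (ℝ × ℝ)) : Om V :=
  (p.1.1, Function.update p.1.2 a p.2)

theorem measurePreserving_resamp {V : Type*} (ν : Measure (V → Bool)) [IsProbabilityMeasure ν]
    (a : V × ℕ) : MeasurePreserving (resamp a) ((PP ν).prod (U01'.prod U01)) (PP ν) := by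
  classical
  have h1 := measurePreserving_prodAssoc ν
    (Measure.infinitePi fun _ : V × ℕ => U01'.prod U01) (U01'.prod U01)
  have hmeas : Measurable (fun p : ((V × ℕ) → ℝ × ℝ) × (ℝ × ℝ) => Function.update p.1 a p.2) := by
    rw [measurable_pi_iff]
    intro i
    by_cases h : i = a
    · subst h; simpa using measurable_snd
    · simp only [Function.update_of_ne h]; fun_prop
  have h2 : MeasurePreserving (fun p : ((V × ℕ) → ℝ × ℝ) × (ℝ × ℝ) => Function.update p.1 a p.2)
      ((Measure.infinitePi fun _ : V × ℕ => U01'.prod U01).prod (U01'.prod U01))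
      (Measure.infinitePi fun _ : V × ℕ => U01'.prod U01) :=
    ⟨hmeas, by convert map_update_infinitePi (U01'.prod U01) a⟩
  have h3 := ((MeasurePreserving.id ν).prod h2).comp h1
  have e : resamp a = (Prod.map id fun p : ((V × ℕ) → ℝ × ℝ) × (ℝ × ℝ) =>
      Function.update p.1 a p.2) ∘ ⇑MeasurableEquiv.prodAssoc := by
    funext p
    unfold resamp
    simp only [Function.comp_apply, MeasurableEquiv.prodAssoc, MeasurableEquiv.coe_mk,
      Equiv.prodAssoc_apply, Prod.map, id]
  rw [e]
  exact h3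

/-- change of the coordinate `a` does not affect other observations. -/
theorem Yo_resamp_ne {V : Type*} (a : V × ℕ) (p : Om V × (ℝ × ℝ)) (i : V) (k : ℕ)
    (h : (i, k) ≠ a) : Yo (resamp a p) i k = Yo p.1 i k := by
  classical
  unfold Yo resamp
  simp only [ne_eq, h, not_false_eq_true, Function.update_of_ne]

theorem Yo_resamp_self {V : Type*} (i : V) (k : ℕ) (p : Om V × (ℝ × ℝ)) :
    Yo (resamp (i, k) p) i k = if p.1.1 i = true then p.2.1 else p.2.2 := by
  unfold Yo resamp
  simp only [Function.update_self]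

theorem not_mem_past {V : Type*} (T : V → ℝ) (i : V) (k : ℕ) : (i, k) ∉ past T i k := by
  simp [past]

theorem resamp_mem_iff {V : Type*} (T : V → ℝ) (i : V) (k : ℕ) {D : Set (Om V)}
    (hD : MeasurableSet[Gs T i k] D) (p : Om V × (ℝ × ℝ)) :
    resamp (i, k) p ∈ D ↔ p.1 ∈ D := by
  obtain ⟨D', -, rfl⟩ := hD
  simp only [Set.mem_preimage]
  have : (fun b : past T i k => Yo (resamp (i, k) p) b.1.1 b.1.2) =
      fun b : past T i k => Yo p.1 b.1.1 b.1.2 := by
    funext b
    exact Yo_resamp_ne _ _ _ _ (fun h => not_mem_past T i k (h ▸ b.2))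
  rw [this]

theorem resamp_eq {V : Type*} (T : V → ℝ) (i : V) (k : ℕ) {f : Om V → ℝ}
    (hf : Measurable[Gs T i k] f) (p : Om V × (ℝ × ℝ)) :
    f (resamp (i, k) p) = f p.1 := by
  have := (resamp_mem_iff T i k (hf (measurableSet_singleton (f p.1))) p).2 rfl
  exact this


theorem measurable_Yo {V : Type*} (i : V) (k : ℕ) : Measurable (fun ω : Om V => Yo ω i k) := by
  unfold Yo
  refine Measurable.ite ?_ (by fun_prop) (by fun_prop)
  exact measurableSet_eq_fun (by fun_prop) measurable_const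

theorem measurable_occInd {V : Type*} (i : V) : Measurable (occInd i : Om V → ℝ) := by
  unfold occInd
  refine Measurable.ite ?_ measurable_const measurable_const
  exact measurableSet_eq_fun (by fun_prop) measurable_const

theorem Gs_le {V : Type*} (T : V → ℝ) (i : V) (k : ℕ) :
    Gs T i k ≤ (inferInstance : MeasurableSpace (Om V)) := by
  refine Measurable.comap_le ?_
  rw [measurable_pi_iff]
  intro b
  exact measurable_Yo _ _

/-- channel kernels -/
noncomputable def K1 (t : Set ℝ) (m : ℝ) : ℝ := (U01' {y | cdfm m y ∈ t}).toReal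
noncomputable def K0 (t : Set ℝ) (m : ℝ) : ℝ := (U01 {y | cdfm m y ∈ t}).toReal

theorem measurable_K1 {t : Set ℝ} (ht : MeasurableSet t) : Measurable (K1 t) := by
  have : MeasurableSet {p : ℝ × ℝ | cdfm p.1 p.2 ∈ t} := measurable_cdfm ht
  exact (measurable_measure_prodMk_left this).ennreal_toReal

theorem measurable_K0 {t : Set ℝ} (ht : MeasurableSet t) : Measurable (K0 t) := by
  have : MeasurableSet {p : ℝ × ℝ | cdfm p.1 p.2 ∈ t} := measurable_cdfm ht
  exact (measurable_measure_prodMk_left this).ennreal_toReal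

theorem K1_mem (t : Set ℝ) (m : ℝ) : 0 ≤ K1 t m ∧ K1 t m ≤ 1 :=
  ⟨ENNReal.toReal_nonneg, by unfold K1; exact measureReal_le_one⟩

theorem K0_mem (t : Set ℝ) (m : ℝ) : 0 ≤ K0 t m ∧ K0 t m ≤ 1 :=
  ⟨ENNReal.toReal_nonneg, by unfold K0; exact measureReal_le_one⟩

/-- mixing identity -/
theorem mix_K {t : Set ℝ} (ht : MeasurableSet t) (m : ℝ) (hm : 0 ≤ m ∧ m ≤ 1) :
    m * K1 t m + (1 - m) * K0 t m = (U01 t).toReal := by
  have h := map_cdf_mix m hm
  have hmeas : Measurable (cdfm m) := by unfold cdfm; fun_prop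
  have hB : MeasurableSet {y | cdfm m y ∈ t} := hmeas ht
  have h2 : U01 t = (U01.withDensity fun y => ENNReal.ofReal (1 + m * (2 * y - 1) / 4))
      {y | cdfm m y ∈ t} := by
    conv_lhs => rw [← h]
    exact Measure.map_apply hmeas ht
  have h3 : (U01.withDensity fun y => ENNReal.ofReal (1 + m * (2 * y - 1) / 4))
      {y | cdfm m y ∈ t} = ENNReal.ofReal m * U01' {y | cdfm m y ∈ t} +
        ENNReal.ofReal (1 - m) * U01 {y | cdfm m y ∈ t} := by
    unfold U01'
    rw [withDensity_apply _ hB, withDensity_apply _ hB, ← lintegral_const_mul _ (by fun_prop),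
      ← setLIntegral_one {y | cdfm m y ∈ t}, ← lintegral_const_mul _ (by fun_prop),
      ← lintegral_add_left (by fun_prop)]
    have hae : ∀ᵐ y ∂U01, 0 ≤ y ∧ y ≤ 1 := by
      unfold U01
      exact (ae_restrict_iff' measurableSet_Icc).2 (Eventually.of_forall fun y hy => hy)
    refine lintegral_congr_ae ((ae_restrict_of_ae hae).mono fun y hy => ?_)
    have hp : 0 ≤ 1 + (2 * y - 1) / 4 := by linarith [hy.1, hy.2]
    change ENNReal.ofReal (1 + m * (2 * y - 1) / 4) = ENNReal.ofReal m * _ + ENNReal.ofReal (1 - m) * 1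
    rw [mul_one, ← ENNReal.ofReal_mul hm.1, ← ENNReal.ofReal_add (mul_nonneg hm.1 hp)
      (by linarith [hm.2])]
    congr 1
    ring
  rw [h2, h3, ENNReal.toReal_add, ENNReal.toReal_mul, ENNReal.toReal_mul,
    ENNReal.toReal_ofReal hm.1, ENNReal.toReal_ofReal (by linarith [hm.2])]
  · rfl
  · exact ENNReal.mul_ne_top ENNReal.ofReal_ne_top (measure_ne_top _ _)
  · exact ENNReal.mul_ne_top ENNReal.ofReal_ne_top (measure_ne_top _ _)


theorem integrable_of_bdd {V : Type*} (ν : Measure (V → Bool)) [IsProbabilityMeasure ν]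
    {f : Om V → ℝ} (hf : Measurable f) (C : ℝ) (hC : ∀ ω, |f ω| ≤ C) : Integrable f (PP ν) :=
  haveI : IsProbabilityMeasure (PP ν) := by unfold PP; infer_instance
  Integrable.of_bound hf.aestronglyMeasurable C (Eventually.of_forall fun ω => by
    rw [Real.norm_eq_abs]; exact hC ω)

instance {V : Type*} (ν : Measure (V → Bool)) [IsProbabilityMeasure ν] :
    IsProbabilityMeasure (PP ν) := by unfold PP; infer_instance

theorem occInd_mem {V : Type*} (i : V) (ω : Om V) : 0 ≤ occInd i ω ∧ occInd i ω ≤ 1 := by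
  unfold occInd; split_ifs <;> norm_num

theorem key_innov {V : Type*} (ν : Measure (V → Bool)) [IsProbabilityMeasure ν]
    (T : V → ℝ) (i : V) (k : ℕ)
    (M : Om V → ℝ) (hMm : Measurable[Gs T i k] M) (hM01 : ∀ ω, 0 ≤ M ω ∧ M ω ≤ 1)
    (hM : M =ᵐ[PP ν] (PP ν)[occInd i | Gs T i k])
    {D : Set (Om V)} (hD : MeasurableSet[Gs T i k] D) {t : Set ℝ} (ht : MeasurableSet t) :
    (PP ν) (D ∩ {ω | cdfm (M ω) (Yo ω i k) ∈ t}) = (PP ν) D * U01 t := by
  have hMm' : Measurable M := hMm.mono (Gs_le T i k) le_rfl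
  have hD' : MeasurableSet D := Gs_le T i k _ hD
  have hB : MeasurableSet {ω : Om V | cdfm (M ω) (Yo ω i k) ∈ t} :=
    (measurable_cdfm.comp (hMm'.prodMk (measurable_Yo i k))) ht
  set G : Om V → ℝ := fun ω => occInd i ω * K1 t (M ω) + (1 - occInd i ω) * K0 t (M ω) with hG
  have hGm : Measurable G :=
    ((measurable_occInd i).mul ((measurable_K1 ht).comp hMm')).add
      ((measurable_const.sub (measurable_occInd i)).mul ((measurable_K0 ht).comp hMm'))
  have hG0 : ∀ ω, 0 ≤ G ω := fun ω => add_nonneg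
    (mul_nonneg (occInd_mem i ω).1 (K1_mem t _).1)
    (mul_nonneg (sub_nonneg.2 (occInd_mem i ω).2) (K0_mem t _).1)
  -- step 1
  have h1 : (PP ν) (D ∩ {ω | cdfm (M ω) (Yo ω i k) ∈ t}) = ∫⁻ ω in D, ENNReal.ofReal (G ω) ∂(PP ν) := by
    rw [← (measurePreserving_resamp ν (i, k)).measure_preimage (hD'.inter hB).nullMeasurableSet,
      Measure.prod_apply ((measurePreserving_resamp ν (i, k)).measurable (hD'.inter hB)),
      ← lintegral_indicator hD']
    refine lintegral_congr fun ω => ?_
    by_cases hω : ω ∈ D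
    · rw [Set.indicator_of_mem hω]
      have hset : Prod.mk ω ⁻¹' (resamp (i, k) ⁻¹' (D ∩ {ω | cdfm (M ω) (Yo ω i k) ∈ t})) =
          {z : ℝ × ℝ | cdfm (M ω) (if ω.1 i = true then z.1 else z.2) ∈ t} := by
        ext z
        simp only [Set.mem_preimage, Set.mem_inter_iff, Set.mem_ofPred_eq]
        rw [resamp_mem_iff T i k hD (ω, z), resamp_eq T i k hMm (ω, z), Yo_resamp_self]
        simp [hω]
      rw [hset]
      by_cases hi : ω.1 i = true
      · have : {z : ℝ × ℝ | cdfm (M ω) (if ω.1 i = true then z.1 else z.2) ∈ t} =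
            {y | cdfm (M ω) y ∈ t} ×ˢ Set.univ := by ext z; simp [hi]
        rw [this, Measure.prod_prod, measure_univ, mul_one]
        simp only [hG, occInd, hi, if_true, K1]
        rw [one_mul, sub_self, zero_mul, add_zero, ENNReal.ofReal_toReal (measure_ne_top _ _)]
      · have : {z : ℝ × ℝ | cdfm (M ω) (if ω.1 i = true then z.1 else z.2) ∈ t} =
            Set.univ ×ˢ {y | cdfm (M ω) y ∈ t} := by ext z; simp [hi]
        rw [this, Measure.prod_prod, measure_univ, one_mul]
        simp only [hG, occInd, hi, K0]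
        simp only [Bool.false_eq_true, if_false]
        rw [zero_mul, sub_zero, one_mul, zero_add, ENNReal.ofReal_toReal (measure_ne_top _ _)]
    · rw [Set.indicator_of_notMem hω]
      have hset : Prod.mk ω ⁻¹' (resamp (i, k) ⁻¹' (D ∩ {ω | cdfm (M ω) (Yo ω i k) ∈ t})) = ∅ := by
        ext z
        simp only [Set.mem_preimage, Set.mem_inter_iff, Set.mem_empty_iff_false, iff_false, not_and]
        intro h
        exact absurd ((resamp_mem_iff T i k hD (ω, z)).1 h) hω
      rw [hset, measure_empty]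
  -- step 2
  have hGb : ∀ ω, |G ω| ≤ 1 := by
    intro ω
    rw [abs_of_nonneg (hG0 ω)]
    have a1 := occInd_mem i ω
    have a2 := K1_mem t (M ω)
    have a3 := K0_mem t (M ω)
    simp only [hG]
    nlinarith [mul_nonneg a1.1 (sub_nonneg.2 a2.2), mul_nonneg (sub_nonneg.2 a1.2) (sub_nonneg.2 a3.2)]
  have hGi : Integrable G (PP ν) := integrable_of_bdd ν hGm 1 hGb
  set f : Om V → ℝ := fun ω => K1 t (M ω) - K0 t (M ω) with hf
  have hfm : Measurable[Gs T i k] f :=
    ((measurable_K1 ht).comp hMm).sub ((measurable_K0 ht).comp hMm)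
  have hfm' : Measurable f := hfm.mono (Gs_le T i k) le_rfl
  have hfb : ∀ ω, |f ω| ≤ 1 := fun ω => by
    rw [abs_le]
    have a2 := K1_mem t (M ω)
    have a3 := K0_mem t (M ω)
    simp only [hf]
    constructor <;> linarith [a2.1, a2.2, a3.1, a3.2]
  have hoi : Integrable (occInd i : Om V → ℝ) (PP ν) :=
    integrable_of_bdd ν (measurable_occInd i) 1 fun ω => by
      rw [abs_of_nonneg (occInd_mem i ω).1]; exact (occInd_mem i ω).2
  have hfoi : Integrable (f * occInd i) (PP ν) :=
    integrable_of_bdd ν (hfm'.mul (measurable_occInd i)) 1 fun ω => by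
      rw [Pi.mul_apply, abs_mul, abs_of_nonneg (occInd_mem i ω).1]
      exact mul_le_one₀ (hfb ω) (occInd_mem i ω).1 (occInd_mem i ω).2
  have hpull := condExp_mul_of_stronglyMeasurable_left (m := Gs T i k) (μ := PP ν)
    hfm.stronglyMeasurable hfoi hoi
  have h2 : ∫ ω in D, (f * occInd i) ω ∂(PP ν) = ∫ ω in D, f ω * M ω ∂(PP ν) := by
    rw [← setIntegral_condExp (Gs_le T i k) hfoi hD]
    refine setIntegral_congr_ae hD' ?_
    filter_upwards [hpull, hM] with ω h1 h2 _
    rw [h1, Pi.mul_apply, h2]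
  have hK0i : Integrable (fun ω => K0 t (M ω)) (PP ν) :=
    integrable_of_bdd ν ((measurable_K0 ht).comp hMm') 1 fun ω => by
      rw [abs_of_nonneg (K0_mem t _).1]; exact (K0_mem t _).2
  have hfMi : Integrable (fun ω => f ω * M ω) (PP ν) :=
    integrable_of_bdd ν (hfm'.mul hMm') 1 fun ω => by
      rw [abs_mul, abs_of_nonneg (hM01 ω).1]
      exact mul_le_one₀ (hfb ω) (hM01 ω).1 (hM01 ω).2
  have h3 : ∫ ω in D, G ω ∂(PP ν) = ((PP ν) D).toReal * (U01 t).toReal := by
    have e1 : G = fun ω => (f * occInd i) ω + K0 t (M ω) := by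
      funext ω; simp only [hG, hf, Pi.mul_apply]; ring
    rw [e1, integral_add hfoi.integrableOn hK0i.integrableOn, h2,
      ← integral_add hfMi.integrableOn hK0i.integrableOn]
    have e2 : (fun ω => f ω * M ω + K0 t (M ω)) = fun _ => (U01 t).toReal := by
      funext ω
      rw [← mix_K ht (M ω) (hM01 ω)]
      simp only [hf]
      ring
    rw [e2, setIntegral_const, smul_eq_mul]
    rfl
  rw [h1, ← ofReal_integral_eq_lintegral_ofReal hGi.integrableOn (Eventually.of_forall hG0), h3,
    ENNReal.ofReal_mul ENNReal.toReal_nonneg, ENNReal.ofReal_toReal (measure_ne_top _ _),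
    ENNReal.ofReal_toReal (measure_ne_top _ _)]


theorem past_trans {V : Type*} (T : V → ℝ) (i : V) (k : ℕ) (b : V × ℕ) (hb : b ∈ past T i k) :
    past T b.1 b.2 ⊆ past T i k := by
  intro c hc
  simp only [past, Set.mem_ofPred_eq] at hb hc ⊢
  rcases hb with hb | ⟨hb, hb'⟩ <;> rcases hc with hc | ⟨hc, hc'⟩
  · left; omega
  · left; omega
  · left; omega
  · right; exact ⟨by omega, hc'.trans hb'⟩

theorem measurable_Yo_Gs {V : Type*} (T : V → ℝ) (i : V) (k : ℕ) (b : V × ℕ)
    (hb : b ∈ past T i k) : Measurable[Gs T i k] (fun ω : Om V => Yo ω b.1 b.2) := by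
  have h : Measurable[Gs T i k] (fun (ω : Om V) (b : past T i k) => Yo ω b.1.1 b.1.2) :=
    comap_measurable _
  exact (measurable_pi_apply (⟨b, hb⟩ : past T i k)).comp h

theorem Gs_mono {V : Type*} (T : V → ℝ) (i : V) (k : ℕ) (b : V × ℕ)
    (hb : b ∈ past T i k) : Gs T b.1 b.2 ≤ Gs T i k := by
  have h : @Measurable _ _ (Gs T i k) _
      (fun (ω : Om V) (c : past T b.1 b.2) => Yo ω c.1.1 c.1.2) :=
    @measurable_pi_lambda _ _ _ (Gs T i k) _ _
      (fun c => measurable_Yo_Gs T i k c.1 (past_trans T i k b hb c.2))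
  exact h.comap_le

theorem law_innov_aux {V : Type*} (ν : Measure (V → Bool)) [IsProbabilityMeasure ν]
    (T : V → ℝ) (hT : Function.Injective T) (M : V → ℕ → Om V → ℝ)
    (hMm : ∀ i k, Measurable[Gs T i k] (M i k)) (hM01 : ∀ i k ω, 0 ≤ M i k ω ∧ M i k ω ≤ 1)
    (hM : ∀ i k, M i k =ᵐ[PP ν] (PP ν)[occInd i | Gs T i k]) :
    (PP ν).map (fun ω (a : V × ℕ) => cdfm (M a.1 a.2 ω) (Yo ω a.1 a.2)) =
      Measure.infinitePi (fun _ : V × ℕ => U01) := by
  classical
  have hUm : ∀ a : V × ℕ, Measurable (fun ω : Om V => cdfm (M a.1 a.2 ω) (Yo ω a.1 a.2)) :=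
    fun a => measurable_cdfm.comp (((hMm a.1 a.2).mono (Gs_le T _ _) le_rfl).prodMk
      (measurable_Yo _ _))
  refine Measure.eq_infinitePi _ fun s t ht => ?_
  rw [Measure.map_apply (measurable_pi_iff.2 hUm)
    (MeasurableSet.pi s.countable_toSet fun i _ => ht i)]
  induction s using Finset.induction_on_max_value
    (fun a : V × ℕ => (toLex (a.2, T a.1) : ℕ ×ₗ ℝ)) with
  | empty => simp
  | insert a s ha hmax ih =>
    have hpast : ∀ b ∈ s, b ∈ past T a.1 a.2 := by
      intro b hb
      have h1 := hmax b hb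
      rw [Prod.Lex.toLex_le_toLex] at h1
      rcases h1 with h1 | ⟨h1, h2⟩
      · exact Or.inl h1
      · refine Or.inr ⟨h1, lt_of_le_of_ne h2 fun h3 => ha ?_⟩
        have h4 := hT h3
        have : a = b := Prod.ext h4.symm h1.symm
        rwa [this]
    have hset : (fun (ω : Om V) (a : V × ℕ) => cdfm (M a.1 a.2 ω) (Yo ω a.1 a.2)) ⁻¹'
        (Set.pi (insert a s : Finset (V × ℕ)) t) =
        ((fun (ω : Om V) (a : V × ℕ) => cdfm (M a.1 a.2 ω) (Yo ω a.1 a.2)) ⁻¹' (Set.pi s t)) ∩
          {ω | cdfm (M a.1 a.2 ω) (Yo ω a.1 a.2) ∈ t a} := by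
      ext ω
      simp only [Finset.coe_insert, Set.mem_preimage, Set.mem_pi, Set.mem_insert_iff,
        Finset.mem_coe, Set.mem_inter_iff, Set.mem_ofPred_eq]
      constructor
      · intro h
        exact ⟨fun i hi => h i (Or.inr hi), h a (Or.inl rfl)⟩
      · rintro ⟨h1, h2⟩ i (rfl | hi)
        · exact h2
        · exact h1 i hi
    have hD : MeasurableSet[Gs T a.1 a.2]
        ((fun (ω : Om V) (a : V × ℕ) => cdfm (M a.1 a.2 ω) (Yo ω a.1 a.2)) ⁻¹' (Set.pi s t)) := by
      have : ((fun (ω : Om V) (a : V × ℕ) => cdfm (M a.1 a.2 ω) (Yo ω a.1 a.2)) ⁻¹' (Set.pi s t)) =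
          ⋂ b ∈ s, {ω | cdfm (M b.1 b.2 ω) (Yo ω b.1 b.2) ∈ t b} := by
        ext ω; simp [Set.mem_pi]
      rw [this]
      refine MeasurableSet.biInter s.countable_toSet fun b hb => ?_
      have hMb : Measurable[Gs T a.1 a.2] (M b.1 b.2) :=
        (hMm b.1 b.2).mono (Gs_mono T _ _ b (hpast b hb)) le_rfl
      exact (measurable_cdfm.comp (hMb.prodMk (measurable_Yo_Gs T _ _ b (hpast b hb)))) (ht b)
    rw [hset, key_innov ν T a.1 a.2 (M a.1 a.2) (hMm _ _) (hM01 _ _) (hM _ _) hD (ht a), ih,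
      Finset.prod_insert ha, mul_comm]

theorem law_innov {V : Type*} [Countable V] (ν : Measure (V → Bool)) [IsProbabilityMeasure ν]
    (T : V → ℝ) (hT : Function.Injective T) (M : V → ℕ → Om V → ℝ)
    (hM : ∀ i k, M i k =ᵐ[PP ν] (PP ν)[occInd i | Gs T i k]) :
    (PP ν).map (fun ω (i : V) (k : ℕ) =>
        Yo ω i k - 1 / 4 * M i k ω * (Yo ω i k * (1 - Yo ω i k))) =
      Measure.infinitePi (fun _ : V => Measure.infinitePi fun _ : ℕ => U01) := by
  set M' : V → ℕ → Om V → ℝ := fun i k ω =>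
    max 0 (min 1 (((PP ν)[occInd i | Gs T i k]) ω)) with hM'
  have hoi : ∀ i, Integrable (occInd i : Om V → ℝ) (PP ν) := fun i =>
    integrable_of_bdd ν (measurable_occInd i) 1 fun ω => by
      rw [abs_of_nonneg (occInd_mem i ω).1]; exact (occInd_mem i ω).2
  have hM'm : ∀ i k, Measurable[Gs T i k] (M' i k) := fun i k =>
    Measurable.max (@measurable_const _ _ _ (Gs T i k) _)
      (Measurable.min (@measurable_const _ _ _ (Gs T i k) _) stronglyMeasurable_condExp.measurable)
  have hM'01 : ∀ i k ω, 0 ≤ M' i k ω ∧ M' i k ω ≤ 1 := fun i k ω =>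
    ⟨le_max_left _ _, max_le zero_le_one (min_le_left _ _)⟩
  have hM'ae : ∀ i k, M' i k =ᵐ[PP ν] (PP ν)[occInd i | Gs T i k] := fun i k => by
    have h1 : 0 ≤ᵐ[PP ν] (PP ν)[occInd i | Gs T i k] :=
      condExp_nonneg (Eventually.of_forall fun ω => (occInd_mem i ω).1)
    have h2 : (PP ν)[occInd i | Gs T i k] ≤ᵐ[PP ν] (PP ν)[fun _ => (1 : ℝ) | Gs T i k] :=
      condExp_mono (hoi i) (integrable_const _) (Eventually.of_forall fun ω => (occInd_mem i ω).2)
    rw [condExp_const (Gs_le T i k)] at h2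
    filter_upwards [h1, h2] with ω h1 h2
    simp only [hM']
    rw [min_eq_right h2]
    exact max_eq_right h1
  have key := law_innov_aux ν T hT M' hM'm hM'01 hM'ae
  have hcong : (fun ω (i : V) (k : ℕ) =>
        Yo ω i k - 1 / 4 * M i k ω * (Yo ω i k * (1 - Yo ω i k))) =ᵐ[PP ν]
      (MeasurableEquiv.curry V ℕ ℝ) ∘
        (fun ω (a : V × ℕ) => cdfm (M' a.1 a.2 ω) (Yo ω a.1 a.2)) := by
    have : ∀ᵐ ω ∂(PP ν), ∀ i k, M i k ω = M' i k ω := by
      rw [ae_all_iff]; intro i
      rw [ae_all_iff]; intro k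
      filter_upwards [hM i k, hM'ae i k] with ω h1 h2
      rw [h1, h2]
    filter_upwards [this] with ω hω
    funext i k
    simp only [Function.comp_apply, hω i k]
    rfl
  have hUm : ∀ a : V × ℕ, Measurable (fun ω : Om V => cdfm (M' a.1 a.2 ω) (Yo ω a.1 a.2)) :=
    fun a => measurable_cdfm.comp (((hM'm a.1 a.2).mono (Gs_le T _ _) le_rfl).prodMk
      (measurable_Yo _ _))
  rw [Measure.map_congr hcong, ← Measure.map_map (MeasurableEquiv.measurable _)
    (measurable_pi_iff.2 hUm), key]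
  exact Measure.infinitePi_map_curry (fun (_ : V) (_ : ℕ) => U01)

end Crest.Agent.R168
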