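import Crest.Agent.R168.Proc

/-! T4a: the configuration is recovered from the observations (SLLN). -/

set_option autoImplicit false

namespace Crest.Agent.R168

open MeasureTheory ProbabilityTheory Filter Topology

section basics

theorem u01_ae_mem : ∀ᵐ y ∂U01, y ∈ Set.Icc (0 : ℝ) 1 := by
  unfold U01
  exact ae_restrict_mem measurableSet_Icc

theorem u01'_ac : U01' ≪ U01 := by
  unfold U01'
  exact withDensity_absolutelyContinuous _ _

theorem u01'_ae_mem : ∀ᵐ y ∂U01', y ∈ Set.Icc (0 : ℝ) 1 :=
  u01'_ac.ae_le u01_ae_mem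

theorem integral_u01 : ∫ y, y ∂U01 = 1 / 2 := by
  unfold U01
  rw [integral_Icc_eq_integral_Ioc, ← intervalIntegral.integral_of_le zero_le_one]
  simp

theorem integral_u01' : ∫ y, y ∂U01' = 1 / 2 + 1 / 24 := by
  unfold U01'
  rw [integral_withDensity_eq_integral_toReal_smul (by fun_prop) (by simp)]
  have : ∀ᵐ y ∂U01, (ENNReal.ofReal (1 + (2 * y - 1) / 4)).toReal • y
      = (1 + (2 * y - 1) / 4) * y := by
    filter_upwards [u01_ae_mem] with y hy
    rw [ENNReal.toReal_ofReal (by nlinarith [hy.1]), smul_eq_mul]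
  rw [integral_congr_ae this]
  unfold U01
  rw [integral_Icc_eq_integral_Ioc, ← intervalIntegral.integral_of_le zero_le_one]
  have h2 : ∀ y : ℝ, (1 + (2 * y - 1) / 4) * y = (3 / 4) * y + (1 / 2) * y ^ 2 := by
    intro y; ring
  simp_rw [h2]
  rw [intervalIntegral.integral_add (Continuous.intervalIntegrable (by fun_prop) _ _)
      (Continuous.intervalIntegrable (by fun_prop) _ _),
    intervalIntegral.integral_const_mul, intervalIntegral.integral_const_mul]
  simp
  norm_num

theorem integrable_u01 : Integrable (fun y : ℝ => y) U01 := by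
  unfold U01
  exact (continuous_id.continuousOn).integrableOn_Icc

theorem integrable_u01' : Integrable (fun y : ℝ => y) U01' := by
  refine Integrable.of_bound (C := 1) (by fun_prop) ?_
  filter_upwards [u01'_ae_mem] with y hy
  rw [Real.norm_eq_abs, abs_le]
  exact ⟨by linarith [hy.1], hy.2⟩

end basics

theorem Yo_mem_Icc {V : Type*} [Countable V] (ν : Measure (V → Bool)) [IsProbabilityMeasure ν] :
    ∀ᵐ ω ∂(PP ν), ∀ i k, 0 ≤ Yo ω i k ∧ Yo ω i k ≤ 1 := by
  rw [ae_all_iff]
  intro i
  rw [ae_all_iff]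
  intro k
  have hmp : MeasurePreserving (fun ω : Om V => ω.2 (i, k)) (PP ν) (U01'.prod U01) := by
    unfold PP
    exact (measurePreserving_eval_infinitePi (fun _ : V × ℕ => U01'.prod U01) (i, k)).comp
      measurePreserving_snd
  have h1 : ∀ᵐ p ∂(U01'.prod U01), p.1 ∈ Set.Icc (0 : ℝ) 1 :=
    (measurePreserving_fst (μ := U01') (ν := U01)).quasiMeasurePreserving.ae u01'_ae_mem
  have h2 : ∀ᵐ p ∂(U01'.prod U01), p.2 ∈ Set.Icc (0 : ℝ) 1 :=
    (measurePreserving_snd (μ := U01') (ν := U01)).quasiMeasurePreserving.ae u01_ae_mem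
  filter_upwards [hmp.quasiMeasurePreserving.ae h1, hmp.quasiMeasurePreserving.ae h2] with ω hω1 hω2
  unfold Yo
  split_ifs
  · exact hω1
  · exact hω2

/-- strong law for a coordinate function of the i.i.d. pairs. -/
theorem slln_coord {V : Type*} [Countable V] (ν : Measure (V → Bool)) [IsProbabilityMeasure ν]
    (f : ℝ × ℝ → ℝ) (hf : Measurable f) (hint : Integrable f (U01'.prod U01)) (i : V) :
    ∀ᵐ ω ∂(PP ν), Tendsto (fun n : ℕ => (∑ l ∈ Finset.range n, f (ω.2 (i, l))) / n) atTop
      (𝓝 (∫ p, f p ∂(U01'.prod U01))) := by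
  set Q : Measure (V × ℕ → ℝ × ℝ) := Measure.infinitePi fun _ : V × ℕ => U01'.prod U01 with hQ
  have hind : iIndepFun (fun (b : V × ℕ) (q : V × ℕ → ℝ × ℝ) => f (q b)) Q :=
    iIndepFun_infinitePi (P := fun _ : V × ℕ => U01'.prod U01) (X := fun _ => f) (fun _ => hf)
  have hmp : ∀ b : V × ℕ, MeasurePreserving (fun q : V × ℕ → ℝ × ℝ => q b) Q (U01'.prod U01) :=
    fun b => measurePreserving_eval_infinitePi (fun _ : V × ℕ => U01'.prod U01) b
  have hlaw : ∀ᵐ q ∂Q, Tendsto (fun n : ℕ => (∑ l ∈ Finset.range n, f (q (i, l))) / n) atTop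
      (𝓝 (∫ q : V × ℕ → ℝ × ℝ, f (q (i, 0)) ∂Q)) := by
    refine strong_law_ae_real (fun l (q : V × ℕ → ℝ × ℝ) => f (q (i, l))) ?_ ?_ ?_
    · exact (hmp (i, 0)).integrable_comp_of_integrable hint
    · intro l m hlm
      exact hind.indepFun (i := (i, l)) (j := (i, m)) (by simpa using hlm)
    · intro l
      refine ⟨?_, ?_, ?_⟩
      · exact (hf.comp (measurable_pi_apply _)).aemeasurable
      · exact (hf.comp (measurable_pi_apply _)).aemeasurable
      · have e1 : ∀ b : V × ℕ, Q.map (fun q : V × ℕ → ℝ × ℝ => f (q b))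
            = (U01'.prod U01).map f := by
          intro b
          rw [← (hmp b).map_eq, Measure.map_map hf (hmp b).measurable]
          rfl
        rw [e1, e1]
  have hint2 : ∫ q : V × ℕ → ℝ × ℝ, f (q (i, 0)) ∂Q = ∫ p, f p ∂(U01'.prod U01) := by
    rw [← (hmp (i, 0)).map_eq, integral_map (hmp (i, 0)).measurable.aemeasurable
      hf.aestronglyMeasurable]
  rw [hint2] at hlaw
  have : MeasurePreserving (Prod.snd : Om V → (V × ℕ → ℝ × ℝ)) (PP ν) Q := measurePreserving_snd
  exact this.quasiMeasurePreserving.ae hlaw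

theorem recov_Yo {V : Type*} [Countable V] (ν : Measure (V → Bool)) [IsProbabilityMeasure ν] :
    ∀ᵐ ω ∂(PP ν), recov (Yo ω) = ω.1 := by
  have hi1 : Integrable (fun p : ℝ × ℝ => p.1) (U01'.prod U01) :=
    (measurePreserving_fst (μ := U01') (ν := U01)).integrable_comp_of_integrable integrable_u01'
  have hi2 : Integrable (fun p : ℝ × ℝ => p.2) (U01'.prod U01) :=
    (measurePreserving_snd (μ := U01') (ν := U01)).integrable_comp_of_integrable integrable_u01
  have e1 : ∫ p : ℝ × ℝ, p.1 ∂(U01'.prod U01) = 1 / 2 + 1 / 24 := by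
    have h := integral_map (μ := U01'.prod U01) (φ := Prod.fst) measurable_fst.aemeasurable
      (f := fun y : ℝ => y) (by fun_prop)
    rw [(measurePreserving_fst (μ := U01') (ν := U01)).map_eq, integral_u01'] at h
    exact h.symm
  have e2 : ∫ p : ℝ × ℝ, p.2 ∂(U01'.prod U01) = 1 / 2 := by
    have h := integral_map (μ := U01'.prod U01) (φ := Prod.snd) measurable_snd.aemeasurable
      (f := fun y : ℝ => y) (by fun_prop)
    rw [(measurePreserving_snd (μ := U01') (ν := U01)).map_eq, integral_u01] at h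
    exact h.symm
  have h1 : ∀ᵐ ω ∂(PP ν), ∀ i : V, Tendsto
      (fun n : ℕ => (∑ l ∈ Finset.range n, (ω.2 (i, l)).1) / (n : ℝ)) atTop
        (𝓝 (1 / 2 + 1 / 24)) := by
    rw [ae_all_iff]
    intro i
    have := slln_coord ν (fun p => p.1) measurable_fst hi1 i
    rwa [e1] at this
  have h2 : ∀ᵐ ω ∂(PP ν), ∀ i : V, Tendsto
      (fun n : ℕ => (∑ l ∈ Finset.range n, (ω.2 (i, l)).2) / (n : ℝ)) atTop (𝓝 (1 / 2)) := by
    rw [ae_all_iff]
    intro i
    have := slln_coord ν (fun p => p.2) measurable_snd hi2 i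
    rwa [e2] at this
  filter_upwards [h1, h2] with ω hω1 hω2
  funext i
  unfold recov
  by_cases hb : ω.1 i = true
  · have : ∀ l, Yo ω i l = (ω.2 (i, l)).1 := fun l => by unfold Yo; rw [if_pos hb]
    simp_rw [this]
    rw [(hω1 i).limsup_eq, hb]
    norm_num
  · have : ∀ l, Yo ω i l = (ω.2 (i, l)).2 := fun l => by unfold Yo; rw [if_neg hb]
    simp_rw [this]
    rw [(hω2 i).limsup_eq]
    simp only [Bool.not_eq_true] at hb
    rw [hb]
    norm_num

theorem u01_singleton (x : ℝ) : U01 {x} = 0 := by
  unfold U01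
  exact le_antisymm ((Measure.restrict_apply_le _ _).trans (by simp)) zero_le

/-- i.i.d. uniform labels are a.s. distinct. -/
theorem ae_injective {V : Type*} [Countable V] :
    ∀ᵐ T ∂(Measure.infinitePi fun _ : V => U01), Function.Injective T := by
  have h : ∀ᵐ T ∂(Measure.infinitePi fun _ : V => U01), ∀ i j : V, i ≠ j → T i ≠ T j := by
    rw [ae_all_iff]
    intro i
    rw [ae_all_iff]
    intro j
    by_cases hij : i = j
    · simp [hij]
    have hmap := Measure.infinitePi_map_eval_prod (P := fun _ : V => U01) hij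
    have hmeas : Measurable (fun T : V → ℝ => (T i, T j)) := by fun_prop
    have hmp : MeasurePreserving (fun T : V → ℝ => (T i, T j))
        (Measure.infinitePi fun _ : V => U01) (U01.prod U01) := ⟨hmeas, hmap⟩
    have hdiag : ∀ᵐ p ∂(U01.prod U01), p.1 ≠ p.2 := by
      have hms : MeasurableSet {p : ℝ × ℝ | p.1 = p.2} := measurableSet_eq_fun measurable_fst
        measurable_snd
      rw [ae_iff]
      have : {a : ℝ × ℝ | ¬a.1 ≠ a.2} = {p : ℝ × ℝ | p.1 = p.2} := by ext p; simp
      rw [this, Measure.measure_prod_null hms]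
      filter_upwards with x
      have : Prod.mk x ⁻¹' {p : ℝ × ℝ | p.1 = p.2} = {x} := by
        ext y; simp [eq_comm]
      rw [this, u01_singleton]
      rfl
    filter_upwards [hmp.quasiMeasurePreserving.ae hdiag] with T hT _ using hT
  filter_upwards [h] with T hT i j hij
  by_contra hne
  exact hT i j hne hij

/-- re-bundling of labels. -/
theorem map_zip_infinitePi {V : Type*} [Countable V] :
    ((Measure.infinitePi fun _ : V => U01).prod
      (Measure.infinitePi fun _ : V => Measure.infinitePi fun _ : ℕ => U01)).map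
      (fun p (i : V) => (p.1 i, p.2 i)) = Measure.infinitePi fun _ : V => lab := by
  set A : Measure (V → ℝ) := Measure.infinitePi fun _ : V => U01 with hA
  set B : Measure (V → ℕ → ℝ) :=
    Measure.infinitePi fun _ : V => Measure.infinitePi fun _ : ℕ => U01 with hB
  have hzip : Measurable (fun (p : (V → ℝ) × (V → ℕ → ℝ)) (i : V) => (p.1 i, p.2 i)) := by
    fun_prop
  refine IsProjectiveLimit.unique (P := fun I : Finset V => Measure.pi fun _ : I => lab) ?_
    (Measure.isProjectiveLimit_infinitePi (fun _ : V => lab))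
  intro I
  rw [Measure.map_map (Finset.measurable_restrict I) hzip]
  symm
  refine Measure.pi_eq_generateFrom (C := fun _ => Set.image2 (· ×ˢ ·)
    {s : Set ℝ | MeasurableSet s} {t : Set (ℕ → ℝ) | MeasurableSet t}) ?_ ?_ ?_ ?_
  · intro _
    exact generateFrom_prod
  · intro _
    exact isPiSystem_prod
  · intro _
    refine ⟨fun _ => Set.univ, ?_, ?_, ?_⟩
    · intro _
      exact ⟨Set.univ, (MeasurableSet.univ : MeasurableSet (Set.univ : Set ℝ)), Set.univ,
        (MeasurableSet.univ : MeasurableSet (Set.univ : Set (ℕ → ℝ))), by simp⟩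
    · intro _
      exact measure_lt_top _ _
    · exact Set.iUnion_const _
  · intro s hs
    choose a ha' b hb' hab using hs
    have ha : ∀ i, MeasurableSet (a i) := ha'
    have hb : ∀ i, MeasurableSet (b i) := hb'
    have e : (I.restrict ∘ fun (p : (V → ℝ) × (V → ℕ → ℝ)) (i : V) => (p.1 i, p.2 i)) ⁻¹'
        (Set.univ.pi s) = ((I.restrict : (V → ℝ) → (I → ℝ)) ⁻¹' (Set.univ.pi a)) ×ˢ
          ((I.restrict : (V → ℕ → ℝ) → (I → ℕ → ℝ)) ⁻¹' (Set.univ.pi b)) := by
      ext p
      simp only [Set.mem_preimage, Function.comp_apply, Set.mem_univ_pi, Set.mem_prod,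
        Finset.restrict]
      constructor
      · intro h
        refine ⟨fun i => ?_, fun i => ?_⟩
        · have := h i
          rw [← hab i] at this
          exact this.1
        · have := h i
          rw [← hab i] at this
          exact this.2
      · intro h i
        rw [← hab i]
        exact ⟨h.1 i, h.2 i⟩
    have hms : MeasurableSet (Set.univ.pi s) := by
      refine MeasurableSet.univ_pi fun i => ?_
      rw [← hab i]
      exact (ha i).prod (hb i)
    rw [Measure.map_apply ((Finset.measurable_restrict I).comp hzip) hms, e, Measure.prod_prod,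
      ← Measure.map_apply (Finset.measurable_restrict I) (MeasurableSet.univ_pi ha),
      ← Measure.map_apply (Finset.measurable_restrict I) (MeasurableSet.univ_pi hb),
      hA, hB, Measure.infinitePi_map_restrict, Measure.infinitePi_map_restrict,
      Measure.pi_pi, Measure.pi_pi, ← Finset.prod_mul_distrib]
    refine Finset.prod_congr rfl fun i _ => ?_
    rw [← hab i]
    unfold lab
    rw [Measure.prod_prod]

end Crest.Agent.R168
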