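import Crest.Agent.R168.Det
import Crest.Agent.R168.Bayes
import Crest.Agent.R168.Innov
import Crest.Agent.R168.Recov

/-! T4: the general theorem. -/

set_option autoImplicit false

namespace Crest.Agent.R168

open MeasureTheory ProbabilityTheory Filter Topology

theorem cyl_nonneg_gt {V : Type*} (ν : Measure (V → Bool)) (F S : Finset V) : 0 ≤ cyl ν F S :=
  ENNReal.toReal_nonneg

theorem Zo_nonneg_gt {V : Type*} (c : Finset V → Finset V → ℝ) (hc : ∀ F S, 0 ≤ c F S)
    (F : Finset V) (i : V) (h : V → ℝ) : 0 ≤ Zo c F i h := by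
  classical
  unfold Zo
  refine Finset.sum_nonneg fun S _ => ?_
  split_ifs
  · exact mul_nonneg (hc _ _) (Real.exp_pos _).le
  · exact le_rfl

theorem Zo_le_Zw_gt {V : Type*} (c : Finset V → Finset V → ℝ) (hc : ∀ F S, 0 ≤ c F S)
    (F : Finset V) (i : V) (h : V → ℝ) : Zo c F i h ≤ Zw c F h := by
  classical
  unfold Zo Zw
  refine Finset.sum_le_sum fun S _ => ?_
  split_ifs
  · exact le_rfl
  · exact mul_nonneg (hc _ _) (Real.exp_pos _).le

theorem occ_mem_gt {V : Type*} (c : Finset V → Finset V → ℝ) (hc : ∀ F S, 0 ≤ c F S)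
    (F : Finset V) (i : V) (h : V → ℝ) : 0 ≤ occ c F i h ∧ occ c F i h ≤ 1 := by
  have h1 := Zo_nonneg_gt c hc F i h
  have h2 := Zo_le_Zw_gt c hc F i h
  exact ⟨div_nonneg h1 (h1.trans h2), div_le_one_of_le₀ h2 (h1.trans h2)⟩

theorem measurable_occ_gt {V : Type*} (c : Finset V → Finset V → ℝ)
    (F : Finset V) (i : V) : Measurable (fun h : V → ℝ => occ c F i h) := by
  classical
  unfold occ Zo Zw
  refine Measurable.div (Finset.measurable_sum _ fun S _ => ?_)
    (Finset.measurable_sum _ fun S _ => ?_)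
  · split_ifs
    · exact (Real.measurable_exp.comp (Finset.measurable_sum _ fun j _ =>
        measurable_pi_apply j)).const_mul _
    · exact measurable_const
  · exact (Real.measurable_exp.comp (Finset.measurable_sum _ fun j _ =>
        measurable_pi_apply j)).const_mul _

/-- General theorem: property (L) implies that `ν` is the law of `Xi` under i.i.d. labels. -/
theorem GT {V : Type*} [Countable V] (ν : Measure (V → Bool)) [IsProbabilityMeasure ν]
    (hL : LipOcc ν 2)
    (E : V → ℕ → Finset V) (hmono : ∀ i, Monotone (E i)) (hself : ∀ i n, i ∈ E i n)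
    (hcov : ∀ i j, ∃ n, j ∈ E i n) :
    (Measure.infinitePi (fun _ : V => lab)).map
      (Xi (fun i n h => occ (cyl ν) (E i n) i h)) = ν := by
  classical
  set P : V → ℕ → (V → ℝ) → ℝ := fun i n h => occ (cyl ν) (E i n) i h with hP
  have hP01 : ∀ i n h, 0 ≤ P i n h ∧ P i n h ≤ 1 := fun i n h =>
    occ_mem_gt _ (cyl_nonneg_gt ν) _ _ _
  have hPL : ∀ i n (h h' : V → ℝ) (s : ℝ), (∀ j, |h j - h' j| ≤ s) →
      |P i n h - P i n h'| ≤ 2 * s := fun i n h h' s hs =>
    hL (E i n) i (hself i n) h h' s fun j _ => hs j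
  have hPm : ∀ i n, Measurable (P i n) := fun i n => measurable_occ_gt _ _ _
  -- the innovations
  set Uf : (V → ℝ) → Om V → (V → ℕ → ℝ) := fun T ω i k =>
    Yo ω i k - 1 / 4 * pbar P T (Yo ω) i k * (Yo ω i k * (1 - Yo ω i k)) with hUf
  have hlaw : ∀ T : V → ℝ, Function.Injective T → (PP ν).map (Uf T) =
      Measure.infinitePi (fun _ : V => Measure.infinitePi fun _ : ℕ => U01) := by
    intro T hT
    refine law_innov ν T hT (fun i k ω => pbar P T (Yo ω) i k) fun i k => ?_
    filter_upwards [tendsto_occ ν T (E i) (hmono i) i (hself i) (hcov i) k] with ω hω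
    exact hω.limsup_eq
  -- joint measurability
  have hYm : Measurable (fun q : (V → ℝ) × Om V => fun i k => Yo q.2 i k) :=
    measurable_pi_lambda _ fun i => measurable_pi_lambda _ fun k =>
      (measurable_Yo i k).comp measurable_snd
  have hfield : ∀ i k, Measurable (fun q : (V → ℝ) × Om V => field q.1 (Yo q.2) i k) := by
    intro i k
    refine measurable_pi_lambda _ fun j => ?_
    unfold field
    refine Measurable.add (Finset.measurable_sum _ fun l _ => ?_) (Measurable.ite ?_ ?_ ?_)
    · exact measurable_gfun.comp ((measurable_Yo j l).comp measurable_snd)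
    · exact measurableSet_lt ((measurable_pi_apply j).comp measurable_fst)
        ((measurable_pi_apply i).comp measurable_fst)
    · exact measurable_gfun.comp ((measurable_Yo j k).comp measurable_snd)
    · exact measurable_const
  have hpbar : ∀ i k, Measurable (fun q : (V → ℝ) × Om V => pbar P q.1 (Yo q.2) i k) := by
    intro i k
    unfold pbar
    exact Measurable.limsup fun n => (hPm i n).comp (hfield i k)
  have hUm : Measurable (Function.uncurry Uf) := by
    refine measurable_pi_lambda _ fun i => measurable_pi_lambda _ fun k => ?_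
    have hY : Measurable (fun q : (V → ℝ) × Om V => Yo q.2 i k) :=
      (measurable_Yo i k).comp measurable_snd
    have hfin : Measurable (fun q : (V → ℝ) × Om V => Yo q.2 i k -
        1 / 4 * pbar P q.1 (Yo q.2) i k * (Yo q.2 i k * (1 - Yo q.2 i k))) :=
      Measurable.sub hY (Measurable.mul (Measurable.const_mul (hpbar i k) _)
        (Measurable.mul hY (Measurable.sub measurable_const hY)))
    exact hfin
  -- skew product
  have hskew : MeasurePreserving (fun p : (V → ℝ) × Om V => (p.1, Uf p.1 p.2))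
      ((Measure.infinitePi fun _ : V => U01).prod (PP ν))
      ((Measure.infinitePi fun _ : V => U01).prod
        (Measure.infinitePi fun _ : V => Measure.infinitePi fun _ : ℕ => U01)) := by
    refine (MeasurePreserving.id _).skew_product hUm ?_
    filter_upwards [ae_injective (V := V)] with T hT
    exact hlaw T hT
  have hXi : Measurable (Xi P) := by
    have h : Measurable (fun q : Unit × (V → ℝ × (ℕ → ℝ)) => Xi P q.2) :=
      measurable_Xi (α := Unit) (V := V) (fun _ => P) (fun i n => (hPm i n).comp measurable_snd)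
    have h2 : Measurable (fun w : V → ℝ × (ℕ → ℝ) => (((), w) : Unit × (V → ℝ × (ℕ → ℝ)))) :=
      measurable_const.prodMk measurable_id
    have h3 := Measurable.comp h h2
    have h4 : ((fun q : Unit × (V → ℝ × (ℕ → ℝ)) => Xi P q.2) ∘
      (fun w : V → ℝ × (ℕ → ℝ) => (((), w) : Unit × (V → ℝ × (ℕ → ℝ))))) = Xi P := rfl
    rwa [h4] at h3
  have hzip : Measurable (fun p : (V → ℝ) × (V → ℕ → ℝ) => fun i : V => (p.1 i, p.2 i)) := by
    fun_prop
  rw [← map_zip_infinitePi, Measure.map_map hXi hzip, ← hskew.map_eq,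
    Measure.map_map (hXi.comp hzip) hskew.measurable]
  have hae : ((Xi P ∘ fun p : (V → ℝ) × (V → ℕ → ℝ) => fun i : V => (p.1 i, p.2 i)) ∘
      fun p : (V → ℝ) × Om V => (p.1, Uf p.1 p.2))
      =ᵐ[(Measure.infinitePi fun _ : V => U01).prod (PP ν)] fun p => p.2.1 := by
    have h1 : ∀ᵐ ω ∂(PP ν), (∀ i k, 0 ≤ Yo ω i k ∧ Yo ω i k ≤ 1) ∧ recov (Yo ω) = ω.1 :=
      (Yo_mem_Icc ν).and (recov_Yo ν)
    have h2 := (Measure.quasiMeasurePreserving_snd
      (μ := Measure.infinitePi fun _ : V => U01) (ν := PP ν)).ae h1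
    filter_upwards [h2] with p hp
    simp only [Function.comp_apply, Xi]
    have : Theta P p.1 (Uf p.1 p.2) = Yo p.2 := by
      refine Theta_eq_of_fixed P hP01 hPL p.1 (Uf p.1 p.2) (Yo p.2) hp.1 fun i k => ?_
      simp only [hUf]
      ring
    exact (congrArg recov this).trans hp.2
  rw [Measure.map_congr hae]
  have h3 : (fun p : (V → ℝ) × Om V => p.2.1) = Prod.fst ∘ Prod.snd := rfl
  rw [h3, ← Measure.map_map measurable_fst measurable_snd, Measure.map_snd_prod, measure_univ,
    one_smul]
  unfold PP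
  rw [Measure.map_fst_prod, measure_univ, one_smul]

end Crest.Agent.R168
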