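import Crest.Agent.R168.Defs

/-! Auxiliary probability space of the revealing scheme (shared by T2, T3, T4). -/

set_option autoImplicit false

namespace Crest.Agent.R168

open MeasureTheory ProbabilityTheory Filter Topology

noncomputable section

/-- configuration × (potential observation if occupied, potential observation if empty). -/
abbrev Om (V : Type*) := (V → Bool) × (V × ℕ → ℝ × ℝ)

instance : IsProbabilityMeasure U01' := by
  constructor
  unfold U01' U01
  rw [withDensity_apply _ MeasurableSet.univ, Measure.restrict_univ,
    ← ofReal_integral_eq_lintegral_ofReal]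
  · rw [integral_Icc_eq_integral_Ioc, ← intervalIntegral.integral_of_le zero_le_one]
    have h : ∀ y ∈ Set.uIcc (0 : ℝ) 1, HasDerivAt (fun y : ℝ => y - (y - y ^ 2) / 4)
        (1 + (2 * y - 1) / 4) y := by
      intro y _
      have h1 := (hasDerivAt_id' y).sub (((hasDerivAt_id' y).sub (hasDerivAt_pow 2 y)).div_const 4)
      refine h1.congr_deriv ?_
      simp
      ring
    rw [intervalIntegral.integral_eq_sub_of_hasDerivAt h]
    · norm_num
    · exact (Continuous.intervalIntegrable (by fun_prop) _ _)
  · exact (Continuous.integrableOn_Icc (by fun_prop))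
  · refine (ae_restrict_iff' measurableSet_Icc).2 (Eventually.of_forall fun y hy => ?_)
    have := hy.1
    have := hy.2
    simp only [Pi.zero_apply]
    linarith

/-- joint law of the configuration and the potential observations. -/
def PP {V : Type*} (ν : Measure (V → Bool)) : Measure (Om V) :=
  ν.prod (Measure.infinitePi fun _ : V × ℕ => U01'.prod U01)

/-- the observation of site `i` in round `k`. -/
def Yo {V : Type*} (ω : Om V) (i : V) (k : ℕ) : ℝ :=
  if ω.1 i = true then (ω.2 (i, k)).1 else (ω.2 (i, k)).2

/-- updates before `(i,k)`. -/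
def past {V : Type*} (T : V → ℝ) (i : V) (k : ℕ) : Set (V × ℕ) :=
  {b | b.2 < k ∨ (b.2 = k ∧ T b.1 < T i)}

/-- sigma-algebra of the observations before `(i,k)`. -/
@[reducible] def Gs {V : Type*} (T : V → ℝ) (i : V) (k : ℕ) : MeasurableSpace (Om V) :=
  MeasurableSpace.comap (fun (ω : Om V) (b : past T i k) => Yo ω b.1.1 b.1.2) MeasurableSpace.pi

/-- indicator that `i` is occupied. -/
def occInd {V : Type*} (i : V) (ω : Om V) : ℝ := if ω.1 i = true then 1 else 0

end

end Crest.Agent.R168
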